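import Claimed.Agent.R256.Hyb.Contract

/-!
# Row 256, unit HYB: LOCALITY ALONG A STACK OF MASKS      (helper218; prefix `hy_sk_`)

Shared by Chan/ADH ((CHν) of `ch_mem_hyb`), Soft/CORE (`sp`, `tp`), Soft/GE.

ABSTRACT PART (any packet system `P`, any relation `cn T k T' k' x x'` between the rows of two cuts)
* `hyRch cn k' i st T k x x'`   a chain of rows `x = x_0, x_1, .., x_K, x_{K+1} = x'` along the branch of the interval `i` of depth `k'`: `x_a` lies in the SUPPORT of the mask of the `a`-th stage, consecutive rows are `cn`-related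
* `HySep P cn κ klo khi`        measurable approximate successor sets: every measurable `S` at the cut `(T,k)` has a measurable `S⁺` at the cut `(T',k')`, contained in the `cn`-successors of `S`, such that
                                `ms (S⁺)ᶜ (An^* 1_S F) ≤ κ² ‖F‖²`
* `hy_sk_stack`, `hy_sk_tz`     no chain from `S` (from the support of `M0`) to the support of `θ`  ⟹  `en θ (run st (An^* 1_S G)) ≤ ((K+1) κ)² ‖G‖²`
HYBRID INSTANCE
* `hy_sk_sep`                   `HySep (p.sys η) (hyCn p (Λ+1)) (52 exp(-Λ²/40) 2^((khi-klo)/4)) klo khi`      (grid of cells `(q_k/4, d_k/4)` in `(D,N)` + fibres of positive measure; `hy_loc_ker`)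
* `hy_sk_comp`                  `hyCn a ∘ hyCn b ⊆ hyCn (2a + b)`
-/

set_option autoImplicit false

namespace Claimed.Agent.R256

open MeasureTheory
open scoped ENNReal

/-- a chain of rows through the supports of the masks of a stack, along the branch of the interval `i` of depth `k'` -/
def hyRch {P : PkSys} (cn : ℝ → ℕ → ℝ → ℕ → P.X → P.X → Prop) (k' i : ℕ) : List (Stg P) → ℝ → ℕ → P.X → P.X → Prop
  | [], T, k, x, x' => cn T k (tmL k' i) k' x x'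
  | σ :: l, T, k, x, x' => ∃ y, cn T k (tmL σ.k (ancI k' σ.k i)) σ.k x y ∧ σ.M (ancI k' σ.k i) y ≠ 0 ∧
      hyRch cn k' i l (tmL σ.k (ancI k' σ.k i)) σ.k y x'

/-- measurable approximate successor sets with the transfer error `κ`, for the cuts of depths in `[klo, khi]` -/
def HySep (P : PkSys) (cn : ℝ → ℕ → ℝ → ℕ → P.X → P.X → Prop) (κ : ℝ) (klo khi : ℕ) : Prop :=
  ∀ (T : ℝ) (k : ℕ) (T' : ℝ) (k' : ℕ), CutLe T k T' k' → klo ≤ k → k' ≤ khi → ∀ S : Set P.X, MeasurableSet S →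
    ∃ S' : Set P.X, MeasurableSet S' ∧ (∀ x' ∈ S', ∃ x ∈ S, cn T k T' k' x x') ∧
      ∀ (F : Lp P.Fb 2 (P.rho k)) (b b' : ℕ),
        P.ms T' k' b' S'ᶜ (ContinuousLinearMap.adjoint (P.An T k b) (P.mulR k (S.indicator fun _ => 1) F)) ≤ κ ^ 2 * ‖F‖ ^ 2

theorem hy_sk_eqns_cite : True := by
  have := @hyRch.eq_1
  have := @hyRch.eq_2
  have := @HySep.eq_1
  trivial

/-- **locality along a stack** (abstract) -/
theorem hy_sk_stack {P : PkSys} (hT : P.Tight) (cn : ℝ → ℕ → ℝ → ℕ → P.X → P.X → Prop) (κ : ℝ) (hκ : 0 ≤ κ) (klo khi : ℕ)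
    (hsep : HySep P cn κ klo khi) (k' i b' : ℕ) (hk' : k' ≤ khi) {θ : P.X → ℝ} (hθ : IsMask θ) :
    ∀ (st : List (Stg P)) (k c : ℕ) (S : Set P.X) (G : Lp P.Fb 2 (P.rho k)), StM st → (∀ σ ∈ st, k ≤ σ.k ∧ σ.k ≤ k') → k ≤ k' → klo ≤ k →
      st.Pairwise (fun σ σ' => σ.k ≤ σ'.k) → MeasurableSet S →
      (∀ x ∈ S, ∀ x', θ x' ≠ 0 → ¬ hyRch cn k' i st (tmL k (ancI k' k i)) k x x') →
      Real.sqrt (P.en (tmL k' i) k' b' θ (Xp.run k' i st (ContinuousLinearMap.adjoint (P.An (tmL k (ancI k' k i)) k c) (P.mulR k (S.indicator fun _ => 1) G))))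
        ≤ ((st.length : ℝ) + 1) * κ * ‖G‖ := by
  intro st
  induction st with
  | nil =>
    intro k c S G _ _ hk hlo _ hS hno
    obtain ⟨S', hS', hsucc, hker⟩ := hsep _ k _ k' (gn_cutle_anc hk i) hlo hk' S hS
    have h1 : ∀ x', θ x' ≠ 0 → x' ∈ S'ᶜ := by
      intro x' hx' hmem
      obtain ⟨x, hx, hcn⟩ := hsucc x' hmem
      exact hno x hx x' hx' hcn
    have h2 := gn_en_le_ms (tmL k' i) k' b' hθ hS'.compl h1
      (ContinuousLinearMap.adjoint (P.An (tmL k (ancI k' k i)) k c) (P.mulR k (S.indicator fun _ => 1) G))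
    simp only [List.length_nil, Nat.cast_zero, zero_add, one_mul, Xp.run]
    refine Real.sqrt_le_iff.2 ⟨by positivity, ?_⟩
    rw [mul_pow]
    exact h2.trans (hker G c b')
  | cons σ l ih =>
    intro k c S G hst hdep hk hlo hpw hS hno
    obtain ⟨hσ1, hσ2⟩ := hdep σ List.mem_cons_self
    rw [List.pairwise_cons] at hpw
    have hl : StM l := fun τ hτ => hst τ (List.mem_cons_of_mem _ hτ)
    have hM : IsMask (σ.M (ancI k' σ.k i)) := hst σ List.mem_cons_self _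
    have hc : CutLe (tmL k (ancI k' k i)) k (tmL σ.k (ancI k' σ.k i)) σ.k := hy_tl_cut k σ.k k' i hσ1 hσ2
    obtain ⟨S', hS', hsucc, hker⟩ := hsep _ k _ σ.k hc hlo (hσ2.trans hk') S hS
    set τk := tmL k (ancI k' k i) with hτk
    set τσ := tmL σ.k (ancI k' σ.k i) with hτσ
    set M := σ.M (ancI k' σ.k i) with hMdef
    set v₀ := ContinuousLinearMap.adjoint (P.An τk k c) (P.mulR k (S.indicator fun _ => 1) G) with hv₀
    set G₁ : Lp P.Fb 2 (P.rho σ.k) := P.mulR σ.k M (P.An τσ σ.k σ.b v₀) with hG₁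
    have hsuppM : MeasurableSet {x | M x ≠ 0} := (measurableSet_eq_fun hM.1 measurable_const).compl
    set S₁ : Set P.X := S' ∩ {x | M x ≠ 0} with hS₁def
    have hS₁ : MeasurableSet S₁ := hS'.inter hsuppM
    have hI : IsMask (S.indicator fun _ => (1 : ℝ)) := gn_mask_ind hS
    have hv₀n : ‖v₀‖ ≤ ‖G‖ := (gn_adj_norm_le hT _ _ _ _).trans (gn_mulR_norm_le k hI G)
    have hG₁n : ‖G₁‖ ≤ ‖G‖ := ((gn_mulR_norm_le σ.k hM _).trans (hT.contr _ _ _ _)).trans hv₀n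
    -- the part outside the successor set
    have hout : ‖P.mulR σ.k (S₁ᶜ.indicator fun _ => 1) G₁‖ ≤ κ * ‖G‖ := by
      have e1 : P.mulR σ.k (S₁ᶜ.indicator fun _ => 1) G₁ = P.mulR σ.k (S'ᶜ.indicator fun _ => 1) G₁ := by
        rw [hG₁, gn_mulR_mulR σ.k (gn_mask_ind hS₁.compl) hM, gn_mulR_mulR σ.k (gn_mask_ind hS'.compl) hM]
        congr 1
        funext x
        by_cases hx : x ∈ S'
        · by_cases hx0 : M x = 0
          · simp [hx0]
          · have : x ∈ S₁ := ⟨hx, hx0⟩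
            simp [hx, this]
        · have : x ∉ S₁ := fun h => hx h.1
          simp [hx, this]
      rw [e1]
      refine (hy_tl_mulR_le σ.k hS'.compl hM _).trans ?_
      rw [← hy_tl_sqrt_ms τσ σ.k σ.b hS'.compl v₀]
      refine Real.sqrt_le_iff.2 ⟨by positivity, ?_⟩
      rw [mul_pow]
      exact hker G c σ.b
    have IH := ih σ.k σ.b S₁ G₁ hl (fun σ' hσ' => ⟨hpw.1 σ' hσ', (hdep σ' (List.mem_cons_of_mem _ hσ')).2⟩) hσ2 (hlo.trans hσ1) hpw.2 hS₁
      (by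
        intro y hy x' hx' hr
        obtain ⟨x, hx, hcn⟩ := hsucc y hy.1
        exact hno x hx x' hx' ⟨y, hcn, hy.2, hr⟩)
    have hrun : Xp.run k' i (σ :: l) v₀ = Xp.run k' i l (ContinuousLinearMap.adjoint (P.An τσ σ.k σ.b) G₁) := rfl
    rw [hrun]
    have e : ContinuousLinearMap.adjoint (P.An τσ σ.k σ.b) G₁
        = ContinuousLinearMap.adjoint (P.An τσ σ.k σ.b) (P.mulR σ.k (S₁.indicator fun _ => 1) G₁)
          + ContinuousLinearMap.adjoint (P.An τσ σ.k σ.b) (P.mulR σ.k (S₁ᶜ.indicator fun _ => 1) G₁) := by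
      rw [← map_add, hy_tl_split σ.k hS₁ G₁]
    rw [e, gn_run_add k' i l hl]
    have t := gn_en_tri (tmL k' i) k' b' hθ
      (Xp.run k' i l (ContinuousLinearMap.adjoint (P.An τσ σ.k σ.b) (P.mulR σ.k (S₁.indicator fun _ => 1) G₁)))
      (Xp.run k' i l (ContinuousLinearMap.adjoint (P.An τσ σ.k σ.b) (P.mulR σ.k (S₁ᶜ.indicator fun _ => 1) G₁)))
    have t2 : Real.sqrt (P.en (tmL k' i) k' b' θ
        (Xp.run k' i l (ContinuousLinearMap.adjoint (P.An τσ σ.k σ.b) (P.mulR σ.k (S₁ᶜ.indicator fun _ => 1) G₁)))) ≤ κ * ‖G‖ := by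
      refine Real.sqrt_le_iff.2 ⟨by positivity, ?_⟩
      refine (gn_en_le hT _ _ _ hθ _).trans ?_
      have := ((gn_run_norm_le hT k' i l hl _).trans (gn_adj_norm_le hT τσ σ.k σ.b _)).trans hout
      exact pow_le_pow_left₀ (norm_nonneg _) this 2
    have hlen : (((σ :: l).length : ℕ) : ℝ) = (l.length : ℝ) + 1 := by simp
    rw [hlen]
    have t1 : ((l.length : ℝ) + 1) * κ * ‖G₁‖ ≤ ((l.length : ℝ) + 1) * κ * ‖G‖ :=
      mul_le_mul_of_nonneg_left hG₁n (by positivity)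
    calc _ ≤ _ := t
      _ ≤ ((l.length : ℝ) + 1) * κ * ‖G‖ + κ * ‖G‖ := add_le_add (IH.trans t1) t2
      _ = ((l.length : ℝ) + 1 + 1) * κ * ‖G‖ := by ring

/-- **locality along a stack**, the input is a restricted gate `An^* M0 An v` -/
theorem hy_sk_tz {P : PkSys} (hT : P.Tight) (cn : ℝ → ℕ → ℝ → ℕ → P.X → P.X → Prop) (κ : ℝ) (hκ : 0 ≤ κ) (klo khi : ℕ)
    (hsep : HySep P cn κ klo khi) (k' i b' : ℕ) (hk' : k' ≤ khi) {θ : P.X → ℝ} (hθ : IsMask θ)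
    (st : List (Stg P)) (k c : ℕ) {M0 : P.X → ℝ} (hM0 : IsMask M0) (v : P.Kc) (hst : StM st) (hdep : ∀ σ ∈ st, k ≤ σ.k ∧ σ.k ≤ k') (hk : k ≤ k') (hlo : klo ≤ k)
    (hpw : st.Pairwise (fun σ σ' => σ.k ≤ σ'.k))
    (hno : ∀ x, M0 x ≠ 0 → ∀ x', θ x' ≠ 0 → ¬ hyRch cn k' i st (tmL k (ancI k' k i)) k x x') :
    P.en (tmL k' i) k' b' θ (Xp.run k' i st (P.tz (tmL k (ancI k' k i)) k c M0 v)) ≤ (((st.length : ℝ) + 1) * κ) ^ 2 * ‖v‖ ^ 2 := by
  have hS : MeasurableSet {x | M0 x ≠ 0} := (measurableSet_eq_fun hM0.1 measurable_const).compl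
  have e : P.mulR k M0 (P.An (tmL k (ancI k' k i)) k c v)
      = P.mulR k (({x | M0 x ≠ 0} : Set P.X).indicator fun _ => 1) (P.mulR k M0 (P.An (tmL k (ancI k' k i)) k c v)) := by
    rw [gn_mulR_mulR k (gn_mask_ind hS) hM0]
    congr 1
    funext x
    by_cases hx : M0 x = 0
    · simp [hx]
    · simp [hx]
  have h := hy_sk_stack hT cn κ hκ klo khi hsep k' i b' hk' hθ st k c {x | M0 x ≠ 0} (P.mulR k M0 (P.An (tmL k (ancI k' k i)) k c v)) hst hdep hk hlo hpw hS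
    (fun x hx => hno x hx)
  rw [← e] at h
  have hn : ‖P.mulR k M0 (P.An (tmL k (ancI k' k i)) k c v)‖ ≤ ‖v‖ := (gn_mulR_norm_le k hM0 _).trans (hT.contr _ _ _ _)
  have h0 : 0 ≤ P.en (tmL k' i) k' b' θ (Xp.run k' i st (P.tz (tmL k (ancI k' k i)) k c M0 v)) := gn_en_nonneg _ _ _ (fun x => (hθ.2 x).1) _
  have h' : Real.sqrt (P.en (tmL k' i) k' b' θ (Xp.run k' i st (P.tz (tmL k (ancI k' k i)) k c M0 v))) ≤ ((st.length : ℝ) + 1) * κ * ‖v‖ :=
    h.trans (mul_le_mul_of_nonneg_left hn (by positivity))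
  calc _ = Real.sqrt (P.en (tmL k' i) k' b' θ (Xp.run k' i st (P.tz (tmL k (ancI k' k i)) k c M0 v))) ^ 2 := (Real.sq_sqrt h0).symm
    _ ≤ (((st.length : ℝ) + 1) * κ * ‖v‖) ^ 2 := pow_le_pow_left₀ (Real.sqrt_nonneg _) h' 2
    _ = _ := by ring

/-! ### the hybrid instance -/

/-- masks that agree almost everywhere act in the same way -/
theorem hy_sk_mulR_congr {P : PkSys} (k : ℕ) {S St : Set P.X} (hS : MeasurableSet S) (hSt : MeasurableSet St) (hsub : St ⊆ S) (h0 : P.rho k (S \ St) = 0)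
    (F : Lp P.Fb 2 (P.rho k)) : P.mulR k (S.indicator fun _ => 1) F = P.mulR k (St.indicator fun _ => 1) F := by
  apply Lp.ext
  have h1 := gn_mulR_coe k (gn_mask_ind hS) F
  have h2 := gn_mulR_coe k (gn_mask_ind hSt) F
  have h3 : ∀ᵐ x ∂(P.rho k), x ∉ S \ St := measure_eq_zero_iff_ae_notMem.1 h0
  filter_upwards [h1, h2, h3] with x e1 e2 e3
  rw [e1, e2]
  by_cases hx : x ∈ St
  · simp [hx, hsub hx]
  · have : x ∉ S := fun hxS => e3 ⟨hxS, hx⟩
    simp [hx, this]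

/-- composition of two correspondences -/
theorem hy_sk_comp (p : ChyPar) (h : p.Ok) (a b T : ℝ) (k : ℕ) (T' : ℝ) (k' : ℕ) (T'' : ℝ) (k'' : ℕ) (ha : 0 ≤ a) (hb : 0 ≤ b)
    (hc : CutLe T k T' k') (hc' : CutLe T' k' T'' k'') (x x' x'' : p.Om × ℝ × ℝ)
    (h1 : hyCn p a T k T' k' x x') (h2 : hyCn p b T' k' T'' k'' x' x'') : hyCn p (2 * a + b) T k T'' k'' x x'' := by
  obtain ⟨e1, n1, d1⟩ := h1
  obtain ⟨e2, n2, d2⟩ := h2
  have hd := hy_tl_dl_mono p h hc'.1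
  have hq := hy_tl_ql_anti p h hc.1
  have hd0 := hy_tl_dl_nonneg p k'
  have hq0 := hy_tl_ql_nonneg p k'
  have hq0' := hy_tl_ql_nonneg p k
  have hd0' := hy_tl_dl_nonneg p k''
  refine ⟨e1.trans e2, ?_, ?_⟩
  · have t : |x''.2.2 - x.2.2| ≤ |x''.2.2 - x'.2.2| + |x'.2.2 - x.2.2| := by
      have := abs_add_le (x''.2.2 - x'.2.2) (x'.2.2 - x.2.2)
      rwa [show x''.2.2 - x'.2.2 + (x'.2.2 - x.2.2) = x''.2.2 - x.2.2 by ring] at this
    have t1 : a * p.dl k' ≤ a * p.dl k'' := mul_le_mul_of_nonneg_left hd ha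
    have t2 : 0 ≤ a * p.dl k'' := mul_nonneg ha hd0'
    nlinarith
  · have hτ0 : 0 ≤ T'' - T' := by linarith [hc'.2.1]
    have hτ1 : T'' - T' ≤ (2 : ℝ)⁻¹ ^ k' := by linarith [hc'.2.2]
    have e : x''.2.1 - x.2.1 - (T'' - T) * x.2.2
        = (x''.2.1 - x'.2.1 - (T'' - T') * x'.2.2) + (x'.2.1 - x.2.1 - (T' - T) * x.2.2) + (T'' - T') * (x'.2.2 - x.2.2) := by ring
    have t : |x''.2.1 - x.2.1 - (T'' - T) * x.2.2|
        ≤ |x''.2.1 - x'.2.1 - (T'' - T') * x'.2.2| + |x'.2.1 - x.2.1 - (T' - T) * x.2.2| + (T'' - T') * |x'.2.2 - x.2.2| := by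
      rw [e]
      refine (abs_add_le _ _).trans ?_
      refine add_le_add (abs_add_le _ _) ?_
      rw [abs_mul, abs_of_nonneg hτ0]
    have t3 : (T'' - T') * |x'.2.2 - x.2.2| ≤ a * p.ql k' := by
      calc (T'' - T') * |x'.2.2 - x.2.2| ≤ (2 : ℝ)⁻¹ ^ k' * (a * p.dl k') := mul_le_mul hτ1 n1 (abs_nonneg _) (by positivity)
        _ = a * p.ql k' := by rw [hy_lc_ql p k']; ring
    have t4 : a * p.ql k' ≤ a * p.ql k := mul_le_mul_of_nonneg_left hq ha
    have t5 : b * p.ql k' ≤ b * p.ql k := mul_le_mul_of_nonneg_left hq hb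
    nlinarith

/-- monotonicity in the truncation -/
theorem hy_sk_mono (p : ChyPar) {a b : ℝ} (hab : a ≤ b) (T : ℝ) (k : ℕ) (T' : ℝ) (k' : ℕ) (x x' : p.Om × ℝ × ℝ) (h1 : hyCn p a T k T' k' x x') :
    hyCn p b T k T' k' x x' :=
  ⟨h1.1, h1.2.1.trans (mul_le_mul_of_nonneg_right hab (hy_tl_dl_nonneg p k')), h1.2.2.trans (mul_le_mul_of_nonneg_right hab (hy_tl_ql_nonneg p k))⟩

/-- the cell of the grid of mesh `(a, b)` -/
noncomputable def hyCel (a b : ℝ) (z : ℝ × ℝ) : ℤ × ℤ := (⌊z.1 / a⌋, ⌊z.2 / b⌋)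

theorem hy_sk_cel_eqns_cite : True := by
  have := @hyCel.eq_1
  trivial

theorem hy_sk_cel_meas (a b : ℝ) : Measurable (hyCel a b) := by
  unfold hyCel
  exact ((measurable_fst.div_const a).floor).prodMk ((measurable_snd.div_const b).floor)

theorem hy_sk_floor (a y : ℝ) (ha : 0 < a) : |y - (⌊y / a⌋ : ℝ) * a| ≤ a := by
  have h1 := Int.floor_le (y / a)
  have h2 := Int.lt_floor_add_one (y / a)
  rw [le_div_iff₀ ha] at h1
  rw [div_lt_iff₀ ha] at h2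
  rw [abs_le]
  constructor <;> nlinarith

/-- **measurable approximate successor sets** in the hybrid model -/
theorem hy_sk_succ (p : ChyPar) (h : p.Ok) (Λ : ℝ) (T : ℝ) (k : ℕ) (T' : ℝ) (k' : ℕ) (hc : CutLe T k T' k')
    (S : Set (p.Om × ℝ × ℝ)) (hS : MeasurableSet S) :
    ∃ St Sp : Set (p.Om × ℝ × ℝ), MeasurableSet St ∧ MeasurableSet Sp ∧ St ⊆ S ∧ p.rw (S \ St) = 0 ∧
      (∀ x ∈ St, ∀ x' ∈ Spᶜ, ¬ hyCn p Λ T k T' k' x x') ∧ (∀ x' ∈ Sp, ∃ x ∈ S, hyCn p (Λ + 1) T k T' k' x x') := by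
  have hH := h.H_pos
  have hq : 0 < p.ql k := by unfold ChyPar.ql; positivity
  have hd : 0 < p.dl k := by unfold ChyPar.dl; positivity
  have hdk := hy_tl_dl_mono p h hc.1
  set a := p.ql k / 4 with ha
  set b := p.dl k / 4 with hb
  have ha0 : 0 < a := by positivity
  have hb0 : 0 < b := by positivity
  have hτ0 : 0 ≤ T' - T := by linarith [hc.2.1]
  have hτ1 : T' - T ≤ (2 : ℝ)⁻¹ ^ k := by linarith [hc.2.2]
  have hτb : (T' - T) * b ≤ a := by
    calc (T' - T) * b ≤ (2 : ℝ)⁻¹ ^ k * b := mul_le_mul_of_nonneg_right hτ1 hb0.le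
      _ = a := by rw [ha, hb, hy_lc_ql p k]; ring
  -- the pieces
  set Sc : ℤ × ℤ → Set (p.Om × ℝ × ℝ) := fun c => S ∩ {x | hyCel a b x.2 = c} with hSc
  have hScm : ∀ c, MeasurableSet (Sc c) := fun c =>
    hS.inter (((hy_sk_cel_meas a b).comp measurable_snd) (measurableSet_singleton c))
  set O : ℤ × ℤ → Set p.Om := fun c => {ω | 0 < (volume : Measure (ℝ × ℝ)) (Prod.mk ω ⁻¹' Sc c)} with hO
  have hOm : ∀ c, MeasurableSet (O c) := fun c =>
    measurableSet_lt measurable_const (measurable_measure_prodMk_left (hScm c))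
  set Bx : ℤ × ℤ → Set (p.Om × ℝ × ℝ) := fun c => {x' | x'.1 ∈ O c ∧ |x'.2.2 - (c.2 : ℝ) * b| ≤ Λ * p.dl k' + b ∧
    |x'.2.1 - (c.1 : ℝ) * a - (T' - T) * ((c.2 : ℝ) * b)| ≤ Λ * p.ql k + a + (T' - T) * b} with hBx
  have hBxm : ∀ c, MeasurableSet (Bx c) := by
    intro c
    have m1 : MeasurableSet {x' : p.Om × ℝ × ℝ | x'.1 ∈ O c} := measurable_fst (hOm c)
    have m2 : MeasurableSet {x' : p.Om × ℝ × ℝ | |x'.2.2 - (c.2 : ℝ) * b| ≤ Λ * p.dl k' + b} :=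
      measurableSet_le (((measurable_snd.comp measurable_snd).sub_const _).abs) measurable_const
    have m3 : MeasurableSet {x' : p.Om × ℝ × ℝ | |x'.2.1 - (c.1 : ℝ) * a - (T' - T) * ((c.2 : ℝ) * b)| ≤ Λ * p.ql k + a + (T' - T) * b} :=
      measurableSet_le ((((measurable_fst.comp measurable_snd).sub_const _).sub_const _).abs) measurable_const
    exact m1.inter (m2.inter m3)
  refine ⟨⋃ c, Sc c ∩ {x | x.1 ∈ O c}, ⋃ c, Bx c, MeasurableSet.iUnion fun c => (hScm c).inter (measurable_fst (hOm c)),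
    MeasurableSet.iUnion hBxm, ?_, ?_, ?_, ?_⟩
  · intro x hx
    obtain ⟨c, hc1, -⟩ := Set.mem_iUnion.1 hx
    exact hc1.1
  · -- the removed part is null
    have hsub : S \ (⋃ c, Sc c ∩ {x | x.1 ∈ O c}) ⊆ ⋃ c, Sc c ∩ {x | x.1 ∉ O c} := by
      intro x hx
      refine Set.mem_iUnion.2 ⟨hyCel a b x.2, ⟨hx.1, rfl⟩, fun hxO => hx.2 (Set.mem_iUnion.2 ⟨hyCel a b x.2, ⟨hx.1, rfl⟩, hxO⟩)⟩
    have hnull : ∀ c, (p.m.prod (volume : Measure (ℝ × ℝ))) (Sc c ∩ {x | x.1 ∉ O c}) = 0 := by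
      intro c
      have hm : MeasurableSet (Sc c ∩ {x : p.Om × ℝ × ℝ | x.1 ∉ O c}) := (hScm c).inter (measurable_fst (hOm c).compl)
      rw [Measure.prod_apply hm]
      refine lintegral_eq_zero_of_ae_eq_zero (Filter.Eventually.of_forall fun ω => ?_)
      by_cases hω : ω ∈ O c
      · have : Prod.mk ω ⁻¹' (Sc c ∩ {x : p.Om × ℝ × ℝ | x.1 ∉ O c}) = ∅ := by
          ext z
          simp [hω]
        simp [this]
      · have h0 : (volume : Measure (ℝ × ℝ)) (Prod.mk ω ⁻¹' Sc c) = 0 := by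
          by_contra hne
          exact hω (pos_iff_ne_zero.2 hne)
        exact measure_mono_null (fun z hz => hz.1) h0
    have h1 : (p.m.prod (volume : Measure (ℝ × ℝ))) (S \ (⋃ c, Sc c ∩ {x | x.1 ∈ O c})) = 0 :=
      measure_mono_null hsub (measure_iUnion_null hnull)
    exact (withDensity_absolutelyContinuous _ _) h1
  · intro x hx x' hx' hcn
    obtain ⟨c, ⟨hxS, hxc⟩, hxO⟩ := Set.mem_iUnion.1 hx
    apply hx'
    refine Set.mem_iUnion.2 ⟨c, ?_, ?_, ?_⟩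
    · show x'.1 ∈ O c
      rw [← hcn.1]
      exact hxO
    · have e1 : (c.2 : ℝ) = (⌊x.2.2 / b⌋ : ℝ) := by
        have : c = hyCel a b x.2 := hxc.symm
        rw [this]; rfl
      have f1 := hy_sk_floor b x.2.2 hb0
      rw [← e1] at f1
      have t := abs_add_le (x'.2.2 - x.2.2) (x.2.2 - (c.2 : ℝ) * b)
      rw [show x'.2.2 - x.2.2 + (x.2.2 - (c.2 : ℝ) * b) = x'.2.2 - (c.2 : ℝ) * b by ring] at t
      linarith [hcn.2.1]
    · have e1 : (c.2 : ℝ) = (⌊x.2.2 / b⌋ : ℝ) := by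
        have : c = hyCel a b x.2 := hxc.symm
        rw [this]; rfl
      have e2 : (c.1 : ℝ) = (⌊x.2.1 / a⌋ : ℝ) := by
        have : c = hyCel a b x.2 := hxc.symm
        rw [this]; rfl
      have f1 := hy_sk_floor b x.2.2 hb0
      have f2 := hy_sk_floor a x.2.1 ha0
      rw [← e1] at f1
      rw [← e2] at f2
      have e : x'.2.1 - (c.1 : ℝ) * a - (T' - T) * ((c.2 : ℝ) * b)
          = (x'.2.1 - x.2.1 - (T' - T) * x.2.2) + (x.2.1 - (c.1 : ℝ) * a) + (T' - T) * (x.2.2 - (c.2 : ℝ) * b) := by ring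
      rw [e]
      refine (abs_add_le _ _).trans ?_
      refine add_le_add ((abs_add_le _ _).trans (add_le_add hcn.2.2 f2)) ?_
      rw [abs_mul, abs_of_nonneg hτ0]
      exact mul_le_mul_of_nonneg_left f1 hτ0
  · intro x' hx'
    obtain ⟨c, hxO, hN, hD⟩ := Set.mem_iUnion.1 hx'
    have hne : (Prod.mk x'.1 ⁻¹' Sc c).Nonempty := by
      by_contra hemp
      rw [Set.not_nonempty_iff_eq_empty] at hemp
      have : 0 < (volume : Measure (ℝ × ℝ)) (Prod.mk x'.1 ⁻¹' Sc c) := hxO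
      rw [hemp] at this
      simp at this
    obtain ⟨z, hzS, hzc⟩ := hne
    have hzc' : hyCel a b z = c := hzc
    have e1 : (c.2 : ℝ) = (⌊z.2 / b⌋ : ℝ) := by rw [← hzc']; rfl
    have e2 : (c.1 : ℝ) = (⌊z.1 / a⌋ : ℝ) := by rw [← hzc']; rfl
    have f1 := hy_sk_floor b z.2 hb0
    have f2 := hy_sk_floor a z.1 ha0
    rw [← e1] at f1
    rw [← e2] at f2
    refine ⟨(x'.1, z), hzS, rfl, ?_, ?_⟩
    · show |x'.2.2 - z.2| ≤ (Λ + 1) * p.dl k'
      have t := abs_add_le (x'.2.2 - (c.2 : ℝ) * b) ((c.2 : ℝ) * b - z.2)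
      rw [show x'.2.2 - (c.2 : ℝ) * b + ((c.2 : ℝ) * b - z.2) = x'.2.2 - z.2 by ring, abs_sub_comm ((c.2 : ℝ) * b) z.2] at t
      have : 2 * b ≤ p.dl k' := by rw [hb]; linarith
      nlinarith
    · show |x'.2.1 - z.1 - (T' - T) * z.2| ≤ (Λ + 1) * p.ql k
      have e : x'.2.1 - z.1 - (T' - T) * z.2
          = (x'.2.1 - (c.1 : ℝ) * a - (T' - T) * ((c.2 : ℝ) * b)) + ((c.1 : ℝ) * a - z.1) + (T' - T) * ((c.2 : ℝ) * b - z.2) := by ring
      have t : |x'.2.1 - z.1 - (T' - T) * z.2| ≤ (Λ * p.ql k + a + (T' - T) * b) + a + (T' - T) * b := by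
        rw [e]
        refine (abs_add_le _ _).trans ?_
        refine add_le_add ((abs_add_le _ _).trans (add_le_add hD ?_)) ?_
        · rw [abs_sub_comm]; exact f2
        · rw [abs_mul, abs_of_nonneg hτ0, abs_sub_comm]
          exact mul_le_mul_of_nonneg_left f1 hτ0
      have : 4 * a = p.ql k := by rw [ha]; ring
      nlinarith

/-- **the hybrid model has measurable approximate successor sets** -/
theorem hy_sk_sep (η : ℝ) (p : ChyPar) (h : p.Ok) (Λ : ℝ) (hΛ : 1 ≤ Λ) (klo khi : ℕ) :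
    HySep (p.sys η) (fun T k T' k' x x' => hyCn p (Λ + 1) T k T' k' x x') (52 * Real.exp (-(Λ ^ 2 / 40)) * 2 ^ (((khi : ℝ) - klo) / 4)) klo khi := by
  intro T k T' k' hc hlo hhi S hS
  obtain ⟨St, Sp, hSt, hSp, hsub, h0, hno, hsucc⟩ := hy_sk_succ p h Λ T k T' k' hc S hS
  refine ⟨Sp, hSp, hsucc, fun F b b' => ?_⟩
  rw [hy_sk_mulR_congr (P := p.sys η) k hS hSt hsub h0 F]
  have hnum : (52 * Real.exp (-(Λ ^ 2 / 40))) ^ 2 * (2 : ℝ) ^ (((k' : ℝ) - k) / 2)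
      ≤ (52 * Real.exp (-(Λ ^ 2 / 40)) * 2 ^ (((khi : ℝ) - klo) / 4)) ^ 2 := by
    rw [mul_pow (52 * Real.exp (-(Λ ^ 2 / 40)))]
    refine mul_le_mul_of_nonneg_left ?_ (sq_nonneg _)
    rw [← Real.rpow_natCast ((2 : ℝ) ^ (((khi : ℝ) - klo) / 4)) 2, ← Real.rpow_mul (by norm_num)]
    refine Real.rpow_le_rpow_of_exponent_le (by norm_num) ?_
    have h1 : (k' : ℝ) ≤ khi := by exact_mod_cast hhi
    have h2 : (klo : ℝ) ≤ k := by exact_mod_cast hlo
    push_cast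
    linarith
  exact (hy_loc_ker η p h Λ hΛ T k T' k' hc St Spᶜ hSt hSp.compl hno F b b').trans (mul_le_mul_of_nonneg_right hnum (sq_nonneg ‖F‖))

end Claimed.Agent.R256
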