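import Claimed.Agent.R256.Hyb.Inst

/-!
# Row 256, unit HYB, FLOOR = polynomial test reduction for the hybrid cylinder      (architect helper90; prefix `hy_fl_`)      CONTRACT + GLUE

**EXIT  `hy_fl_floor (η) : 0 < η → η < 1 → (cylHyb η).Floor`**  (02-cylinder.tex l.226-245, (cyl:volume-bound)).
`Mdl.Floor` only asks for a lower bound of the WEIGHT of a heavy test, so the sublevel estimate (cyl:sublevel) is NOT needed, and no tail, no error term: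
  `μ(Q) ≤ min(1, 4 ℓ f²/(π H)) · E_S`,   `E_S` = energy of the state over the exact indices `S = hyBs Q` (the three base inequalities of `Q`)           (`hy_fl_cell1`, `hy_fl_cell2`)
  `E_S(run v) ≤ E_S(v)`   (the operators `An^* M An` act fibre by fibre over the exact index and are contractions on every set of fibres)              (`hy_fl_adj`, `hy_fl_tz`, `hy_fl_run`)
  `E_S(v) = ms(root cut){ω ∈ S} ≤ min(e, s^-C e · 8 (r/r0)⁴)`   (`hy_fl_ms_base`, `CySet.dens` on the sheared box `hy_fl_base`, `hy_fl_le_norm`)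
  `ℓ f²/H ≤ s^-C (f/f0)²`   (Planck parameter of the frame),  then pure arithmetic (`hy_fl_num`).
Every `sorry` is a leaf `L-256-HYB-FL*` (name in the docstring).   Statements FROZEN; auxiliary lemmas directly above your theorem, prefix `hy_fl_`; edit only your block.
The lemmas `hyE`, `hy_fl_adj`, `hy_fl_tz`, `hy_fl_run`, `hy_fl_ms_base` are also what TAIL needs for "base density at later cuts".
-/

set_option autoImplicit false

namespace Claimed.Agent.R256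

open MeasureTheory
open scoped ENNReal

/-- the energy of a state over a set of exact indices -/
noncomputable def hyE (p : ChyPar) (S : Set p.Om) (G : Lp p.Fb 2 (p.m.prod (volume : Measure ℝ))) : ℝ≥0∞ :=
  ∫⁻ y in {y : p.Om × ℝ | y.1 ∈ S}, ‖(G : p.Om × ℝ → p.Fb) y‖ₑ ^ 2 ∂(p.m.prod (volume : Measure ℝ))

/-- the exact indices that satisfy the three base inequalities of the test `Q` at the time `T`, length `l` -/
def hyBs (p : ChyPar) (Q : CyT) (l T : ℝ) : Set p.Om :=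
  {ω | |p.X ω - Q.x| ≤ Q.r ∧ |p.B ω + T * p.X ω - Q.b| ≤ l * Q.r ∧
    |p.Y ω + T * p.X ω ^ 2 - Q.y - 2 * Q.x * (p.B ω + T * p.X ω - Q.b)| ≤ l * Q.r ^ 2}

theorem hy_fl_eqns_cite : True := by
  have := @hyE.eq_1
  have := @hyBs.eq_1
  trivial

theorem hy_fl_norm_sq {X : Type*} [MeasurableSpace X] (μ : Measure X) {E : Type*} [NormedAddCommGroup E] (f : Lp E 2 μ) :
    ENNReal.ofReal (‖f‖ ^ 2) = ∫⁻ x, ‖(f : X → E) x‖ₑ ^ 2 ∂μ := by
  rw [Lp.norm_def, ENNReal.ofReal_pow ENNReal.toReal_nonneg, ENNReal.ofReal_toReal (Lp.eLpNorm_ne_top f),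
    eLpNorm_eq_lintegral_rpow_enorm_toReal (by norm_num) (by norm_num)]
  simp only [ENNReal.toReal_ofNat, ENNReal.rpow_two]
  rw [← ENNReal.rpow_natCast, ← ENNReal.rpow_mul]
  norm_num

theorem hy_fl_ind_norm_sq {X : Type*} [MeasurableSpace X] (μ : Measure X) {E : Type*} [NormedAddCommGroup E] (f : Lp E 2 μ)
    (A : Set X) (hA : MeasurableSet A) :
    ENNReal.ofReal (‖((Lp.memLp f).indicator hA).toLp (A.indicator f)‖ ^ 2) = ∫⁻ x in A, ‖(f : X → E) x‖ₑ ^ 2 ∂μ := by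
  rw [hy_fl_norm_sq, ← lintegral_indicator hA]
  refine lintegral_congr_ae ?_
  filter_upwards [((Lp.memLp f).indicator hA).coeFn_toLp] with x hx
  rw [hx]
  by_cases hxA : x ∈ A
  · simp [hxA]
  · simp [hxA]

/-- **LEAF L-256-HYB-FL0 (1).**  `setLIntegral_le_lintegral`; `‖G‖² = ∫⁻ ‖G‖ₑ²` (`Lp.norm_def`, `eLpNorm_eq_lintegral_rpow_enorm`, exponent `2`; cf. `MeasureTheory.L2.…`, or `Lp.enorm_def`). ~40 l. -/
theorem hy_fl_le_norm (p : ChyPar) (S : Set p.Om) (G : Lp p.Fb 2 (p.m.prod (volume : Measure ℝ))) :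
    hyE p S G ≤ ENNReal.ofReal (‖G‖ ^ 2) := by
  rw [hy_fl_norm_sq]
  exact setLIntegral_le_lintegral _ _

/-- **LEAF L-256-HYB-FL0 (2).**  Finite intersection of preimages of closed sets under measurable functions (`h.mX`, `h.mB`, `h.mY`; `measurableSet_le`). ~20 l. -/
theorem hy_fl_bs_meas (p : ChyPar) (h : p.Ok) (Q : CyT) (l T : ℝ) : MeasurableSet (hyBs p Q l T) := by
  have mX := h.mX
  have mB := h.mB
  have mY := h.mY
  have key : ∀ (f : p.Om → ℝ) (c : ℝ), Measurable f → MeasurableSet {x | |f x| ≤ c} := fun f c hf =>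
    measurableSet_le (by fun_prop) measurable_const
  unfold hyBs
  refine (key _ _ ?_).inter ((key _ _ ?_).inter (key _ _ ?_))
  all_goals fun_prop

theorem hy_fl_ms_lint (p : ChyPar) (h : p.Ok) (η T : ℝ) (k b : ℕ) (Z : Set (p.Om × ℝ × ℝ)) (hZ : MeasurableSet Z) (G : (p.sys η).Kc) :
    ENNReal.ofReal ((p.sys η).ms T k b Z G) = ∫⁻ x in Z, ‖(p.an T k G : p.Om × ℝ × ℝ → p.Fb) x‖ₑ ^ 2 ∂p.rw := by
  have h1 := hy_en_lint p h η T k b (Z.indicator fun _ => 1) (measurable_const.indicator hZ)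
    (fun x => Set.indicator_nonneg (fun _ _ => zero_le_one) x)
    (fun x => Set.indicator_le' (fun _ _ => le_rfl) (fun _ _ => zero_le_one) x) G _ (Filter.EventuallyEq.refl _ _)
  refine h1.trans ?_
  rw [← lintegral_indicator hZ]
  refine lintegral_congr fun x => ?_
  by_cases hx : x ∈ Z
  · rw [Set.indicator_of_mem hx, Set.indicator_of_mem hx, ENNReal.ofReal_one, one_mul]; rfl
  · rw [Set.indicator_of_notMem hx, Set.indicator_of_notMem hx, ENNReal.ofReal_zero, zero_mul]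

/-- **LEAF L-256-HYB-FL1: the mass over a set of exact indices, at any cut, is the energy over it.**
`PkSys.ms`, `hy_en_lint` with `θ` = the indicator (measurable: preimage of `S` under `Prod.fst`), `R = An v`;  `ofReal (indicator) * F = indicator (F)`, `lintegral_indicator`;  `hy_an_ind`.  ~60 l. -/
theorem hy_fl_ms_base (p : ChyPar) (h : p.Ok) (η : ℝ) (T : ℝ) (k b : ℕ) (S : Set p.Om) (hS : MeasurableSet S) (G : (p.sys η).Kc) :
    ENNReal.ofReal ((p.sys η).ms T k b {x : p.Om × ℝ × ℝ | x.1 ∈ S} G) = hyE p S G := by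
  exact (hy_fl_ms_lint p h η T k b _ (measurable_fst hS) G).trans (hy_an_ind p h T k S hS G)

/-- **LEAF L-256-HYB-FL2: synthesis does not move energy between exact indices.**
PLAN (duality, all in `Lp`).  `W = an† F`, `A = {y | y.1 ∈ S}`, `W_S = indicator A W ∈ Lp` (`MemLp.indicator`, `toLp`), `A' = {x | x.1 ∈ S}`.
`hy_an_ind` for `Sᶜ` and `W_S`:  `∫⁻_{A'ᶜ} ‖an W_S‖² = ∫⁻_{Aᶜ} ‖W_S‖² = 0`, so `an W_S = 0` a.e. off `A'`.
`‖W_S‖² = ⟪W_S, W⟫ = ⟪W_S, an† F⟫ = ⟪an W_S, F⟫ = ⟪an W_S, 1_{A'} F⟫ ≤ ‖an W_S‖ ‖1_{A'} F‖ = ‖W_S‖ ‖1_{A'} F‖` (`ContinuousLinearMap.adjoint_inner_right`, `L2.inner_def`, `hy_an_norm`).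
So `‖W_S‖ ≤ ‖1_{A'} F‖`;  translate both norms into set `lintegral`s.   ~200 l. -/
theorem hy_fl_adj (p : ChyPar) (h : p.Ok) (T : ℝ) (k : ℕ) (S : Set p.Om) (hS : MeasurableSet S) (F : Lp p.Fb 2 p.rw) :
    hyE p S (ContinuousLinearMap.adjoint (p.an T k) F)
      ≤ ∫⁻ x in {x : p.Om × ℝ × ℝ | x.1 ∈ S}, ‖(F : p.Om × ℝ × ℝ → p.Fb) x‖ₑ ^ 2 ∂p.rw := by
  have hA : MeasurableSet {y : p.Om × ℝ | y.1 ∈ S} := measurable_fst hS
  have hA' : MeasurableSet {x : p.Om × ℝ × ℝ | x.1 ∈ S} := measurable_fst hS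
  set W := ContinuousLinearMap.adjoint (p.an T k) F with hW
  set WS : Lp p.Fb 2 (p.m.prod (volume : Measure ℝ)) := ((Lp.memLp W).indicator hA).toLp _ with hWS
  set FS : Lp p.Fb 2 p.rw := ((Lp.memLp F).indicator hA').toLp _ with hFS
  have cWS := ((Lp.memLp W).indicator hA).coeFn_toLp
  have cFS := ((Lp.memLp F).indicator hA').coeFn_toLp
  -- `an WS` vanishes off `A'`
  have hoff : ∀ᵐ x ∂p.rw, x ∉ {x : p.Om × ℝ × ℝ | x.1 ∈ S} → (p.an T k WS : p.Om × ℝ × ℝ → p.Fb) x = 0 := by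
    have h1 := hy_an_ind p h T k Sᶜ hS.compl WS
    have h2 : ∫⁻ y in {y : p.Om × ℝ | y.1 ∈ Sᶜ}, ‖(WS : p.Om × ℝ → p.Fb) y‖ₑ ^ 2 ∂(p.m.prod (volume : Measure ℝ)) = 0 := by
      have hAc : MeasurableSet {y : p.Om × ℝ | y.1 ∈ Sᶜ} := measurable_fst hS.compl
      rw [← lintegral_indicator hAc, lintegral_eq_zero_iff' ]
      · filter_upwards [cWS] with y hy
        by_cases hyS : y.1 ∈ S
        · have h3 : y ∉ {y : p.Om × ℝ | y.1 ∈ Sᶜ} := fun hc => hc hyS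
          rw [Set.indicator_of_notMem h3]; rfl
        · have h3 : y ∉ {y : p.Om × ℝ | y.1 ∈ S} := hyS
          have h4 : y ∈ {y : p.Om × ℝ | y.1 ∈ Sᶜ} := hyS
          have h5 : (WS : p.Om × ℝ → p.Fb) y = 0 := by
            rw [hWS, hy, Set.indicator_of_notMem h3]
          rw [Set.indicator_of_mem h4, h5]
          simp
      · exact ((Lp.aestronglyMeasurable WS).enorm.pow_const 2).indicator hAc
    rw [h2] at h1
    have hAc' : MeasurableSet {x : p.Om × ℝ × ℝ | x.1 ∈ Sᶜ} := measurable_fst hS.compl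
    rw [lintegral_eq_zero_iff' ((Lp.aestronglyMeasurable (p.an T k WS)).enorm.pow_const 2).restrict,
      Filter.EventuallyEq, ae_restrict_iff' hAc'] at h1
    filter_upwards [h1] with x hx hxS
    have := hx hxS
    simpa using this
  have i1 : inner ℂ WS W = inner ℂ WS WS := by
    rw [L2.inner_def, L2.inner_def]
    refine integral_congr_ae ?_
    filter_upwards [cWS] with y hy
    rw [hy]
    by_cases hyS : y ∈ {y : p.Om × ℝ | y.1 ∈ S}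
    · rw [Set.indicator_of_mem hyS]
    · rw [Set.indicator_of_notMem hyS]; simp
  have i2 : inner ℂ WS W = inner ℂ (p.an T k WS) F := by
    rw [hW, ContinuousLinearMap.adjoint_inner_right]
  have i3 : inner ℂ (p.an T k WS) F = inner ℂ (p.an T k WS) FS := by
    rw [L2.inner_def, L2.inner_def]
    refine integral_congr_ae ?_
    filter_upwards [cFS, hoff] with x hx hx0
    rw [hx]
    by_cases hxS : x ∈ {x : p.Om × ℝ × ℝ | x.1 ∈ S}
    · rw [Set.indicator_of_mem hxS]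
    · rw [Set.indicator_of_notMem hxS, hx0 hxS]; simp
  have hle : ‖WS‖ ^ 2 ≤ ‖WS‖ * ‖FS‖ := by
    have e1 : ‖inner ℂ WS WS‖ = ‖WS‖ ^ 2 := by
      rw [inner_self_eq_norm_sq_to_K]
      simp
    rw [← e1, ← i1, i2, i3]
    refine (norm_inner_le_norm _ _).trans ?_
    rw [hy_an_norm p h]
  have hle2 : ‖WS‖ ≤ ‖FS‖ := by
    rcases (norm_nonneg WS).eq_or_lt with h0 | h0
    · rw [← h0]; exact norm_nonneg _
    · have : ‖WS‖ * ‖WS‖ ≤ ‖WS‖ * ‖FS‖ := by rw [← sq]; exact hle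
      exact le_of_mul_le_mul_left this h0
  have hfin : ENNReal.ofReal (‖WS‖ ^ 2) ≤ ENNReal.ofReal (‖FS‖ ^ 2) :=
    ENNReal.ofReal_le_ofReal (pow_le_pow_left₀ (norm_nonneg _) hle2 2)
  have a := hy_fl_ind_norm_sq _ W _ hA
  have b := hy_fl_ind_norm_sq _ F _ hA'
  rw [hWS, hFS, a, b] at hfin
  exact hfin

/-- a mask does not increase the rows -/
theorem hy_fl_mulR_le (p : ChyPar) (η : ℝ) (k : ℕ) (M : p.Om × ℝ × ℝ → ℝ) (hM : IsMask M) (F W : Lp p.Fb 2 p.rw)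
    (hW : W = (p.sys η).mulR k M F) :
    ∀ᵐ x ∂p.rw, ‖(W : p.Om × ℝ × ℝ → p.Fb) x‖ₑ ≤ ‖(F : p.Om × ℝ × ℝ → p.Fb) x‖ₑ := by
  by_cases hh : MemLp (fun x => ((M x : ℝ) : ℂ) • (F : p.Om × ℝ × ℝ → p.Fb) x) 2 p.rw
  · have e : W = hh.toLp _ := hW.trans (dif_pos hh)
    rw [e]
    filter_upwards [hh.coeFn_toLp] with x hx
    have hx' : (hh.toLp _ : p.Om × ℝ × ℝ → p.Fb) x = ((M x : ℝ) : ℂ) • (F : p.Om × ℝ × ℝ → p.Fb) x := hx
    rw [hx', enorm_smul]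
    have h1 : ‖((M x : ℝ) : ℂ)‖ₑ ≤ 1 := by
      rw [← ofReal_norm, Complex.norm_real, Real.norm_of_nonneg (hM.2 x).1]
      exact ENNReal.ofReal_le_one.2 (hM.2 x).2
    calc ‖((M x : ℝ) : ℂ)‖ₑ * ‖(F : p.Om × ℝ × ℝ → p.Fb) x‖ₑ ≤ 1 * ‖(F : p.Om × ℝ × ℝ → p.Fb) x‖ₑ := by gcongr
      _ = _ := one_mul _
  · have e : W = 0 := hW.trans (dif_neg hh)
    rw [e]
    filter_upwards [Lp.coeFn_zero p.Fb 2 p.rw] with x hx
    have hx' : ((0 : Lp p.Fb 2 p.rw) : p.Om × ℝ × ℝ → p.Fb) x = 0 := hx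
    rw [hx']
    simp

/-- **LEAF L-256-HYB-FL3: one masked operator.**
`PkSys.tz`;  `hy_fl_adj`;  `mulR k M F = M • F` a.e. (the `dif_pos` branch: bounded measurable mask times `L²`, `MemLp.toLp`, `MemLp.coeFn_toLp`; in the junk branch the value is `0`), `‖M x • F x‖ₑ ≤ ‖F x‖ₑ`;  `hy_an_ind`.  ~100 l. -/
theorem hy_fl_tz (p : ChyPar) (h : p.Ok) (η : ℝ) (T : ℝ) (k b : ℕ) (M : p.Om × ℝ × ℝ → ℝ) (hM : IsMask M) (S : Set p.Om)
    (hS : MeasurableSet S) (G : (p.sys η).Kc) :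
    hyE p S ((p.sys η).tz T k b M G) ≤ hyE p S G := by
  obtain ⟨W, hW⟩ : ∃ W : Lp p.Fb 2 p.rw, W = (p.sys η).mulR k M (p.an T k G) := ⟨_, rfl⟩
  have e : (p.sys η).tz T k b M G = ContinuousLinearMap.adjoint (p.an T k) W := by
    rw [hW]
    rfl
  rw [e]
  refine (hy_fl_adj p h T k S hS W).trans ?_
  have h2 := hy_an_ind p h T k S hS G
  refine le_trans ?_ (le_of_eq h2)
  refine lintegral_mono_ae (ae_restrict_of_ae ?_)
  filter_upwards [hy_fl_mulR_le p η k M hM (p.an T k G) W hW] with x hx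
  have hx' : ‖(W : p.Om × ℝ × ℝ → p.Fb) x‖ₑ ≤ ‖(p.an T k G : p.Om × ℝ × ℝ → p.Fb) x‖ₑ := hx
  gcongr

/-- a stack of masked operators (glue) -/
theorem hy_fl_run (p : ChyPar) (h : p.Ok) (η : ℝ) (k' i : ℕ) (st : List (Stg (p.sys η))) (hst : ∀ σ ∈ st, ∀ j, IsMask (σ.M j))
    (S : Set p.Om) (hS : MeasurableSet S) (G : (p.sys η).Kc) :
    hyE p S (Xp.run (P := p.sys η) k' i st G) ≤ hyE p S G := by
  induction st generalizing G with
  | nil => exact le_rfl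
  | cons σ l ih =>
    rw [Xp.run]
    refine (ih (fun τ hτ j => hst τ (List.mem_cons_of_mem _ hτ) j) _).trans ?_
    exact hy_fl_tz p h η _ _ _ _ (hst σ List.mem_cons_self _) S hS G

/-- a packet has unit mass -/
theorem hy_fl_pk_one (p : ChyPar) (h : p.Ok) (T : ℝ) (k : ℕ) (x : p.Om × ℝ × ℝ) : ∫⁻ u, ‖p.pk T k x u‖ₑ ^ 2 = 1 := by
  obtain ⟨h2, -, h1⟩ := hy_pk_memLp (p.fib x.1) (hy_fib_ok p h x.1) T k x.2
  have hi : Integrable (fun u => ‖(p.fib x.1).pk T k x.2 u‖ ^ 2) volume := by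
    have := h2.integrable_norm_pow (p := 2) (by norm_num)
    exact this
  have e := ofReal_integral_eq_lintegral_ofReal hi (Filter.Eventually.of_forall fun u => by positivity)
  rw [h1, ENNReal.ofReal_one] at e
  rw [e]
  refine lintegral_congr fun u => ?_
  rw [ENNReal.ofReal_pow (norm_nonneg _), ofReal_norm, hy_pk_fib]

/-- **LEAF L-256-HYB-FL4: the pointwise packet bound.**
`hy_an_row`;  `ChyPar.row`, `‖∫ pk • G‖ₑ ≤ ∫⁻ ‖pk‖ₑ ‖G‖ₑ` (`enorm_integral_le_lintegral_enorm`, `enorm_smul`), `hy_lcs` (`Hyb/Tool`; measurability: `hy_pk_cont`, `(Lp.stronglyMeasurable G).comp_measurable measurable_prodMk_left`),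
`∫⁻ ‖pk‖ₑ² = 1` from `hy_pk_memLp` (`hy_pk_fib`, `hy_fib_ok`; `ofReal_integral_eq_lintegral_ofReal`).   ~100 l. -/
theorem hy_fl_pt (p : ChyPar) (h : p.Ok) (T : ℝ) (k : ℕ) (G : Lp p.Fb 2 (p.m.prod (volume : Measure ℝ))) :
    ∀ᵐ x ∂p.rw, ‖(p.an T k G : p.Om × ℝ × ℝ → p.Fb) x‖ₑ ^ 2 ≤ ∫⁻ u, ‖(G : p.Om × ℝ → p.Fb) (x.1, u)‖ₑ ^ 2 := by
  filter_upwards [hy_an_row p h T k G] with x hx
  have hx' : (p.an T k G : p.Om × ℝ × ℝ → p.Fb) x = ∫ u, p.pk T k x u • (G : p.Om × ℝ → p.Fb) (x.1, u) := hx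
  rw [hx']
  have hc : Continuous fun u : ℝ => p.pk T k x u := by
    have h1 : Continuous fun u : ℝ => (x.2, u) := continuous_const.prodMk continuous_id
    have h2 : Continuous fun u : ℝ => (p.fib x.1).pk T k (x.2, u).1 (x.2, u).2 := (hy_pk_cont (p.fib x.1) T k).comp h1
    have h3 : (fun u : ℝ => p.pk T k x u) = fun u : ℝ => (p.fib x.1).pk T k (x.2, u).1 (x.2, u).2 := funext fun u => hy_pk_fib p T k x u
    rw [h3]
    exact h2
  have m1 : AEMeasurable (fun u : ℝ => ‖p.pk T k x u‖ₑ) volume := hc.enorm.measurable.aemeasurable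
  have m2 : AEMeasurable (fun u : ℝ => ‖(G : p.Om × ℝ → p.Fb) (x.1, u)‖ₑ) volume :=
    (((Lp.stronglyMeasurable G).comp_measurable measurable_prodMk_left).enorm).aemeasurable
  have h1 : ‖∫ u, p.pk T k x u • (G : p.Om × ℝ → p.Fb) (x.1, u)‖ₑ ≤ ∫⁻ u, ‖p.pk T k x u‖ₑ * ‖(G : p.Om × ℝ → p.Fb) (x.1, u)‖ₑ := by
    refine (enorm_integral_le_lintegral_enorm _).trans (le_of_eq (lintegral_congr fun u => ?_))
    rw [enorm_smul]
  calc ‖∫ u, p.pk T k x u • (G : p.Om × ℝ → p.Fb) (x.1, u)‖ₑ ^ 2 ≤ (∫⁻ u, ‖p.pk T k x u‖ₑ * ‖(G : p.Om × ℝ → p.Fb) (x.1, u)‖ₑ) ^ 2 := by gcongr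
    _ ≤ (∫⁻ u, ‖p.pk T k x u‖ₑ ^ 2) * ∫⁻ u, ‖(G : p.Om × ℝ → p.Fb) (x.1, u)‖ₑ ^ 2 := hy_lcs volume m1 m2
    _ = ∫⁻ u, ‖(G : p.Om × ℝ → p.Fb) (x.1, u)‖ₑ ^ 2 := by rw [hy_fl_pk_one p h, one_mul]

theorem hy_fl_cell_meas (p : ChyPar) (h : p.Ok) (Q : CyT) (l T : ℝ) :
    MeasurableSet {x : p.Om × ℝ × ℝ | cyIn Q l (p.co T x)} := by
  have mX : Measurable fun x : p.Om × ℝ × ℝ => p.X x.1 := h.mX.comp measurable_fst
  have mB : Measurable fun x : p.Om × ℝ × ℝ => p.B x.1 := h.mB.comp measurable_fst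
  have mY : Measurable fun x : p.Om × ℝ × ℝ => p.Y x.1 := h.mY.comp measurable_fst
  have mD : Measurable fun x : p.Om × ℝ × ℝ => x.2.1 := measurable_fst.comp measurable_snd
  have mN : Measurable fun x : p.Om × ℝ × ℝ => x.2.2 := measurable_snd.comp measurable_snd
  have key : ∀ (f : p.Om × ℝ × ℝ → ℝ) (c : ℝ), Measurable f → MeasurableSet {x | |f x| ≤ c} := fun f c hf =>
    measurableSet_le (by fun_prop) measurable_const
  unfold cyIn cyTilt cyVel cyPos ChyPar.co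
  refine (key _ _ ?_).inter ((key _ _ ?_).inter ((key _ _ ?_).inter ((key _ _ ?_).inter (key _ _ ?_))))
  all_goals
    simp only []
    fun_prop

/-- **LEAF L-256-HYB-FL5 (1): a test is contained in the cylinder over its base.**
`ms = en (indicator)`;  `cell Q T k ⊆ {x | x.1 ∈ hyBs ..}` (unfold `cyIn`, `ChyPar.co`, `cyTilt`);  `hy_en_lint` for both indicators (measurability of the cell: the five functions are measurable), monotonicity of `lintegral`, `hy_fl_ms_base`.  ~100 l. -/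
theorem hy_fl_cell1 (p : ChyPar) (h : p.Ok) (η : ℝ) (T : ℝ) (k b : ℕ) (Q : CyT) (G : (p.sys η).Kc) :
    ENNReal.ofReal ((p.sys η).ms T k b ((p.sys η).cell Q T k) G) ≤ hyE p (hyBs p Q ((2 : ℝ)⁻¹ ^ k) T) G := by
  refine le_trans (le_of_eq (hy_fl_ms_lint p h η T k b _ (hy_fl_cell_meas p h Q _ T) G)) ?_
  refine le_trans ?_ (le_of_eq (hy_an_ind p h T k _ (hy_fl_bs_meas p h Q _ T) G))
  refine lintegral_mono_set ?_
  intro x hx
  exact ⟨hx.1, hx.2.1, hx.2.2.1⟩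

/-- the fibre energy density -/
theorem hy_fl_eps_meas (p : ChyPar) (G : Lp p.Fb 2 (p.m.prod (volume : Measure ℝ))) :
    Measurable fun ω : p.Om => ∫⁻ u, ‖(G : p.Om × ℝ → p.Fb) (ω, u)‖ₑ ^ 2 := by
  have h1 : Measurable fun y : p.Om × ℝ => ‖(G : p.Om × ℝ → p.Fb) y‖ₑ ^ 2 :=
    ((Lp.stronglyMeasurable G).enorm).pow_const 2
  exact h1.lintegral_prod_right'

theorem hy_fl_E_eps (p : ChyPar) (S : Set p.Om) (hS : MeasurableSet S) (G : Lp p.Fb 2 (p.m.prod (volume : Measure ℝ))) :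
    hyE p S G = ∫⁻ ω in S, (∫⁻ u, ‖(G : p.Om × ℝ → p.Fb) (ω, u)‖ₑ ^ 2) ∂p.m := by
  have h1 : Measurable fun y : p.Om × ℝ => ‖(G : p.Om × ℝ → p.Fb) y‖ₑ ^ 2 :=
    ((Lp.stronglyMeasurable G).enorm).pow_const 2
  have hA : MeasurableSet {y : p.Om × ℝ | y.1 ∈ S} := measurable_fst hS
  unfold hyE
  rw [← lintegral_indicator hA, lintegral_prod _ (h1.indicator hA).aemeasurable, ← lintegral_indicator hS]
  refine lintegral_congr fun ω => ?_
  by_cases hω : ω ∈ S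
  · rw [Set.indicator_of_mem hω]
    refine lintegral_congr fun u => ?_
    have : (ω, u) ∈ {y : p.Om × ℝ | y.1 ∈ S} := hω
    rw [Set.indicator_of_mem this]
  · rw [Set.indicator_of_notMem hω]
    have : ∀ u : ℝ, (ω, u) ∉ {y : p.Om × ℝ | y.1 ∈ S} := fun u => hω
    simp only [Set.indicator_of_notMem (this _), lintegral_zero]

/-- the fibre measure of a rectangle -/
theorem hy_fl_nu_rect (φ : HyF) (hφ : φ.Ok) (a a' w w' : ℝ) (hw : 0 ≤ w) (hw' : 0 ≤ w') :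
    φ.nu {ρ : ℝ × ℝ | |ρ.2 - a| ≤ w ∧ |ρ.1 - a'| ≤ w'} ≤ ENNReal.ofReal (4 * (w' * w) / (Real.pi * φ.H)) := by
  have hH := hφ.H_pos
  have hset : {ρ : ℝ × ℝ | |ρ.2 - a| ≤ w ∧ |ρ.1 - a'| ≤ w'} = Set.Icc (a' - w') (a' + w') ×ˢ Set.Icc (a - w) (a + w) := by
    ext ρ
    simp only [Set.mem_ofPred_eq, Set.mem_prod, Set.mem_Icc, abs_le]
    constructor
    · rintro ⟨⟨h1, h2⟩, h3, h4⟩
      exact ⟨⟨by linarith, by linarith⟩, by linarith, by linarith⟩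
    · rintro ⟨⟨h1, h2⟩, h3, h4⟩
      exact ⟨⟨by linarith, by linarith⟩, by linarith, by linarith⟩
  rw [hset, HyF.nu, Measure.smul_apply, Measure.volume_eq_prod, Measure.prod_prod, Real.volume_Icc, Real.volume_Icc, smul_eq_mul,
    ← ENNReal.ofReal_mul (by linarith), ← ENNReal.ofReal_mul (by have := hφ.sg_lo; positivity)]
  refine ENNReal.ofReal_le_ofReal ?_
  have e1 : φ.sg / (2 * Real.pi * φ.H) * ((a' + w' - (a' - w')) * (a + w - (a - w))) = φ.sg * (2 * (w' * w) / (Real.pi * φ.H)) := by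
    field_simp
    ring
  have e2 : 4 * (w' * w) / (Real.pi * φ.H) = 2 * (2 * (w' * w) / (Real.pi * φ.H)) := by ring
  rw [e1, e2]
  have := hφ.sg_hi
  have h0 : 0 ≤ 2 * (w' * w) / (Real.pi * φ.H) := by positivity
  gcongr

theorem hy_fl_cell2_aux (p : ChyPar) (h : p.Ok) (η : ℝ) (T : ℝ) (k b : ℕ) (Q : CyT) (hf : 0 ≤ Q.f) (G : Lp p.Fb 2 (p.m.prod (volume : Measure ℝ))) :
    ENNReal.ofReal ((p.sys η).ms T k b ((p.sys η).cell Q T k) G)
      ≤ ENNReal.ofReal (4 * ((2 : ℝ)⁻¹ ^ k * Q.f ^ 2) / (Real.pi * p.H)) * hyE p (hyBs p Q ((2 : ℝ)⁻¹ ^ k) T) G := by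
  obtain ⟨l, hl⟩ : ∃ l : ℝ, l = (2 : ℝ)⁻¹ ^ k := ⟨_, rfl⟩
  have hl0 : 0 ≤ l := by rw [hl]; positivity
  have hcm := hy_fl_cell_meas p h Q l T
  have hSm := hy_fl_bs_meas p h Q l T
  obtain ⟨ε, hε⟩ : ∃ ε : p.Om → ℝ≥0∞, ε = fun ω => ∫⁻ u, ‖(G : p.Om × ℝ → p.Fb) (ω, u)‖ₑ ^ 2 := ⟨_, rfl⟩
  have hεm : Measurable ε := by rw [hε]; exact hy_fl_eps_meas p G
  obtain ⟨c, hc⟩ : ∃ c : ℝ≥0∞, c = ENNReal.ofReal (4 * (l * Q.f ^ 2) / (Real.pi * p.H)) := ⟨_, rfl⟩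
  have hms := hy_fl_ms_lint p h η T k b {x : p.Om × ℝ × ℝ | cyIn Q l (p.co T x)} hcm G
  have hpt := hy_fl_pt p h T k G
  rw [← hl, ← hc]
  have hcell : ((p.sys η).cell Q T k : Set (p.Om × ℝ × ℝ)) = {x : p.Om × ℝ × ℝ | cyIn Q l (p.co T x)} := by rw [hl]; rfl
  refine le_trans (le_of_eq (congrArg (fun Z => ENNReal.ofReal ((p.sys η).ms T k b Z G)) hcell)) ?_
  refine le_trans (le_of_eq hms) ?_
  calc ∫⁻ x in {x : p.Om × ℝ × ℝ | cyIn Q l (p.co T x)}, ‖(p.an T k G : p.Om × ℝ × ℝ → p.Fb) x‖ₑ ^ 2 ∂p.rw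
      ≤ ∫⁻ x in {x : p.Om × ℝ × ℝ | cyIn Q l (p.co T x)}, ε x.1 ∂p.rw := by
        refine lintegral_mono_ae (ae_restrict_of_ae ?_)
        rw [hε]
        exact hpt
    _ = ∫⁻ x, {x : p.Om × ℝ × ℝ | cyIn Q l (p.co T x)}.indicator (fun x => ε x.1) x ∂p.rw := (lintegral_indicator hcm _).symm
    _ = ∫⁻ ω, ∫⁻ ρ, {x : p.Om × ℝ × ℝ | cyIn Q l (p.co T x)}.indicator (fun x => ε x.1) (ω, ρ) ∂(p.fib ω).nu ∂p.m :=
        hy_rw_lint p h _ ((hεm.comp measurable_fst).indicator hcm)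
    _ ≤ ∫⁻ ω, (hyBs p Q l T).indicator (fun ω => c * ε ω) ω ∂p.m := by
        refine lintegral_mono fun ω => ?_
        by_cases hω : ω ∈ hyBs p Q l T
        · rw [Set.indicator_of_mem hω]
          obtain ⟨a, ha⟩ : ∃ a : ℝ, a = Q.c + Q.al * p.X ω + Q.be * p.X ω ^ 2
            + Q.K * (p.Y ω + T * p.X ω ^ 2 - 2 * p.X ω * (p.B ω + T * p.X ω)) := ⟨_, rfl⟩
          obtain ⟨a', ha'⟩ : ∃ a' : ℝ, a' = Q.d + Q.al * (p.B ω + T * p.X ω) + Q.be * (p.Y ω + T * p.X ω ^ 2)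
            - Q.K * (p.B ω + T * p.X ω) ^ 2 := ⟨_, rfl⟩
          calc ∫⁻ ρ, {x : p.Om × ℝ × ℝ | cyIn Q l (p.co T x)}.indicator (fun x => ε x.1) (ω, ρ) ∂(p.fib ω).nu
              ≤ ∫⁻ ρ, {ρ : ℝ × ℝ | |ρ.2 - a| ≤ Q.f ∧ |ρ.1 - a'| ≤ l * Q.f}.indicator (fun _ => ε ω) ρ ∂(p.fib ω).nu := by
                refine lintegral_mono fun ρ => ?_
                by_cases hρ : (ω, ρ) ∈ {x : p.Om × ℝ × ℝ | cyIn Q l (p.co T x)}
                · have hρ' : ρ ∈ {ρ : ℝ × ℝ | |ρ.2 - a| ≤ Q.f ∧ |ρ.1 - a'| ≤ l * Q.f} := by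
                    have h4 := hρ.2.2.2.1
                    have h5 := hρ.2.2.2.2
                    unfold cyVel ChyPar.co at h4
                    unfold cyPos ChyPar.co at h5
                    simp only [] at h4 h5
                    refine ⟨?_, ?_⟩
                    · rw [ha]; convert h4 using 2; ring
                    · rw [ha']; convert h5 using 2; ring
                  rw [Set.indicator_of_mem hρ, Set.indicator_of_mem hρ']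
                · rw [Set.indicator_of_notMem hρ]; exact zero_le
            _ ≤ ε ω * (p.fib ω).nu {ρ : ℝ × ℝ | |ρ.2 - a| ≤ Q.f ∧ |ρ.1 - a'| ≤ l * Q.f} := lintegral_indicator_const_le _ _
            _ ≤ ε ω * c := by
                gcongr
                refine (hy_fl_nu_rect (p.fib ω) (hy_fib_ok p h ω) a a' Q.f (l * Q.f) hf (by positivity)).trans (le_of_eq ?_)
                rw [hc]
                congr 2
                show 4 * (l * Q.f * Q.f) = _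
                ring
            _ = c * ε ω := mul_comm _ _
        · rw [Set.indicator_of_notMem hω]
          refine le_of_eq ?_
          have : ∀ ρ : ℝ × ℝ, (ω, ρ) ∉ {x : p.Om × ℝ × ℝ | cyIn Q l (p.co T x)} := fun ρ hρ => hω ⟨hρ.1, hρ.2.1, hρ.2.2.1⟩
          simp only [Set.indicator_of_notMem (this _), lintegral_zero]
    _ = c * ∫⁻ ω in hyBs p Q l T, ε ω ∂p.m := by rw [lintegral_indicator hSm, lintegral_const_mul _ hεm]
    _ = c * hyE p (hyBs p Q l T) G := by rw [hy_fl_E_eps p _ hSm, hε]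

/-- **LEAF L-256-HYB-FL5 (2): joint phase density `≤ C/H` times the base energy density.**
`hy_en_lint`, `hy_fl_pt`:  `ofReal ms ≤ ∫⁻ 1_cell(x) ε(x.1) d rw`, `ε ω = ∫⁻ ‖G (ω,u)‖ₑ² du` (measurable: `Measurable.lintegral_prod_right'`).   `hy_rw_lint`:  `= ∫⁻_ω ε ω · ν_ω {ρ | (ω,ρ) ∈ cell} dm`.
For `ω ∉ hyBs` the section is empty;  for every `ω` it is contained in a rectangle `|N - a| ≤ f`, `|D - a'| ≤ ℓ f`:  `ν_ω (section) ≤ ofReal (σ/(2πH)) · 2ℓf · 2f ≤ ofReal (4 ℓ f²/(π H))` (`σ ≤ 2`; `Real.volume_Icc`, `Measure.volume_eq_prod`, `Measure.prod_prod`).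
`∫⁻_{ω ∈ hyBs} ε dm = hyE` (`lintegral_prod`, `Measure.restrict` of a product set / `lintegral_indicator`).   ~250 l. -/
theorem hy_fl_cell2 (p : ChyPar) (h : p.Ok) (η : ℝ) (T : ℝ) (k b : ℕ) (Q : CyT) (hf : 0 ≤ Q.f) (G : (p.sys η).Kc) :
    ENNReal.ofReal ((p.sys η).ms T k b ((p.sys η).cell Q T k) G)
      ≤ ENNReal.ofReal (4 * ((2 : ℝ)⁻¹ ^ k * Q.f ^ 2) / (Real.pi * p.H)) * hyE p (hyBs p Q ((2 : ℝ)⁻¹ ^ k) T) G := by
  exact hy_fl_cell2_aux p h η T k b Q hf G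

/-- a measurable set over an interval with uniformly small sections -/
theorem hy_fl_slab {β : Type*} [MeasureSpace β] [SFinite (volume : Measure β)] (S : Set (ℝ × β)) (hS : MeasurableSet S) (c w : ℝ) (M : ℝ≥0∞)
    (h1 : ∀ a ∈ S, |a.1 - c| ≤ w) (h2 : ∀ x, volume (Prod.mk x ⁻¹' S) ≤ M) : volume S ≤ ENNReal.ofReal (2 * w) * M := by
  rw [Measure.volume_eq_prod, Measure.prod_apply hS]
  calc ∫⁻ x, volume (Prod.mk x ⁻¹' S) ≤ ∫⁻ x, (Set.Icc (c - w) (c + w)).indicator (fun _ => M) x := by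
        refine lintegral_mono fun x => ?_
        by_cases hx : x ∈ Set.Icc (c - w) (c + w)
        · rw [Set.indicator_of_mem hx]
          exact h2 x
        · rw [Set.indicator_of_notMem hx]
          have : Prod.mk x ⁻¹' S = ∅ := by
            ext b
            simp only [Set.mem_preimage, Set.mem_empty_iff_false, iff_false]
            intro hb
            apply hx
            have := abs_le.1 (h1 _ hb)
            constructor <;> linarith [this.1, this.2]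
          rw [this]
          simp
    _ = M * volume (Set.Icc (c - w) (c + w)) := by
        rw [lintegral_indicator measurableSet_Icc, setLIntegral_const]
    _ = ENNReal.ofReal (2 * w) * M := by
        rw [Real.volume_Icc, mul_comm]
        congr 2
        ring

/-- **LEAF L-256-HYB-FL6: volume of a sheared box.**   Mathlib only.
Measurability: `measurableSet_le`.   Volume: `Measure.volume_eq_prod`, `Measure.prod_apply` (twice) / `lintegral` of the sections:  the `a.2.2`-section is `Icc (c3 - w3) (c3 + w3)` (`Real.volume_Icc`), etc.;  or: the set is the preimage of the box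
`Icc × Icc × Icc` under the measure preserving shear `a ↦ (a.1 - c1, a.2.1 - c2 a.1, a.2.2 - c3 a.1 a.2.1)` (`MeasurePreserving.skew_product`).   ~120 l. -/
theorem hy_fl_box (c1 w1 w2 w3 : ℝ) (c2 : ℝ → ℝ) (c3 : ℝ → ℝ → ℝ) (h2 : Measurable c2) (h3 : Measurable (Function.uncurry c3))
    (hw1 : 0 ≤ w1) (hw2 : 0 ≤ w2) (hw3 : 0 ≤ w3) :
    MeasurableSet {a : ℝ × ℝ × ℝ | |a.1 - c1| ≤ w1 ∧ |a.2.1 - c2 a.1| ≤ w2 ∧ |a.2.2 - c3 a.1 a.2.1| ≤ w3} ∧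
      volume {a : ℝ × ℝ × ℝ | |a.1 - c1| ≤ w1 ∧ |a.2.1 - c2 a.1| ≤ w2 ∧ |a.2.2 - c3 a.1 a.2.1| ≤ w3} ≤ ENNReal.ofReal (8 * w1 * w2 * w3) := by
  have hm : MeasurableSet {a : ℝ × ℝ × ℝ | |a.1 - c1| ≤ w1 ∧ |a.2.1 - c2 a.1| ≤ w2 ∧ |a.2.2 - c3 a.1 a.2.1| ≤ w3} := by
    have m3 : Measurable fun a : ℝ × ℝ × ℝ => c3 a.1 a.2.1 := h3.comp (measurable_fst.prodMk (measurable_fst.comp measurable_snd))
    have m2 : Measurable fun a : ℝ × ℝ × ℝ => c2 a.1 := h2.comp measurable_fst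
    have s1 : MeasurableSet {a : ℝ × ℝ × ℝ | |a.1 - c1| ≤ w1} := measurableSet_le (by fun_prop) measurable_const
    have s2 : MeasurableSet {a : ℝ × ℝ × ℝ | |a.2.1 - c2 a.1| ≤ w2} :=
      measurableSet_le (((measurable_fst.comp measurable_snd).sub m2).abs) measurable_const
    have s3 : MeasurableSet {a : ℝ × ℝ × ℝ | |a.2.2 - c3 a.1 a.2.1| ≤ w3} :=
      measurableSet_le (((measurable_snd.comp measurable_snd).sub m3).abs) measurable_const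
    exact s1.inter (s2.inter s3)
  refine ⟨hm, ?_⟩
  have key := hy_fl_slab _ hm c1 w1 (ENNReal.ofReal (2 * w2) * ENNReal.ofReal (2 * w3)) (fun a ha => ha.1) (fun x => by
    refine hy_fl_slab _ (measurable_prodMk_left hm) (c2 x) w2 _ (fun b hb => hb.2.1) (fun y => ?_)
    have hsub : Prod.mk y ⁻¹' (Prod.mk x ⁻¹' {a : ℝ × ℝ × ℝ | |a.1 - c1| ≤ w1 ∧ |a.2.1 - c2 a.1| ≤ w2 ∧ |a.2.2 - c3 a.1 a.2.1| ≤ w3})
        ⊆ Set.Icc (c3 x y - w3) (c3 x y + w3) := by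
      intro z hz
      have := abs_le.1 hz.2.2
      constructor <;> linarith [this.1, this.2]
    refine (measure_mono hsub).trans ?_
    rw [Real.volume_Icc]
    apply le_of_eq
    congr 1
    ring)
  refine key.trans (le_of_eq ?_)
  rw [← ENNReal.ofReal_mul (by positivity), ← ENNReal.ofReal_mul (by positivity)]
  congr 1
  ring

/-- rescaling of an interval condition -/
theorem hy_fl_scl (lam u c w : ℝ) (h : 0 < lam) : |u / lam - c / lam| ≤ w / lam ↔ |u - c| ≤ w := by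
  rw [← sub_div, abs_div, abs_of_pos h, div_le_div_iff_of_pos_right h]

/-- **LEAF L-256-HYB-FL7: the base of a test in the normalised root coordinates is a sheared box of volume `≤ 8 (r/r0)⁴`.**
With `a = cyBase Q0 L (co T0 x)`:  `X = x0 + r0 a.1`, `B_{T0} = b0 + L r0 a.2.1`, `Y_{T0} = y0 + 2 x0 L r0 a.2.1 + L r0² a.2.2`, `B_T = B_{T0} + (T - T0) X`, `Y_T = Y_{T0} + (T - T0) X²`.
`S3` = the set of `hy_fl_box` with `c1 = (x - x0)/r0`, `w1 = r/r0`, `w2 = l r/(L r0)`, `w3 = l r²/(L r0²)`, `c2 a1 = (b - b0 - (T - T0)(x0 + r0 a1))/(L r0)`, `c3 a1 a2 =` (solve the third inequality for `a.2.2`).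
The equivalence is `abs_le` + `field_simp` (multiply by `r0`, `L r0`, `L r0² > 0`: `|u - c| ≤ w ↔ |λ u - λ c| ≤ λ w`).   `8 w1 w2 w3 = 8 (l/L)² (r/r0)⁴ ≤ 8 (r/r0)⁴`.   ~200 l. -/
theorem hy_fl_base (p : ChyPar) (Q0 Q : CyT) (L l T0 T : ℝ) (hr0 : 0 < Q0.r) (hL : 0 < L) (hl : 0 ≤ l) (hlL : l ≤ L) (hr : 0 < Q.r) :
    ∃ S3 : Set (ℝ × ℝ × ℝ), MeasurableSet S3 ∧ volume S3 ≤ ENNReal.ofReal (8 * (Q.r / Q0.r) ^ 4) ∧
      ∀ x : p.Om × ℝ × ℝ, x.1 ∈ hyBs p Q l T ↔ cyBase Q0 L (p.co T0 x) ∈ S3 := by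
  obtain ⟨c2, hc2⟩ : ∃ c2 : ℝ → ℝ, c2 = fun a1 => (Q.b - Q0.b - (T - T0) * (Q0.x + Q0.r * a1)) / (L * Q0.r) := ⟨_, rfl⟩
  obtain ⟨c3, hc3⟩ : ∃ c3 : ℝ → ℝ → ℝ, c3 = fun a1 a2 => (Q.y - Q0.y - 2 * Q0.x * (L * Q0.r * a2) - (T - T0) * (Q0.x + Q0.r * a1) ^ 2
      + 2 * Q.x * (Q0.b + L * Q0.r * a2 + (T - T0) * (Q0.x + Q0.r * a1) - Q.b)) / (L * Q0.r ^ 2) := ⟨_, rfl⟩
  have m2 : Measurable c2 := by
    rw [hc2]
    fun_prop
  have m3 : Measurable (Function.uncurry c3) := by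
    rw [hc3]
    unfold Function.uncurry
    fun_prop
  have hLr : 0 < L * Q0.r := by positivity
  have hLr2 : 0 < L * Q0.r ^ 2 := by positivity
  obtain ⟨hm, hv⟩ := hy_fl_box ((Q.x - Q0.x) / Q0.r) (Q.r / Q0.r) (l * Q.r / (L * Q0.r)) (l * Q.r ^ 2 / (L * Q0.r ^ 2)) c2 c3 m2 m3
    (by positivity) (by positivity) (by positivity)
  refine ⟨_, hm, hv.trans (ENNReal.ofReal_le_ofReal ?_), ?_⟩
  · have e : 8 * (Q.r / Q0.r) * (l * Q.r / (L * Q0.r)) * (l * Q.r ^ 2 / (L * Q0.r ^ 2)) = (l / L) ^ 2 * (8 * (Q.r / Q0.r) ^ 4) := by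
      field_simp
    rw [e]
    have h1 : l / L ≤ 1 := (div_le_one hL).2 hlL
    have h0 : 0 ≤ l / L := by positivity
    have h2 : (l / L) ^ 2 ≤ 1 := pow_le_one₀ h0 h1
    have h3 : 0 ≤ 8 * (Q.r / Q0.r) ^ 4 := by positivity
    nlinarith
  · intro x
    obtain ⟨X, hX⟩ : ∃ X : ℝ, X = p.X x.1 := ⟨_, rfl⟩
    obtain ⟨B, hB⟩ : ∃ B : ℝ, B = p.B x.1 := ⟨_, rfl⟩
    obtain ⟨Y, hY⟩ : ∃ Y : ℝ, Y = p.Y x.1 := ⟨_, rfl⟩
    have eX : Q0.x + Q0.r * ((X - Q0.x) / Q0.r) = X := by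
      field_simp
      ring
    have eB : L * Q0.r * ((B + T0 * X - Q0.b) / (L * Q0.r)) = B + T0 * X - Q0.b := by
      field_simp
    show (|p.X x.1 - Q.x| ≤ Q.r ∧ |p.B x.1 + T * p.X x.1 - Q.b| ≤ l * Q.r ∧
        |p.Y x.1 + T * p.X x.1 ^ 2 - Q.y - 2 * Q.x * (p.B x.1 + T * p.X x.1 - Q.b)| ≤ l * Q.r ^ 2) ↔
      (|(p.X x.1 - Q0.x) / Q0.r - (Q.x - Q0.x) / Q0.r| ≤ Q.r / Q0.r ∧
        |(p.B x.1 + T0 * p.X x.1 - Q0.b) / (L * Q0.r) - c2 ((p.X x.1 - Q0.x) / Q0.r)| ≤ l * Q.r / (L * Q0.r) ∧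
        |(p.Y x.1 + T0 * p.X x.1 ^ 2 - Q0.y - 2 * Q0.x * (p.B x.1 + T0 * p.X x.1 - Q0.b)) / (L * Q0.r ^ 2)
          - c3 ((p.X x.1 - Q0.x) / Q0.r) ((p.B x.1 + T0 * p.X x.1 - Q0.b) / (L * Q0.r))| ≤ l * Q.r ^ 2 / (L * Q0.r ^ 2))
    rw [← hX, ← hB, ← hY, hc2, hc3]
    simp only [eX, eB]
    rw [hy_fl_scl _ _ _ _ hr0, hy_fl_scl _ _ _ _ hLr, hy_fl_scl _ _ _ _ hLr2]
    have e1 : X - Q0.x - (Q.x - Q0.x) = X - Q.x := by ring
    have e2 : B + T0 * X - Q0.b - (Q.b - Q0.b - (T - T0) * X) = B + T * X - Q.b := by ring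
    have e3 : Y + T0 * X ^ 2 - Q0.y - 2 * Q0.x * (B + T0 * X - Q0.b) - (Q.y - Q0.y - 2 * Q0.x * (B + T0 * X - Q0.b) - (T - T0) * X ^ 2
      + 2 * Q.x * (Q0.b + (B + T0 * X - Q0.b) + (T - T0) * X - Q.b)) = Y + T * X ^ 2 - Q.y - 2 * Q.x * (B + T * X - Q.b) := by ring
    rw [e1, e2, e3]

theorem hy_fl_num_min (k x : ℝ) (n : ℕ) (hk : 1 ≤ k) : min 1 (k * x ^ n) ≤ k * (min 1 x) ^ n := by
  rcases le_total 1 x with h | h
  · rw [min_eq_left h, one_pow, mul_one]; exact (min_le_left _ _).trans hk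
  · rw [min_eq_right h]; exact min_le_right _ _

theorem hy_fl_num_core (η : ℝ) (h0 : 0 < η) (h1 : η < 1) (E1 : ℕ) (hE : 3 + η ≤ E1 * (1 - η)) (K α γ : ℝ) (hK : 0 < K)
    (hα : 0 < α) (hα1 : α ≤ 1) (hγ : 0 < γ) (hγ1 : γ ≤ 1)
    (h : α ^ (3 + η) * γ ^ (1 - η) < K * (γ ^ 2 * α ^ 4)) : (K⁻¹) ^ (E1 + 1) ≤ α ^ (3 + η) * γ ^ (1 - η) := by
  obtain ⟨u, hu⟩ : ∃ u : ℝ, u = γ ^ (1 + η) := ⟨_, rfl⟩
  obtain ⟨v, hv⟩ : ∃ v : ℝ, v = α ^ (1 - η) := ⟨_, rfl⟩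
  obtain ⟨p, hp⟩ : ∃ p : ℝ, p = α ^ (3 + η) := ⟨_, rfl⟩
  obtain ⟨q, hq⟩ : ∃ q : ℝ, q = γ ^ (1 - η) := ⟨_, rfl⟩
  have hu0 : 0 < u := by rw [hu]; exact Real.rpow_pos_of_pos hγ _
  have hv0 : 0 < v := by rw [hv]; exact Real.rpow_pos_of_pos hα _
  have hp0 : 0 < p := by rw [hp]; exact Real.rpow_pos_of_pos hα _
  have hq0 : 0 < q := by rw [hq]; exact Real.rpow_pos_of_pos hγ _
  have hu1 : u ≤ 1 := by rw [hu]; exact Real.rpow_le_one hγ.le hγ1 (by linarith)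
  have hv1 : v ≤ 1 := by rw [hv]; exact Real.rpow_le_one hα.le hα1 (by linarith)
  have e4 : α ^ 4 = p * v := by
    rw [hp, hv, ← Real.rpow_add hα, ← Real.rpow_natCast]
    congr 1
    push_cast
    ring
  have e2 : γ ^ 2 = q * u := by
    rw [hq, hu, ← Real.rpow_add hγ, ← Real.rpow_natCast]
    congr 1
    push_cast
    ring
  rw [← hp, ← hq] at h ⊢
  rw [e4, e2] at h
  have hpq : 0 < p * q := mul_pos hp0 hq0
  have h3 : 1 < K * (u * v) := by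
    have : (p * q) * 1 < (p * q) * (K * (u * v)) := by
      calc (p * q) * 1 = p * q := mul_one _
        _ < K * (q * u * (p * v)) := h
        _ = (p * q) * (K * (u * v)) := by ring
    exact lt_of_mul_lt_mul_left this hpq.le
  have h4 : K⁻¹ < u * v := by
    rw [inv_lt_iff_one_lt_mul₀ hK, mul_comm]
    exact h3
  have hKi : 0 < K⁻¹ := inv_pos.2 hK
  have h5 : K⁻¹ ≤ v := by nlinarith
  have h6 : K⁻¹ ≤ u := by nlinarith
  have h7 : u ≤ q := by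
    rw [hu, hq]
    exact Real.rpow_le_rpow_of_exponent_ge hγ hγ1 (by linarith)
  have h8 : v ^ E1 ≤ p := by
    rw [hv, hp, ← Real.rpow_natCast, ← Real.rpow_mul hα.le]
    exact Real.rpow_le_rpow_of_exponent_ge hα hα1 (by linarith)
  calc (K⁻¹) ^ (E1 + 1) = (K⁻¹) ^ E1 * K⁻¹ := pow_succ _ _
    _ ≤ v ^ E1 * u := by gcongr
    _ ≤ p * q := by gcongr

/-- **LEAF L-256-HYB-FL8: the arithmetic.**   Real numbers only.
PLAN.  `E0 : ℕ` with `4/(1-η) + 1 ≤ E0`, `M = 3C + D + 4`, `D' = C + M E0`.   `K = s^(-M) ≥ 1`.   `α = min 1 a`, `γ = min 1 c`.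
`min 1 (2 s^-C c²) ≤ 2 s^-C γ²`, `min 1 (8 s^-C a⁴) ≤ 8 s^-C α⁴`, `16 ≤ s^-4`, `e ≤ s^-C κ w0`:  the hypothesis gives `a^(3+η) c^(1-η) < K γ² α⁴`.
`α^(3+η) γ^(1-η) ≤ a^(3+η) c^(1-η)`, so `1 < K γ^(1+η) α^(1-η)`, hence `α^(1-η) > 1/K`, `γ^(1+η) > 1/K` (`α, γ ≤ 1`), `α > K^(-1/(1-η))`, `γ > K^(-1/(1+η))`,
`a^(3+η) c^(1-η) ≥ α^(3+η) γ^(1-η) ≥ K^(-(3+η)/(1-η) - (1-η)/(1+η)) ≥ K^(-E0) = s^(M E0)`.   Finally `s^D' e ≤ s^(D'-C) κ w0 = κ w0 s^(M E0)`.   ~200 l. -/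
theorem hy_fl_num (η : ℝ) (h0 : 0 < η) (h1 : η < 1) (C D : ℕ) : ∃ D' : ℕ, ∀ s e κ w0 a c : ℝ, 0 < s → s ≤ 1 / 2 → 0 < e → 0 < κ → 0 < w0 →
    0 < a → 0 < c → e ≤ s ^ (-(C : ℝ)) * (κ * w0) →
    s ^ (D : ℝ) * (κ * (w0 * (a ^ (3 + η) * c ^ (1 - η)))) < min 1 (2 * s ^ (-(C : ℝ)) * c ^ 2) * (min 1 (8 * s ^ (-(C : ℝ)) * a ^ 4) * e) →
    s ^ (D' : ℝ) * e ≤ κ * (w0 * (a ^ (3 + η) * c ^ (1 - η))) := by
  obtain ⟨E1, hE1⟩ := exists_nat_ge (4 / (1 - η))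
  have h1η : 0 < 1 - η := by linarith
  have hE : 3 + η ≤ E1 * (1 - η) := by
    rw [div_le_iff₀ h1η] at hE1
    linarith
  refine ⟨C + (3 * C + D + 4) * (E1 + 1), ?_⟩
  intro s e κ w0 a c hs hs2 he hκ hw ha hc hle hlt
  obtain ⟨W, hW⟩ : ∃ W : ℝ, W = a ^ (3 + η) * c ^ (1 - η) := ⟨_, rfl⟩
  rw [← hW] at hlt ⊢
  have hsC : s ^ (-(C : ℝ)) = (s ^ C)⁻¹ := by rw [Real.rpow_neg hs.le, Real.rpow_natCast]
  rw [hsC] at hle hlt
  rw [Real.rpow_natCast] at hlt ⊢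
  obtain ⟨t, ht⟩ : ∃ t : ℝ, t = (s ^ C)⁻¹ := ⟨_, rfl⟩
  rw [← ht] at hle hlt
  have hsC0 : 0 < s ^ C := pow_pos hs _
  have ht1 : 1 ≤ t := by
    rw [ht]
    exact (one_le_inv₀ hsC0).2 (pow_le_one₀ hs.le (by linarith))
  have ht0 : 0 < t := by linarith
  obtain ⟨α, hα⟩ : ∃ α : ℝ, α = min 1 a := ⟨_, rfl⟩
  obtain ⟨γ, hγ⟩ : ∃ γ : ℝ, γ = min 1 c := ⟨_, rfl⟩
  have hα0 : 0 < α := by rw [hα]; exact lt_min one_pos ha
  have hγ0 : 0 < γ := by rw [hγ]; exact lt_min one_pos hc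
  have hα1 : α ≤ 1 := by rw [hα]; exact min_le_left _ _
  have hγ1 : γ ≤ 1 := by rw [hγ]; exact min_le_left _ _
  have hαa : α ≤ a := by rw [hα]; exact min_le_right _ _
  have hγc : γ ≤ c := by rw [hγ]; exact min_le_right _ _
  have m1 : min 1 (2 * t * c ^ 2) ≤ 2 * t * γ ^ 2 := by
    rw [hγ]; exact hy_fl_num_min _ _ _ (by linarith)
  have m2 : min 1 (8 * t * a ^ 4) ≤ 8 * t * α ^ 4 := by
    rw [hα]; exact hy_fl_num_min _ _ _ (by linarith)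
  have hW' : α ^ (3 + η) * γ ^ (1 - η) ≤ W := by
    rw [hW]
    have := Real.rpow_le_rpow hα0.le hαa (by linarith : (0 : ℝ) ≤ 3 + η)
    have := Real.rpow_le_rpow hγ0.le hγc h1η.le
    gcongr
  have hκw : 0 < κ * w0 := mul_pos hκ hw
  have m0 : 0 ≤ min 1 (2 * t * c ^ 2) := le_min zero_le_one (by positivity)
  have m0' : 0 ≤ min 1 (8 * t * a ^ 4) := le_min zero_le_one (by positivity)
  -- the test
  have k1 : s ^ D * ((κ * w0) * W) < (2 * t * γ ^ 2) * ((8 * t * α ^ 4) * (t * (κ * w0))) := by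
    calc s ^ D * ((κ * w0) * W) = s ^ D * (κ * (w0 * W)) := by ring
      _ < min 1 (2 * t * c ^ 2) * (min 1 (8 * t * a ^ 4) * e) := hlt
      _ ≤ (2 * t * γ ^ 2) * ((8 * t * α ^ 4) * (t * (κ * w0))) := by gcongr
  have k2 : s ^ D * W < 16 * t ^ 3 * (γ ^ 2 * α ^ 4) := by
    have : (κ * w0) * (s ^ D * W) < (κ * w0) * (16 * t ^ 3 * (γ ^ 2 * α ^ 4)) := by
      calc (κ * w0) * (s ^ D * W) = s ^ D * ((κ * w0) * W) := by ring
        _ < _ := k1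
        _ = _ := by ring
    exact lt_of_mul_lt_mul_left this hκw.le
  obtain ⟨K, hK⟩ : ∃ K : ℝ, K = (s ^ (3 * C + D + 4))⁻¹ := ⟨_, rfl⟩
  have hK0 : 0 < K := by rw [hK]; positivity
  have hs4 : 16 * s ^ 4 ≤ 1 := by
    have : s ^ 4 ≤ (1 / 2 : ℝ) ^ 4 := by gcongr
    norm_num at this
    linarith
  have k3 : W < K * (γ ^ 2 * α ^ 4) := by
    have hsD : 0 < s ^ D := pow_pos hs _
    have e1 : s ^ D * K = t ^ 3 * (s ^ 4)⁻¹ := by
      rw [hK, ht]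
      have : s ^ (3 * C + D + 4) = (s ^ C) ^ 3 * s ^ D * s ^ 4 := by
        rw [← pow_mul]; ring
      rw [this]
      field_simp
    have e2 : 16 ≤ (s ^ 4)⁻¹ := by
      rw [le_inv_comm₀ (by norm_num) (by positivity)]
      linarith
    have : s ^ D * W < s ^ D * (K * (γ ^ 2 * α ^ 4)) := by
      calc s ^ D * W < 16 * t ^ 3 * (γ ^ 2 * α ^ 4) := k2
        _ ≤ (s ^ 4)⁻¹ * t ^ 3 * (γ ^ 2 * α ^ 4) := by gcongr
        _ = (s ^ D * K) * (γ ^ 2 * α ^ 4) := by rw [e1]; ring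
        _ = _ := by ring
    exact lt_of_mul_lt_mul_left this hsD.le
  have k4 := hy_fl_num_core η h0 h1 E1 hE K α γ hK0 hα0 hα1 hγ0 hγ1 (hW'.trans_lt k3)
  have k5 : s ^ ((3 * C + D + 4) * (E1 + 1)) ≤ W := by
    refine le_trans (le_of_eq ?_) (k4.trans hW')
    rw [hK, inv_inv, pow_mul]
  calc s ^ (C + (3 * C + D + 4) * (E1 + 1)) * e ≤ s ^ (C + (3 * C + D + 4) * (E1 + 1)) * (t * (κ * w0)) := by gcongr
    _ = (s ^ C * t) * (s ^ ((3 * C + D + 4) * (E1 + 1)) * (κ * w0)) := by rw [pow_add]; ring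
    _ = s ^ ((3 * C + D + 4) * (E1 + 1)) * (κ * w0) := by
        rw [ht, mul_inv_cancel₀ hsC0.ne', one_mul]
    _ ≤ W * (κ * w0) := by gcongr
    _ = κ * (w0 * W) := by ring

/-- the weight in units of the frame -/
theorem hy_fl_wt (η : ℝ) (Q0 Q : CyT) (hr0 : 0 < Q0.r) (hf0 : 0 < Q0.f) (hr : 0 < Q.r) (hf : 0 < Q.f) :
    cyWt η Q = cyWt η Q0 * ((Q.r / Q0.r) ^ (3 + η) * (Q.f / Q0.f) ^ (1 - η)) := by
  unfold cyWt
  rw [Real.div_rpow hr.le hr0.le, Real.div_rpow hf.le hf0.le]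
  have h1 : 0 < Q0.r ^ (3 + η) := Real.rpow_pos_of_pos hr0 _
  have h2 : 0 < Q0.f ^ (1 - η) := Real.rpow_pos_of_pos hf0 _
  field_simp

/-- the volume bound (cyl:volume-bound) + arithmetic, in the language of `ChyPar` (glue) -/
theorem hy_fl_main (η : ℝ) (h0 : 0 < η) (h1 : η < 1) (C D : ℕ) : ∃ D' : ℕ, ∀ (p : ChyPar) (E : Xp (p.sys η)), 1 ≤ E.n → p.Ok → E.Valid →
    ∀ (A : ℕ) (Q0 : CyT), CySet (p.sys η) p.co η False C A E Q0 → E.s ^ (C : ℝ) ≤ p.H * 2 ^ E.k0 / Q0.f ^ 2 →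
    ∀ (k i b : ℕ) (st' : List (Stg (p.sys η))) (Q : CyT), E.k0 ≤ k → (∀ σ ∈ st', ∀ j, IsMask (σ.M j)) → 0 < Q.r → 0 < Q.f →
      E.s ^ (D : ℝ) * (E.ka * cyWt η Q) < (p.sys η).ms (tmL k i) k b ((p.sys η).cell Q (tmL k i) k) (Xp.run k i st' E.v) →
      E.s ^ (D' : ℝ) * E.e ≤ E.ka * cyWt η Q := by
  obtain ⟨D', hnum⟩ := hy_fl_num η h0 h1 C D
  refine ⟨D', ?_⟩
  intro p E hn hp hval A Q0 hset hH k i b st' Q hk hst hr hf hheavy
  have hs0 : 0 < E.s := by unfold Xp.s; positivity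
  have hs1 : E.s ≤ 1 / 2 := by
    unfold Xp.s
    calc ((2 : ℝ)⁻¹) ^ E.n ≤ ((2 : ℝ)⁻¹) ^ 1 := pow_le_pow_of_le_one (by norm_num) (by norm_num) hn
      _ = 1 / 2 := by norm_num
  obtain ⟨L, hLdef⟩ : ∃ L : ℝ, L = (2 : ℝ)⁻¹ ^ E.k0 := ⟨_, rfl⟩
  obtain ⟨l, hldef⟩ : ∃ l : ℝ, l = (2 : ℝ)⁻¹ ^ k := ⟨_, rfl⟩
  have hL0 : 0 < L := by rw [hLdef]; positivity
  have hl0 : 0 < l := by rw [hldef]; positivity
  have hlL : l ≤ L := by
    rw [hldef, hLdef]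
    exact pow_le_pow_of_le_one (by norm_num) (by norm_num) hk
  have hr0 := hset.r_pos
  have hf0 := hset.f_pos
  have he := hval.e_pos
  have hka := hval.ka_pos
  have hHpos := hp.H_pos
  obtain ⟨sC, hsC⟩ : ∃ sC : ℝ, sC = E.s ^ (-(C : ℝ)) := ⟨_, rfl⟩
  have hsC0 : 0 < sC := by rw [hsC]; exact Real.rpow_pos_of_pos hs0 _
  obtain ⟨a, ha⟩ : ∃ a : ℝ, a = Q.r / Q0.r := ⟨_, rfl⟩
  obtain ⟨c, hc⟩ : ∃ c : ℝ, c = Q.f / Q0.f := ⟨_, rfl⟩
  have ha0 : 0 < a := by rw [ha]; positivity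
  have hc0 : 0 < c := by rw [hc]; positivity
  have hS : MeasurableSet (hyBs p Q l (tmL k i)) := hy_fl_bs_meas p hp Q l _
  -- the energy over the base of the test
  have e3 : hyE p (hyBs p Q l (tmL k i)) (Xp.run (P := p.sys η) k i st' E.v) ≤ hyE p (hyBs p Q l (tmL k i)) E.v :=
    hy_fl_run p hp η k i st' hst _ hS E.v
  have e4 : hyE p (hyBs p Q l (tmL k i)) E.v ≤ ENNReal.ofReal E.e :=
    (hy_fl_le_norm p _ E.v).trans (ENNReal.ofReal_le_ofReal hval.budget)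
  have e5 : hyE p (hyBs p Q l (tmL k i)) E.v ≤ ENNReal.ofReal (8 * sC * a ^ 4 * E.e) := by
    obtain ⟨S3, hS3m, hS3v, hS3⟩ := hy_fl_base p Q0 Q L l (tmL E.k0 E.i0) (tmL k i) hr0 hL0 hl0.le hlL hr
    rw [← hy_fl_ms_base p hp η (tmL E.k0 E.i0) E.k0 E.b0 _ hS E.v]
    have hset_eq : ({x : p.Om × ℝ × ℝ | x.1 ∈ hyBs p Q l (tmL k i)} : Set (p.sys η).X)
        = {x | cyBase Q0 ((2 : ℝ)⁻¹ ^ E.k0) (p.co (tmL E.k0 E.i0) x) ∈ S3} :=
      Set.ext fun x => by rw [← hLdef]; exact hS3 x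
    refine le_trans (le_of_eq (congrArg (fun Z => ENNReal.ofReal ((p.sys η).ms (tmL E.k0 E.i0) E.k0 E.b0 Z E.v)) hset_eq)) ?_
    refine (hset.dens S3 hS3m).trans ?_
    calc ENNReal.ofReal (E.s ^ (-(C : ℝ)) * E.e) * volume S3
        ≤ ENNReal.ofReal (E.s ^ (-(C : ℝ)) * E.e) * ENNReal.ofReal (8 * (Q.r / Q0.r) ^ 4) := by gcongr
      _ = ENNReal.ofReal (8 * sC * a ^ 4 * E.e) := by
          rw [← ENNReal.ofReal_mul (by rw [← hsC]; positivity), ← hsC, ← ha]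
          congr 1
          ring
  have e6 : hyE p (hyBs p Q l (tmL k i)) E.v ≤ ENNReal.ofReal (min 1 (8 * sC * a ^ 4) * E.e) := by
    rcases le_total 1 (8 * sC * a ^ 4) with h | h
    · rw [min_eq_left h, one_mul]; exact e4
    · rw [min_eq_right h]; exact e5
  -- the Planck parameter
  have hpl : 4 * (l * Q.f ^ 2) / (Real.pi * p.H) ≤ 2 * sC * c ^ 2 := by
    have hpi : (2 : ℝ) ≤ Real.pi := Real.two_le_pi
    have h2k : (2 : ℝ) ^ E.k0 = L⁻¹ := by rw [hLdef, inv_pow, inv_inv]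
    have hsCinv : E.s ^ (C : ℝ) = sC⁻¹ := by rw [hsC, Real.rpow_neg hs0.le, inv_inv]
    rw [h2k, hsCinv, le_div_iff₀ (by positivity)] at hH
    -- hH : sC⁻¹ * Q0.f ^ 2 ≤ p.H * L⁻¹
    have hH' : L * Q0.f ^ 2 ≤ sC * p.H := by
      have := mul_le_mul_of_nonneg_left hH (mul_pos hsC0 hL0).le
      have e1 : sC * L * (sC⁻¹ * Q0.f ^ 2) = L * Q0.f ^ 2 := by field_simp
      have e2 : sC * L * (p.H * L⁻¹) = sC * p.H := by field_simp
      rwa [e1, e2] at this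
    have hfc : Q.f = c * Q0.f := by rw [hc]; field_simp
    rw [div_le_iff₀ (by positivity), hfc]
    have h3 : l * Q0.f ^ 2 ≤ sC * p.H := le_trans (by gcongr) hH'
    calc 4 * (l * (c * Q0.f) ^ 2) = 4 * c ^ 2 * (l * Q0.f ^ 2) := by ring
      _ ≤ 4 * c ^ 2 * (sC * p.H) := by gcongr
      _ = 2 * sC * c ^ 2 * (2 * p.H) := by ring
      _ ≤ 2 * sC * c ^ 2 * (Real.pi * p.H) := by gcongr
  have m1 := hy_fl_cell1 p hp η (tmL k i) k b Q (Xp.run (P := p.sys η) k i st' E.v)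
  have m2 := hy_fl_cell2 p hp η (tmL k i) k b Q hf.le (Xp.run (P := p.sys η) k i st' E.v)
  rw [← hldef] at m1 m2
  have m3 : ENNReal.ofReal ((p.sys η).ms (tmL k i) k b ((p.sys η).cell Q (tmL k i) k) (Xp.run k i st' E.v))
      ≤ ENNReal.ofReal (min 1 (2 * sC * c ^ 2)) * hyE p (hyBs p Q l (tmL k i)) (Xp.run (P := p.sys η) k i st' E.v) := by
    rcases le_total 1 (2 * sC * c ^ 2) with h | h
    · rw [min_eq_left h, ENNReal.ofReal_one, one_mul]; exact m1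
    · rw [min_eq_right h]
      refine m2.trans ?_
      gcongr
  have m4 : ENNReal.ofReal ((p.sys η).ms (tmL k i) k b ((p.sys η).cell Q (tmL k i) k) (Xp.run k i st' E.v))
      ≤ ENNReal.ofReal (min 1 (2 * sC * c ^ 2) * (min 1 (8 * sC * a ^ 4) * E.e)) := by
    rw [ENNReal.ofReal_mul (by positivity)]
    refine m3.trans ?_
    gcongr
    exact e3.trans e6
  have m5 : (p.sys η).ms (tmL k i) k b ((p.sys η).cell Q (tmL k i) k) (Xp.run k i st' E.v)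
      ≤ min 1 (2 * sC * c ^ 2) * (min 1 (8 * sC * a ^ 4) * E.e) :=
    (ENNReal.ofReal_le_ofReal_iff (by positivity)).1 m4
  have hw0 : 0 < cyWt η Q0 := by unfold cyWt; positivity
  rw [hy_fl_wt η Q0 Q hr0 hf0 hr hf, ← ha, ← hc] at hheavy ⊢
  refine hnum E.s E.e E.ka (cyWt η Q0) a c hs0 hs1 he hka hw0 ha0 hc0 hset.ek_hi ?_
  rw [← hsC]
  exact lt_of_lt_of_le hheavy m5

/-- **EXIT: FLOOR for the hybrid cylinder** -/
theorem hy_fl_floor (η : ℝ) (h0 : 0 < η) (h1 : η < 1) : (cylHyb η).Floor := by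
  intro C D
  obtain ⟨D', hmain⟩ := hy_fl_main η h0 h1 C D
  refine ⟨D', 0, 1, ?_⟩
  intro p E hn hcls k i b st' Q hk0 _ _ _ hst hok hheavy
  obtain ⟨hgd, hval, -, -, Q0, hset, hHlo, -⟩ := hcls
  exact hmain p E hn hgd hval 0 Q0 hset hHlo k i b st' Q hk0 hst.msk hok.1 hok.2.1 hheavy

end Claimed.Agent.R256
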