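import Claimed.Agent.R256.Base.Cyl
import Claimed.Agent.R256.Gen.Hyp

/-!
# Row 256, unit HYB, post BP-256-HYB-LOC (helper169; chief helper82; prefix `hy_lc_`): the elementary parts of `hy_loc`

* `hy_lc_exp`   `exp(-Λ²/40) ≤ N! 40^N Λ^-N`
* `hy_lc_geo`   BACK FLOW of one test (02-cylinder.tex l.323-345): a row in the cell of `Q` at the later cut, pulled back by the time `t ∈ [0,ℓ]` with packet errors `Λ d'`, `Λ q`,
                lies in the cell of the root test `hyLcQ Q t ξ ρ Λ` if `|X - ξ| ≤ ρ`  (`δ r ≤ ρ`, `δ r² ≤ ρ²`).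
* `hy_lc_pick`  the `X`-range is covered by `m` intervals of half width `ρ` if `r ≤ m ρ`
* `hy_lc_wt`    the sum of the weights
* `hy_lc_cov`   the back covering in the form of `Mdl.Loc.cov` for the hybrid cylinder.
-/

set_option autoImplicit false

namespace Claimed.Agent.R256

open MeasureTheory

/-- `exp(-Λ²/40) ≤ N! 40^N Λ^-N` -/
theorem hy_lc_exp (N : ℕ) (Λ : ℝ) (hΛ : 1 ≤ Λ) : Real.exp (-(Λ ^ 2 / 40)) ≤ (N.factorial : ℝ) * 40 ^ N * Λ ^ (-(N : ℝ)) := by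
  have hΛ0 : 0 < Λ := by linarith
  have hx : 0 ≤ Λ ^ 2 / 40 := by positivity
  have h1 := Real.pow_div_factorial_le_exp (Λ ^ 2 / 40) hx N
  have hf : (0 : ℝ) < N.factorial := by exact_mod_cast N.factorial_pos
  rw [Real.exp_neg, Real.rpow_neg hΛ0.le, Real.rpow_natCast]
  have h2 : Λ ^ N ≤ (Λ ^ 2) ^ N := by
    apply pow_le_pow_left₀ hΛ0.le
    nlinarith
  have h3 : 0 < Real.exp (Λ ^ 2 / 40) := Real.exp_pos _
  have h4 : 0 < Λ ^ N := by positivity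
  rw [inv_le_comm₀ h3 (by positivity)]
  have e : ((N.factorial : ℝ) * 40 ^ N * (Λ ^ N)⁻¹)⁻¹ = Λ ^ N / 40 ^ N / N.factorial := by
    field_simp
  rw [e]
  refine le_trans ?_ h1
  rw [div_pow]
  gcongr

/-- the root test of the back covering -/
def hyLcQ (Q : CyT) (t ξ ρ Λ : ℝ) : CyT :=
  ⟨ξ, Q.b - t * ξ, Q.y - t * ξ ^ 2, 3 * ρ, 2 * (1 + Λ) * Q.f, Q.c, Q.d - t * Q.c, Q.al, Q.be - Q.K * t, Q.K⟩

theorem hy_lc_eqns_cite : True := by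
  have := @hyLcQ.eq_1
  trivial

/-- `|t a| ≤ l ρ` -/
theorem hy_lc_mul_abs {t l a ρ : ℝ} (ht0 : 0 ≤ t) (ht : t ≤ l) (ha : |a| ≤ ρ) : |t * a| ≤ l * ρ := by
  rw [abs_mul, abs_of_nonneg ht0]
  exact mul_le_mul ht ha (abs_nonneg _) (ht0.trans ht)

/-- **back flow of one test** -/
theorem hy_lc_geo (Q : CyT) (l δ t ξ ρ Λ d' q : ℝ) (z z' : Cy5) (hr : 0 < Q.r) (hf : 0 < Q.f) (hl : 0 < l) (_hδ : 0 < δ) (ht0 : 0 ≤ t) (ht : t ≤ l)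
    (hρ : 0 < ρ) (h1 : δ * Q.r ≤ ρ) (h2 : δ * Q.r ^ 2 ≤ ρ ^ 2) (hδ1 : δ ≤ 1) (hΛ : 1 ≤ Λ) (hd' : d' ≤ Q.f) (hq : q ≤ l * Q.f)
    (hin : cyIn Q (l * δ) z') (hX : z.X = z'.X) (hB : z.B = z'.B - t * z'.X) (hY : z.Y = z'.Y - t * z'.X ^ 2)
    (hN : |z'.N - z.N| ≤ Λ * d') (hD : |z'.D - z.D - t * z.N| ≤ Λ * q) (hξ : |z.X - ξ| ≤ ρ) :
    cyIn (hyLcQ Q t ξ ρ Λ) l z := by
  obtain ⟨i1, i2, i3, i4, i5⟩ := hin
  unfold cyTilt at i3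
  unfold cyVel at i4
  unfold cyPos at i5
  have hΛ0 : 0 < Λ := by linarith
  have hNd : Λ * d' ≤ Λ * Q.f := mul_le_mul_of_nonneg_left hd' hΛ0.le
  have hDq : Λ * q ≤ Λ * (l * Q.f) := mul_le_mul_of_nonneg_left hq hΛ0.le
  have a1 : l * δ * Q.r ≤ l * ρ := by
    have := mul_le_mul_of_nonneg_left h1 hl.le
    linarith
  have a2 : l * δ * Q.r ^ 2 ≤ l * ρ ^ 2 := by
    have := mul_le_mul_of_nonneg_left h2 hl.le
    linarith
  have hlf : l * δ * Q.f ≤ l * Q.f := by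
    have : l * δ ≤ l * 1 := mul_le_mul_of_nonneg_left hδ1 hl.le
    have := mul_le_mul_of_nonneg_right this hf.le
    linarith
  -- the velocity at the earlier time
  have eV : z.N - Q.c - Q.al * z.X - (Q.be - Q.K * t) * z.X ^ 2 - Q.K * (z.Y - 2 * z.X * z.B)
      = (z'.N - Q.c - Q.al * z'.X - Q.be * z'.X ^ 2 - Q.K * (z'.Y - 2 * z'.X * z'.B)) - (z'.N - z.N) := by
    rw [hB, hY, hX]; ring
  have bV : |z.N - Q.c - Q.al * z.X - (Q.be - Q.K * t) * z.X ^ 2 - Q.K * (z.Y - 2 * z.X * z.B)| ≤ (1 + Λ) * Q.f := by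
    rw [eV]
    refine (abs_sub _ _).trans ?_
    linarith
  refine ⟨?_, ?_, ?_, ?_, ?_⟩
  · show |z.X - ξ| ≤ 3 * ρ
    linarith
  · show |z.B - (Q.b - t * ξ)| ≤ l * (3 * ρ)
    have e : z.B - (Q.b - t * ξ) = (z'.B - Q.b) - t * (z.X - ξ) := by rw [hB, hX]; ring
    rw [e]
    refine (abs_sub _ _).trans ?_
    have := hy_lc_mul_abs ht0 ht hξ
    have h0 : 0 ≤ l * ρ := by positivity
    linarith
  · show |z.Y - (Q.y - t * ξ ^ 2) - 2 * ξ * (z.B - (Q.b - t * ξ))| ≤ l * (3 * ρ) ^ 2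
    have e : z.Y - (Q.y - t * ξ ^ 2) - 2 * ξ * (z.B - (Q.b - t * ξ))
        = (z'.Y - Q.y - 2 * Q.x * (z'.B - Q.b)) + 2 * ((Q.x - ξ) * (z'.B - Q.b)) - t * (z.X - ξ) ^ 2 := by
      rw [hB, hY, hX]; ring
    have b1 : |Q.x - ξ| ≤ Q.r + ρ := by
      have : Q.x - ξ = (z.X - ξ) - (z'.X - Q.x) := by rw [hX]; ring
      rw [this]
      refine (abs_sub _ _).trans ?_
      linarith
    have b2 : |(Q.x - ξ) * (z'.B - Q.b)| ≤ (Q.r + ρ) * (l * δ * Q.r) := by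
      rw [abs_mul]
      exact mul_le_mul b1 i2 (abs_nonneg _) (by positivity)
    have b3 : (Q.r + ρ) * (l * δ * Q.r) ≤ 2 * (l * ρ ^ 2) := by
      have c1 : ρ * (l * δ * Q.r) ≤ ρ * (l * ρ) := mul_le_mul_of_nonneg_left a1 hρ.le
      linarith
    have b4 : |t * (z.X - ξ) ^ 2| ≤ l * ρ ^ 2 := by
      apply hy_lc_mul_abs ht0 ht
      rw [abs_pow]
      exact pow_le_pow_left₀ (abs_nonneg _) hξ 2
    rw [e]
    refine (abs_sub _ _).trans ?_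
    refine (add_le_add_left (abs_add_le _ _) _).trans ?_
    rw [abs_mul, abs_of_pos (two_pos : (0 : ℝ) < 2)]
    have h0 : 0 ≤ l * ρ ^ 2 := by positivity
    linarith
  · show |z.N - Q.c - Q.al * z.X - (Q.be - Q.K * t) * z.X ^ 2 - Q.K * (z.Y - 2 * z.X * z.B)| ≤ 2 * (1 + Λ) * Q.f
    have h0 : 0 ≤ (1 + Λ) * Q.f := by positivity
    linarith
  · show |z.D - (Q.d - t * Q.c) - Q.al * z.B - (Q.be - Q.K * t) * z.Y + Q.K * z.B ^ 2| ≤ l * (2 * (1 + Λ) * Q.f)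
    have e : z.D - (Q.d - t * Q.c) - Q.al * z.B - (Q.be - Q.K * t) * z.Y + Q.K * z.B ^ 2
        = (z'.D - Q.d - Q.al * z'.B - Q.be * z'.Y + Q.K * z'.B ^ 2) - (z'.D - z.D - t * z.N)
          - t * (z.N - Q.c - Q.al * z.X - (Q.be - Q.K * t) * z.X ^ 2 - Q.K * (z.Y - 2 * z.X * z.B)) := by
      rw [hB, hY, hX]; ring
    rw [e]
    refine (abs_sub _ _).trans ?_
    refine (add_le_add_left (abs_sub _ _) _).trans ?_
    have := hy_lc_mul_abs ht0 ht bV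
    linarith

/-- the `X`-range is covered by `m` intervals of half width `ρ` -/
theorem hy_lc_pick (X x0 r ρ : ℝ) (m : ℕ) (hr : 0 < r) (hρ : 0 < ρ) (hm : r ≤ m * ρ) (hX : |X - x0| ≤ r) :
    ∃ i : Fin m, |X - (x0 - r + (2 * (i : ℝ) + 1) * ρ)| ≤ ρ := by
  rw [abs_le] at hX
  have hm0 : 0 < m := by
    rcases Nat.eq_zero_or_pos m with h | h
    · subst h; simp at hm; linarith
    · exact h
  set u : ℝ := (X - x0 + r) / (2 * ρ) with hu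
  have hu0 : 0 ≤ u := div_nonneg (by linarith [hX.1]) (by positivity)
  have hux : X - x0 + r = u * (2 * ρ) := by rw [hu]; field_simp
  by_cases hlt : u < m
  · have hfl : ⌊u⌋₊ < m := (Nat.floor_lt hu0).2 hlt
    refine ⟨⟨⌊u⌋₊, hfl⟩, ?_⟩
    have f1 : (⌊u⌋₊ : ℝ) ≤ u := Nat.floor_le hu0
    have f2 : u < (⌊u⌋₊ : ℝ) + 1 := Nat.lt_floor_add_one u
    have e : X - (x0 - r + (2 * ((⌊u⌋₊ : ℕ) : ℝ) + 1) * ρ) = (u - (⌊u⌋₊ : ℝ)) * (2 * ρ) - ρ := by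
      have : X = x0 - r + u * (2 * ρ) := by linarith
      rw [this]; ring
    show |X - (x0 - r + (2 * ((⌊u⌋₊ : ℕ) : ℝ) + 1) * ρ)| ≤ ρ
    rw [e, abs_le]
    constructor
    · have : 0 ≤ (u - (⌊u⌋₊ : ℝ)) * (2 * ρ) := mul_nonneg (by linarith) (by positivity)
      linarith
    · have : (u - (⌊u⌋₊ : ℝ)) * (2 * ρ) ≤ 1 * (2 * ρ) := mul_le_mul_of_nonneg_right (by linarith) (by positivity)
      linarith
  · push Not at hlt
    refine ⟨⟨m - 1, by omega⟩, ?_⟩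
    have hc : ((m - 1 : ℕ) : ℝ) = (m : ℝ) - 1 := by
      rw [Nat.cast_sub hm0]; simp
    show |X - (x0 - r + (2 * ((m - 1 : ℕ) : ℝ) + 1) * ρ)| ≤ ρ
    rw [hc, abs_le]
    have g1 : (m : ℝ) * (2 * ρ) ≤ u * (2 * ρ) := mul_le_mul_of_nonneg_right hlt (by positivity)
    constructor
    · nlinarith
    · nlinarith [hX.2]

/-- the scale ratio `σ = 2^(-(k'-k)/2)` -/
noncomputable def hyLcS (k k' : ℕ) : ℝ := (2 : ℝ) ^ (-(((k' : ℝ) - k) / 2))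

theorem hy_lc_S_pos (k k' : ℕ) : 0 < hyLcS k k' := Real.rpow_pos_of_pos two_pos _

theorem hy_lc_S_le (k k' : ℕ) (h : k ≤ k') : hyLcS k k' ≤ 1 := by
  unfold hyLcS
  apply Real.rpow_le_one_of_one_le_of_nonpos (by norm_num)
  have : (k : ℝ) ≤ k' := by exact_mod_cast h
  linarith

theorem hy_lc_S_sq (k k' : ℕ) : (2 : ℝ)⁻¹ ^ k' = (2 : ℝ)⁻¹ ^ k * hyLcS k k' ^ 2 := by
  unfold hyLcS
  rw [← Real.rpow_natCast ((2 : ℝ) ^ (-(((k' : ℝ) - k) / 2))) 2, ← Real.rpow_mul (by norm_num)]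
  have e : -(((k' : ℝ) - k) / 2) * ((2 : ℕ) : ℝ) = (k : ℝ) - k' := by push_cast; ring
  rw [e, Real.rpow_sub two_pos, Real.rpow_natCast, Real.rpow_natCast, inv_pow, inv_pow]
  field_simp

theorem hy_lc_S_pow (k k' : ℕ) (η : ℝ) : hyLcS k k' ^ (2 + η) = (2 : ℝ) ^ (-((1 + η / 2) * ((k' : ℝ) - k))) := by
  unfold hyLcS
  rw [← Real.rpow_mul (by norm_num)]
  congr 1
  ring

/-- the sum of the weights -/
theorem hy_lc_wt (η : ℝ) (h0 : 0 < η) (h1 : η < 1) (r f σ Λ : ℝ) (m : ℕ) (hr : 0 < r) (hf : 0 < f) (hσ : 0 < σ) (hΛ : 1 ≤ Λ) (hm : (m : ℝ) * σ ≤ 2) :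
    (m : ℝ) * ((3 * (r * σ)) ^ (3 + η) * (2 * (1 + Λ) * f) ^ (1 - η)) ≤ 648 * Λ ^ (648 : ℝ) * σ ^ (2 + η) * (r ^ (3 + η) * f ^ (1 - η)) := by
  have hΛ0 : 0 < Λ := by linarith
  have e1 : (3 * (r * σ)) ^ (3 + η) = 3 ^ (3 + η) * (r ^ (3 + η) * (σ ^ (2 + η) * σ)) := by
    rw [Real.mul_rpow (by norm_num) (by positivity), Real.mul_rpow hr.le hσ.le]
    have : σ ^ (3 + η) = σ ^ (2 + η) * σ := by
      rw [show (3 : ℝ) + η = (2 + η) + 1 by ring, Real.rpow_add_one hσ.ne']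
    rw [this]
  have e2 : (2 * (1 + Λ) * f) ^ (1 - η) = (2 * (1 + Λ)) ^ (1 - η) * f ^ (1 - η) := by
    rw [Real.mul_rpow (by positivity) hf.le]
  have b1 : (3 : ℝ) ^ (3 + η) ≤ 81 := by
    have : (3 : ℝ) ^ (3 + η) ≤ (3 : ℝ) ^ ((4 : ℕ) : ℝ) := Real.rpow_le_rpow_of_exponent_le (by norm_num) (by push_cast; linarith)
    rw [Real.rpow_natCast] at this
    norm_num at this
    exact this
  have b2 : (2 * (1 + Λ)) ^ (1 - η) ≤ 4 * Λ := by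
    have : (2 * (1 + Λ)) ^ (1 - η) ≤ (2 * (1 + Λ)) ^ (1 : ℝ) := Real.rpow_le_rpow_of_exponent_le (by linarith) (by linarith)
    rw [Real.rpow_one] at this
    linarith
  have b3 : Λ ≤ Λ ^ (648 : ℝ) := Real.self_le_rpow_of_one_le hΛ (by norm_num)
  have p1 : (0 : ℝ) < 3 ^ (3 + η) := by positivity
  have p2 : (0 : ℝ) < (2 * (1 + Λ)) ^ (1 - η) := by positivity
  have pA : 0 ≤ σ ^ (2 + η) * (r ^ (3 + η) * f ^ (1 - η)) := by positivity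
  have hc : ((m : ℝ) * σ) * (3 ^ (3 + η) * (2 * (1 + Λ)) ^ (1 - η)) ≤ 2 * (81 * (4 * Λ)) :=
    mul_le_mul hm (mul_le_mul b1 b2 p2.le (by norm_num)) (by positivity) (by norm_num)
  calc (m : ℝ) * ((3 * (r * σ)) ^ (3 + η) * (2 * (1 + Λ) * f) ^ (1 - η))
      = (((m : ℝ) * σ) * (3 ^ (3 + η) * (2 * (1 + Λ)) ^ (1 - η))) * (σ ^ (2 + η) * (r ^ (3 + η) * f ^ (1 - η))) := by rw [e1, e2]; ring
    _ ≤ (648 * Λ ^ (648 : ℝ)) * (σ ^ (2 + η) * (r ^ (3 + η) * f ^ (1 - η))) := by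
        apply mul_le_mul_of_nonneg_right _ pA
        linarith
    _ = _ := by ring

theorem hy_lc_dl_mono (p : ChyPar) (hp : p.Ok) {k k' : ℕ} (h : k ≤ k') : p.dl k ≤ p.dl k' := by
  unfold ChyPar.dl
  apply Real.sqrt_le_sqrt
  apply mul_le_mul_of_nonneg_left _ hp.H_pos.le
  exact pow_le_pow_right₀ (by norm_num) h

theorem hy_lc_ql (p : ChyPar) (k : ℕ) : p.ql k = (2 : ℝ)⁻¹ ^ k * p.dl k := by
  unfold ChyPar.ql ChyPar.dl
  have e : p.H / 2 ^ k = ((2 : ℝ)⁻¹ ^ k) ^ 2 * (p.H * 2 ^ k) := by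
    rw [inv_pow]; field_simp
  rw [e, Real.sqrt_mul (by positivity), Real.sqrt_sq (by positivity)]

/-- **the back covering** (02-cylinder.tex l.323-345), in the form of `Mdl.Loc.cov` -/
theorem hy_lc_cov (η : ℝ) (h0 : 0 < η) (h1 : η < 1) (p : ChyPar) (hp : p.Ok) (Λ : ℝ) (hΛ : 1 ≤ Λ) (T : ℝ) (k : ℕ) (T' : ℝ) (k' : ℕ) (hc : CutLe T k T' k')
    (Q : CyT) (hQ : 0 < Q.r ∧ 0 < Q.f ∧ p.dl k' ≤ Q.f) :
    ∃ (m : ℕ) (Qs : Fin m → CyT), (∀ i, 0 < (Qs i).r ∧ 0 < (Qs i).f ∧ p.dl k ≤ (Qs i).f) ∧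
      (∀ x x' : p.Om × ℝ × ℝ, cyIn Q ((2 : ℝ)⁻¹ ^ k') (p.co T' x') →
        (x.1 = x'.1 ∧ |x'.2.2 - x.2.2| ≤ Λ * p.dl k' ∧ |x'.2.1 - x.2.1 - (T' - T) * x.2.2| ≤ Λ * p.ql k) → ∃ i, cyIn (Qs i) ((2 : ℝ)⁻¹ ^ k) (p.co T x)) ∧
      ∑ i, cyWt η (Qs i) ≤ 648 * Λ ^ (648 : ℝ) * 2 ^ (-((1 + η / 2) * ((k' : ℝ) - k))) * cyWt η Q := by
  obtain ⟨hkk, hT1, hT2⟩ := hc
  obtain ⟨hr, hf, hd⟩ := hQ
  set σ := hyLcS k k' with hσd
  have hσ : 0 < σ := hy_lc_S_pos k k'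
  have hσ1 : σ ≤ 1 := hy_lc_S_le k k' hkk
  have hΛ0 : 0 < Λ := by linarith
  set m : ℕ := ⌈1 / σ⌉₊ with hmd
  have hm1 : 1 / σ ≤ m := Nat.le_ceil _
  have hm2 : (m : ℝ) < 1 / σ + 1 := Nat.ceil_lt_add_one (by positivity)
  have hmσ : (m : ℝ) * σ ≤ 2 := by
    have : (m : ℝ) * σ ≤ (1 / σ + 1) * σ := mul_le_mul_of_nonneg_right hm2.le hσ.le
    have e : (1 / σ + 1) * σ = 1 + σ := by field_simp
    linarith
  have hmr : Q.r ≤ m * (Q.r * σ) := by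
    have : 1 ≤ (m : ℝ) * σ := by
      have := mul_le_mul_of_nonneg_right hm1 hσ.le
      rwa [div_mul_cancel₀ _ hσ.ne'] at this
    nlinarith
  have hl : (0 : ℝ) < (2 : ℝ)⁻¹ ^ k := by positivity
  refine ⟨m, fun i => hyLcQ Q (T' - T) (Q.x - Q.r + (2 * (i : ℝ) + 1) * (Q.r * σ)) (Q.r * σ) Λ, ?_, ?_, ?_⟩
  · intro i
    refine ⟨?_, ?_, ?_⟩
    · show 0 < 3 * (Q.r * σ)
      positivity
    · show 0 < 2 * (1 + Λ) * Q.f
      positivity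
    · show p.dl k ≤ 2 * (1 + Λ) * Q.f
      have := hy_lc_dl_mono p hp hkk
      nlinarith
  · intro x x' hin ⟨hx1, hx2, hx3⟩
    have hX : |(p.co T x).X - Q.x| ≤ Q.r := by
      have := hin.1
      show |p.X x.1 - Q.x| ≤ Q.r
      rw [hx1]; exact this
    obtain ⟨i, hi⟩ := hy_lc_pick (p.co T x).X Q.x Q.r (Q.r * σ) m hr (by positivity) hmr hX
    refine ⟨i, ?_⟩
    rw [hy_lc_S_sq k k'] at hin
    refine hy_lc_geo Q ((2 : ℝ)⁻¹ ^ k) (σ ^ 2) (T' - T) _ (Q.r * σ) Λ (p.dl k') (p.ql k) (p.co T x) (p.co T' x') hr hf hl (by positivity) (by linarith) (by linarith)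
      (by positivity) ?_ ?_ ?_ hΛ hd ?_ hin ?_ ?_ ?_ hx2 hx3 hi
    · have : σ * (Q.r * σ) ≤ 1 * (Q.r * σ) := mul_le_mul_of_nonneg_right hσ1 (by positivity)
      linarith
    · apply le_of_eq; ring
    · exact pow_le_one₀ hσ.le hσ1
    · rw [hy_lc_ql]
      exact mul_le_mul_of_nonneg_left ((hy_lc_dl_mono p hp hkk).trans hd) hl.le
    · show p.X x.1 = p.X x'.1
      rw [hx1]
    · show p.B x.1 + T * p.X x.1 = p.B x'.1 + T' * p.X x'.1 - (T' - T) * p.X x'.1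
      rw [hx1]; ring
    · show p.Y x.1 + T * p.X x.1 ^ 2 = p.Y x'.1 + T' * p.X x'.1 ^ 2 - (T' - T) * p.X x'.1 ^ 2
      rw [hx1]; ring
  · have e : ∀ i : Fin m, cyWt η (hyLcQ Q (T' - T) (Q.x - Q.r + (2 * (i : ℝ) + 1) * (Q.r * σ)) (Q.r * σ) Λ)
        = (3 * (Q.r * σ)) ^ (3 + η) * (2 * (1 + Λ) * Q.f) ^ (1 - η) := fun i => rfl
    rw [Finset.sum_congr rfl fun i _ => e i, Finset.sum_const, Finset.card_univ, Fintype.card_fin, nsmul_eq_mul, ← hy_lc_S_pow k k' η]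
    exact hy_lc_wt η h0 h1 Q.r Q.f σ Λ m hr hf hσ hΛ hmσ

end Claimed.Agent.R256
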