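import Claimed.Agent.R256.Hyb.Inst
import Claimed.Agent.R256.Gen.BasB

/-!
# Row 256, unit HYB: LOC-KER = the transfer is negligible off the correspondence      (helper68, for chief helper82; prefix `hy_lk_`)

§1  rows and fibres: a.e. statements and Tonelli for a.e. measurable functions (`hy_lk_ae`, `hy_lk_lint`).
§2  the fibre estimate (`hy_lk_fib`): Schur test for `1_{A'} kr 1_A` with the far integrals G3-G6.
§3  assembly (`hy_lk_main`) from `hy_an_adj`, `hy_en_lint`.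
-/

set_option autoImplicit false

namespace Claimed.Agent.R256

open MeasureTheory
open scoped ENNReal ComplexConjugate

/-! ## 1. rows and fibres -/

theorem hy_lk_dens_meas (p : ChyPar) (h : p.Ok) :
    Measurable fun x : p.Om × ℝ × ℝ => ENNReal.ofReal (p.sg x.1 / (2 * Real.pi * p.H)) :=
  ((h.mS.comp measurable_fst).div_const _).ennreal_ofReal

theorem hy_lk_dens_ne (p : ChyPar) (h : p.Ok) (ω : p.Om) : ENNReal.ofReal (p.sg ω / (2 * Real.pi * p.H)) ≠ 0 := by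
  have h1 := (h.sg_rg ω).1
  have h2 := h.H_pos
  have : 0 < p.sg ω / (2 * Real.pi * p.H) := by
    have := Real.pi_pos
    positivity
  exact (ENNReal.ofReal_pos.2 this).ne'

/-- a.e. on the rows: a.e. in a.e. fibre -/
theorem hy_lk_ae (p : ChyPar) (h : p.Ok) {P : p.Om × ℝ × ℝ → Prop} (hP : ∀ᵐ x ∂p.rw, P x) :
    ∀ᵐ ω ∂p.m, ∀ᵐ ρ ∂(p.fib ω).nu, P (ω, ρ) := by
  have := h.sf
  have h1 : ∀ᵐ x ∂(p.m.prod (volume : Measure (ℝ × ℝ))), P x := by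
    have h2 := (ae_withDensity_iff (hy_lk_dens_meas p h)).1 hP
    exact h2.mono fun x hx => hx (hy_lk_dens_ne p h x.1)
  refine (Measure.ae_ae_of_ae_prod h1).mono fun ω hω => ?_
  exact Measure.ae_smul_measure hω _

/-- Tonelli for the row measure, a.e. measurable integrand -/
theorem hy_lk_lint (p : ChyPar) (h : p.Ok) (F : p.Om × ℝ × ℝ → ℝ≥0∞) (hF : AEMeasurable F p.rw) :
    ∫⁻ x, F x ∂p.rw = ∫⁻ ω, ∫⁻ ρ, F (ω, ρ) ∂(p.fib ω).nu ∂p.m := by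
  have := h.sf
  have hc := hy_lk_dens_meas p h
  have hac : p.m.prod (volume : Measure (ℝ × ℝ)) ≪ p.rw :=
    withDensity_absolutelyContinuous' hc.aemeasurable (Filter.Eventually.of_forall fun x => hy_lk_dens_ne p h x.1)
  have hF' : AEMeasurable F (p.m.prod (volume : Measure (ℝ × ℝ))) := hF.mono_ac hac
  unfold ChyPar.rw at hF ⊢
  rw [lintegral_withDensity_eq_lintegral_mul₀' hc.aemeasurable hF, lintegral_prod _ (hc.aemeasurable.mul hF')]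
  refine lintegral_congr fun ω => ?_
  show ∫⁻ ρ, ENNReal.ofReal (p.sg ω / (2 * Real.pi * p.H)) * F (ω, ρ) = _
  rw [lintegral_const_mul' _ _ ENNReal.ofReal_ne_top]
  unfold HyF.nu
  rw [lintegral_smul_measure]
  rfl

/-! ## 2. the fibre estimate -/

/-- the truncated kernel -/
noncomputable def hyLkK (φ : HyF) (T : ℝ) (k : ℕ) (T' : ℝ) (k' : ℕ) (A A' : Set (ℝ × ℝ)) (ρ' ρ : ℝ × ℝ) : ℂ :=
  A'.indicator (fun _ => (1 : ℂ)) ρ' * A.indicator (fun _ => (1 : ℂ)) ρ * φ.kr T k T' k' ρ' ρ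

theorem hy_lk_eqns_cite : True := by
  have := @hyLkK.eq_1
  trivial

theorem hy_lk_K_meas (φ : HyF) (h : φ.Ok) (T : ℝ) (k : ℕ) (T' : ℝ) (k' : ℕ) (A A' : Set (ℝ × ℝ)) (hA : MeasurableSet A)
    (hA' : MeasurableSet A') : Measurable (Function.uncurry (hyLkK φ T k T' k' A A')) := by
  unfold hyLkK Function.uncurry
  exact (((measurable_const.indicator hA').comp measurable_fst).mul ((measurable_const.indicator hA).comp measurable_snd)).mul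
    (hy_kr_meas φ h T k T' k')

/-- pointwise bound of the truncated kernel by the two far parts of the majorant -/
theorem hy_lk_K_le (φ : HyF) (h : φ.Ok) (Λ : ℝ) (T : ℝ) (k : ℕ) (T' : ℝ) (k' : ℕ) (hk : k ≤ k')
    (ht : |T' - T| ≤ (2 : ℝ)⁻¹ ^ k) (A A' : Set (ℝ × ℝ))
    (hn : ∀ ρ ∈ A, ∀ ρ' ∈ A', ¬ (|ρ'.2 - ρ.2| ≤ Λ * φ.d k' ∧ |ρ'.1 - ρ.1 - (T' - T) * ρ.2| ≤ Λ * φ.q k)) (ρ' ρ : ℝ × ℝ) :
    ‖hyLkK φ T k T' k' A A' ρ' ρ‖ₑ ≤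
      (if Λ * φ.d k' ≤ |ρ.2 - ρ'.2| then ENNReal.ofReal (φ.kb k k' (T' - T) ρ' ρ) else 0)
        + (if Λ * φ.q k ≤ |ρ'.1 - ρ.1 - (T' - T) * ρ.2| then ENNReal.ofReal (φ.kb k k' (T' - T) ρ' ρ) else 0) := by
  unfold hyLkK
  by_cases h1 : ρ' ∈ A'
  · by_cases h2 : ρ ∈ A
    · rw [Set.indicator_of_mem h1, Set.indicator_of_mem h2, one_mul, one_mul]
      have hb : ‖φ.kr T k T' k' ρ' ρ‖ₑ ≤ ENNReal.ofReal (φ.kb k k' (T' - T) ρ' ρ) := by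
        rw [← ofReal_norm]
        exact ENNReal.ofReal_le_ofReal (hy_kr_le φ h T k T' k' hk ht ρ' ρ)
      have h3 := hn ρ h2 ρ' h1
      by_cases h4 : |ρ'.2 - ρ.2| ≤ Λ * φ.d k'
      · have h5 : Λ * φ.q k ≤ |ρ'.1 - ρ.1 - (T' - T) * ρ.2| := by
          by_contra hc
          exact h3 ⟨h4, (not_le.1 hc).le⟩
        rw [if_pos h5]
        exact hb.trans le_add_self
      · have h5 : Λ * φ.d k' ≤ |ρ.2 - ρ'.2| := by
          rw [abs_sub_comm]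
          exact (not_le.1 h4).le
        rw [if_pos h5]
        exact hb.trans le_self_add
    · rw [Set.indicator_of_notMem h2]
      simp
  · rw [Set.indicator_of_notMem h1]
    simp

theorem hy_lk_num (Λ s : ℝ) (hs : 0 ≤ s) :
    ENNReal.ofReal (26 * Real.exp (-(Λ ^ 2 / 16)) * s) + ENNReal.ofReal (26 * Real.exp (-(Λ ^ 2 / 40)) * s)
      ≤ ENNReal.ofReal (52 * Real.exp (-(Λ ^ 2 / 40)) * s) := by
  rw [← ENNReal.ofReal_add (by positivity) (by positivity)]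
  refine ENNReal.ofReal_le_ofReal ?_
  have h1 : Real.exp (-(Λ ^ 2 / 16)) ≤ Real.exp (-(Λ ^ 2 / 40)) := by
    refine Real.exp_le_exp.2 ?_
    have := sq_nonneg Λ
    linarith
  have h2 := mul_le_mul_of_nonneg_right h1 hs
  nlinarith

theorem hy_lk_src (φ : HyF) (h : φ.Ok) (Λ : ℝ) (hΛ : 0 ≤ Λ) (T : ℝ) (k : ℕ) (T' : ℝ) (k' : ℕ) (hk : k ≤ k')
    (ht : |T' - T| ≤ (2 : ℝ)⁻¹ ^ k) (A A' : Set (ℝ × ℝ))
    (hn : ∀ ρ ∈ A, ∀ ρ' ∈ A', ¬ (|ρ'.2 - ρ.2| ≤ Λ * φ.d k' ∧ |ρ'.1 - ρ.1 - (T' - T) * ρ.2| ≤ Λ * φ.q k)) (ρ' : ℝ × ℝ) :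
    ∫⁻ ρ, ‖hyLkK φ T k T' k' A A' ρ' ρ‖ₑ ∂φ.nu ≤ ENNReal.ofReal (52 * Real.exp (-(Λ ^ 2 / 40)) * Real.sqrt (φ.q k / φ.q k')) := by
  have hkb : Measurable fun ρ : ℝ × ℝ => ENNReal.ofReal (φ.kb k k' (T' - T) ρ' ρ) :=
    ((hy_kb_cont φ k k' (T' - T)).measurable.comp measurable_prodMk_left).ennreal_ofReal
  have m1 : MeasurableSet {ρ : ℝ × ℝ | Λ * φ.d k' ≤ |ρ.2 - ρ'.2|} :=
    measurableSet_le measurable_const (measurable_snd.sub_const _).abs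
  have m2 : MeasurableSet {ρ : ℝ × ℝ | Λ * φ.q k ≤ |ρ'.1 - ρ.1 - (T' - T) * ρ.2|} :=
    measurableSet_le measurable_const (((measurable_fst.const_sub _).sub (measurable_snd.const_mul _))).abs
  calc ∫⁻ ρ, ‖hyLkK φ T k T' k' A A' ρ' ρ‖ₑ ∂φ.nu
      ≤ ∫⁻ ρ, ({ρ : ℝ × ℝ | Λ * φ.d k' ≤ |ρ.2 - ρ'.2|}.indicator (fun ρ => ENNReal.ofReal (φ.kb k k' (T' - T) ρ' ρ)) ρ
          + {ρ : ℝ × ℝ | Λ * φ.q k ≤ |ρ'.1 - ρ.1 - (T' - T) * ρ.2|}.indicator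
            (fun ρ => ENNReal.ofReal (φ.kb k k' (T' - T) ρ' ρ)) ρ) ∂φ.nu := by
        refine lintegral_mono fun ρ => (hy_lk_K_le φ h Λ T k T' k' hk ht A A' hn ρ' ρ).trans (le_of_eq ?_)
        simp only [Set.indicator_apply, Set.mem_ofPred_eq]
    _ = ∫⁻ ρ in {ρ : ℝ × ℝ | Λ * φ.d k' ≤ |ρ.2 - ρ'.2|}, ENNReal.ofReal (φ.kb k k' (T' - T) ρ' ρ) ∂φ.nu
          + ∫⁻ ρ in {ρ : ℝ × ℝ | Λ * φ.q k ≤ |ρ'.1 - ρ.1 - (T' - T) * ρ.2|}, ENNReal.ofReal (φ.kb k k' (T' - T) ρ' ρ) ∂φ.nu := by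
        rw [lintegral_add_left (hkb.indicator m1), lintegral_indicator m1, lintegral_indicator m2]
    _ ≤ _ := (add_le_add (hy_kb_src_farN φ h k k' (T' - T) Λ hΛ ρ') (hy_kb_src_farD φ h k k' (T' - T) Λ hΛ ρ')).trans
        (hy_lk_num Λ _ (Real.sqrt_nonneg _))

theorem hy_lk_tgt (φ : HyF) (h : φ.Ok) (Λ : ℝ) (hΛ : 0 ≤ Λ) (T : ℝ) (k : ℕ) (T' : ℝ) (k' : ℕ) (hk : k ≤ k')
    (ht : |T' - T| ≤ (2 : ℝ)⁻¹ ^ k) (A A' : Set (ℝ × ℝ))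
    (hn : ∀ ρ ∈ A, ∀ ρ' ∈ A', ¬ (|ρ'.2 - ρ.2| ≤ Λ * φ.d k' ∧ |ρ'.1 - ρ.1 - (T' - T) * ρ.2| ≤ Λ * φ.q k)) (ρ : ℝ × ℝ) :
    ∫⁻ ρ', ‖hyLkK φ T k T' k' A A' ρ' ρ‖ₑ ∂φ.nu ≤ ENNReal.ofReal (52 * Real.exp (-(Λ ^ 2 / 40)) * Real.sqrt (φ.q k / φ.q k')) := by
  have hkb : Measurable fun ρ' : ℝ × ℝ => ENNReal.ofReal (φ.kb k k' (T' - T) ρ' ρ) :=
    ((hy_kb_cont φ k k' (T' - T)).measurable.comp measurable_prodMk_right).ennreal_ofReal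
  have m1 : MeasurableSet {ρ' : ℝ × ℝ | Λ * φ.d k' ≤ |ρ.2 - ρ'.2|} :=
    measurableSet_le measurable_const (measurable_snd.const_sub _).abs
  have m2 : MeasurableSet {ρ' : ℝ × ℝ | Λ * φ.q k ≤ |ρ'.1 - ρ.1 - (T' - T) * ρ.2|} :=
    measurableSet_le measurable_const (((measurable_fst.sub_const _).sub_const _)).abs
  calc ∫⁻ ρ', ‖hyLkK φ T k T' k' A A' ρ' ρ‖ₑ ∂φ.nu
      ≤ ∫⁻ ρ', ({ρ' : ℝ × ℝ | Λ * φ.d k' ≤ |ρ.2 - ρ'.2|}.indicator (fun ρ' => ENNReal.ofReal (φ.kb k k' (T' - T) ρ' ρ)) ρ'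
          + {ρ' : ℝ × ℝ | Λ * φ.q k ≤ |ρ'.1 - ρ.1 - (T' - T) * ρ.2|}.indicator
            (fun ρ' => ENNReal.ofReal (φ.kb k k' (T' - T) ρ' ρ)) ρ') ∂φ.nu := by
        refine lintegral_mono fun ρ' => (hy_lk_K_le φ h Λ T k T' k' hk ht A A' hn ρ' ρ).trans (le_of_eq ?_)
        simp only [Set.indicator_apply, Set.mem_ofPred_eq]
    _ = ∫⁻ ρ' in {ρ' : ℝ × ℝ | Λ * φ.d k' ≤ |ρ.2 - ρ'.2|}, ENNReal.ofReal (φ.kb k k' (T' - T) ρ' ρ) ∂φ.nu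
          + ∫⁻ ρ' in {ρ' : ℝ × ℝ | Λ * φ.q k ≤ |ρ'.1 - ρ.1 - (T' - T) * ρ.2|}, ENNReal.ofReal (φ.kb k k' (T' - T) ρ' ρ) ∂φ.nu := by
        rw [lintegral_add_left (hkb.indicator m1), lintegral_indicator m1, lintegral_indicator m2]
    _ ≤ _ := (add_le_add (hy_kb_tgt_farN φ h k k' (T' - T) Λ hΛ ρ) (hy_kb_tgt_farD φ h k k' (T' - T) Λ hΛ ρ)).trans
        (hy_lk_num Λ _ (Real.sqrt_nonneg _))

/-- **the fibre estimate** -/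
theorem hy_lk_fib (φ : HyF) (h : φ.Ok) (Λ : ℝ) (hΛ : 0 ≤ Λ) (T : ℝ) (k : ℕ) (T' : ℝ) (k' : ℕ) (hk : k ≤ k')
    (ht : |T' - T| ≤ (2 : ℝ)⁻¹ ^ k) (A A' : Set (ℝ × ℝ)) (hA : MeasurableSet A) (hA' : MeasurableSet A')
    (hn : ∀ ρ ∈ A, ∀ ρ' ∈ A', ¬ (|ρ'.2 - ρ.2| ≤ Λ * φ.d k' ∧ |ρ'.1 - ρ.1 - (T' - T) * ρ.2| ≤ Λ * φ.q k))
    {E : Type} [NormedAddCommGroup E] [NormedSpace ℂ E] (f : ℝ × ℝ → E) (hf : AEStronglyMeasurable f φ.nu) :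
    ∫⁻ ρ', A'.indicator (fun _ => (1 : ℝ≥0∞)) ρ' * ‖φ.tr T k T' k' (fun ρ => A.indicator (fun _ => (1 : ℂ)) ρ • f ρ) ρ'‖ₑ ^ 2 ∂φ.nu
      ≤ ENNReal.ofReal ((52 * Real.exp (-(Λ ^ 2 / 40))) ^ 2 * (φ.q k / φ.q k')) * ∫⁻ ρ, ‖f ρ‖ₑ ^ 2 ∂φ.nu := by
  have := hy_nu_sfinite φ
  have hq := (hy_qd φ h k).1
  have hq' := (hy_qd φ h k').1
  have h1 := hy_schur φ.nu φ.nu (hyLkK φ T k T' k' A A') (hy_lk_K_meas φ h T k T' k' A A' hA hA') f hf _ _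
    (hy_lk_src φ h Λ hΛ T k T' k' hk ht A A' hn) (hy_lk_tgt φ h Λ hΛ T k T' k' hk ht A A' hn)
  have e1 : ENNReal.ofReal (52 * Real.exp (-(Λ ^ 2 / 40)) * Real.sqrt (φ.q k / φ.q k'))
      * ENNReal.ofReal (52 * Real.exp (-(Λ ^ 2 / 40)) * Real.sqrt (φ.q k / φ.q k'))
      = ENNReal.ofReal ((52 * Real.exp (-(Λ ^ 2 / 40))) ^ 2 * (φ.q k / φ.q k')) := by
    rw [← ENNReal.ofReal_mul (by positivity)]
    congr 1
    have := Real.mul_self_sqrt (show 0 ≤ φ.q k / φ.q k' by positivity)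
    calc 52 * Real.exp (-(Λ ^ 2 / 40)) * Real.sqrt (φ.q k / φ.q k') * (52 * Real.exp (-(Λ ^ 2 / 40)) * Real.sqrt (φ.q k / φ.q k'))
        = (52 * Real.exp (-(Λ ^ 2 / 40))) ^ 2 * (Real.sqrt (φ.q k / φ.q k') * Real.sqrt (φ.q k / φ.q k')) := by ring
      _ = _ := by rw [this]
  rw [e1] at h1
  refine le_trans (le_of_eq (lintegral_congr fun ρ' => ?_)) h1
  unfold HyF.tr hyLkK
  by_cases h2 : ρ' ∈ A'
  · rw [Set.indicator_of_mem h2, one_mul]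
    congr 2
    refine integral_congr_ae (Filter.Eventually.of_forall fun ρ => ?_)
    simp only [Set.indicator_of_mem h2, one_mul]
    rw [smul_smul, mul_comm]
  · rw [Set.indicator_of_notMem h2, zero_mul]
    simp [Set.indicator_of_notMem h2]

/-! ## 3. assembly -/

theorem hy_lk_ratio (p : ChyPar) (h : p.Ok) (k k' : ℕ) : p.ql k / p.ql k' = 2 ^ (((k' : ℝ) - k) / 2) := by
  have hH := h.H_pos
  unfold ChyPar.ql
  rw [← Real.sqrt_div' _ (by positivity)]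
  have e : p.H / 2 ^ k / (p.H / 2 ^ k') = (2 : ℝ) ^ ((k' : ℝ) - k) := by
    rw [Real.rpow_sub (by norm_num), Real.rpow_natCast, Real.rpow_natCast]
    field_simp
  rw [e, Real.sqrt_eq_rpow, ← Real.rpow_mul (by norm_num)]
  congr 1
  ring

theorem hy_lk_normsq {X : Type} [MeasurableSpace X] {μ : Measure X} {E : Type} [NormedAddCommGroup E] (F : Lp E 2 μ) :
    ∫⁻ x, ‖(F : X → E) x‖ₑ ^ 2 ∂μ = ENNReal.ofReal (‖F‖ ^ 2) := by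
  rw [gn_norm_sq F, ofReal_integral_eq_lintegral_ofReal (gn_sq_integrable F) (ae_of_all _ fun x => sq_nonneg _)]
  refine lintegral_congr fun x => ?_
  rw [ENNReal.ofReal_pow (norm_nonneg _), ofReal_norm]

/-- **LOC-KER** (the correspondence `hyCn` unfolded) -/
theorem hy_lk_main (η : ℝ) (p : ChyPar) (h : p.Ok) (Λ : ℝ) (hΛ : 1 ≤ Λ) (T : ℝ) (k : ℕ) (T' : ℝ) (k' : ℕ) (hc : CutLe T k T' k')
    (S S' : Set (p.Om × ℝ × ℝ)) (hS : MeasurableSet S) (hS' : MeasurableSet S')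
    (hn : ∀ x ∈ S, ∀ x' ∈ S', ¬ (x.1 = x'.1 ∧ |x'.2.2 - x.2.2| ≤ Λ * p.dl k' ∧ |x'.2.1 - x.2.1 - (T' - T) * x.2.2| ≤ Λ * p.ql k))
    (F : Lp p.Fb 2 p.rw) (b b' : ℕ) :
    (p.sys η).ms T' k' b' S' (ContinuousLinearMap.adjoint ((p.sys η).An T k b) ((p.sys η).mulR k (S.indicator fun _ => 1) F))
      ≤ (52 * Real.exp (-(Λ ^ 2 / 40))) ^ 2 * 2 ^ (((k' : ℝ) - k) / 2) * ‖F‖ ^ 2 := by
  obtain ⟨hk, ht1, ht2⟩ := hc
  have ht : |T' - T| ≤ (2 : ℝ)⁻¹ ^ k := by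
    rw [abs_of_nonneg (by linarith)]
    linarith
  obtain ⟨FS, hFSdef⟩ : ∃ FS : Lp p.Fb 2 p.rw, FS = (p.sys η).mulR k (S.indicator fun _ => 1) F := ⟨_, rfl⟩
  have hFS : (FS : p.Om × ℝ × ℝ → p.Fb) =ᵐ[p.rw] fun x => ((S.indicator (fun _ => (1 : ℝ)) x : ℝ) : ℂ) • (F : p.Om × ℝ × ℝ → p.Fb) x := by
    rw [hFSdef]
    exact gn_mulR_coe (P := p.sys η) k (gn_mask_ind hS) F
  obtain ⟨R, hRdef⟩ : ∃ R : p.Om × ℝ × ℝ → p.Fb,
      R = fun x => (p.fib x.1).tr T k T' k' (fun ρ => (FS : p.Om × ℝ × ℝ → p.Fb) (x.1, ρ)) x.2 := ⟨_, rfl⟩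
  have hR : (p.an T' k' (ContinuousLinearMap.adjoint (p.an T k) FS) : p.Om × ℝ × ℝ → p.Fb) =ᵐ[p.rw] R := by
    rw [hRdef]
    exact hy_an_adj p h T k T' k' FS
  have hθm : Measurable (S'.indicator fun _ => (1 : ℝ)) := measurable_const.indicator hS'
  have hen := hy_en_lint p h η T' k' b' (S'.indicator fun _ => (1 : ℝ)) hθm
    (fun x => Set.indicator_nonneg (fun _ _ => zero_le_one) x)
    (fun x => Set.indicator_le_self' (fun _ _ => zero_le_one) x) (ContinuousLinearMap.adjoint (p.an T k) FS) R hR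
  have hRm : AEStronglyMeasurable R p.rw := (Lp.aestronglyMeasurable _).congr hR
  have hint : AEMeasurable (fun x => ENNReal.ofReal (S'.indicator (fun _ => (1 : ℝ)) x) * ‖R x‖ₑ ^ 2) p.rw :=
    hθm.ennreal_ofReal.aemeasurable.mul (hRm.enorm.pow_const 2)
  rw [hy_lk_lint p h _ hint] at hen
  obtain ⟨C, hC⟩ : ∃ C : ℝ, C = (52 * Real.exp (-(Λ ^ 2 / 40))) ^ 2 * 2 ^ (((k' : ℝ) - k) / 2) := ⟨_, rfl⟩
  have hC0 : 0 ≤ C := by rw [hC]; positivity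
  have hFm : StronglyMeasurable (F : p.Om × ℝ × ℝ → p.Fb) := Lp.stronglyMeasurable F
  have hfib : ∀ᵐ ω ∂p.m, ∫⁻ ρ', ENNReal.ofReal (S'.indicator (fun _ => (1 : ℝ)) (ω, ρ')) * ‖R (ω, ρ')‖ₑ ^ 2 ∂(p.fib ω).nu
      ≤ ENNReal.ofReal C * ∫⁻ ρ, ‖(F : p.Om × ℝ × ℝ → p.Fb) (ω, ρ)‖ₑ ^ 2 ∂(p.fib ω).nu := by
    refine (hy_lk_ae p h hFS).mono fun ω hω => ?_
    have hmain := hy_lk_fib (p.fib ω) (hy_fib_ok p h ω) Λ (by linarith) T k T' k' hk ht {ρ | (ω, ρ) ∈ S} {ρ' | (ω, ρ') ∈ S'}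
      (measurable_prodMk_left hS) (measurable_prodMk_left hS')
      (fun ρ hρ ρ' hρ' hcon => hn (ω, ρ) hρ (ω, ρ') hρ' ⟨rfl, hcon.1, hcon.2⟩)
      (fun ρ => (F : p.Om × ℝ × ℝ → p.Fb) (ω, ρ)) (hFm.comp_measurable measurable_prodMk_left).aestronglyMeasurable
    have eC : (52 * Real.exp (-(Λ ^ 2 / 40))) ^ 2 * ((p.fib ω).q k / (p.fib ω).q k') = C := by
      rw [hC, ← hy_lk_ratio p h k k']
      rfl
    rw [eC] at hmain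
    refine le_trans (le_of_eq (lintegral_congr fun ρ' => ?_)) hmain
    congr 1
    · by_cases hx : (ω, ρ') ∈ S'
      · rw [Set.indicator_of_mem hx, Set.indicator_of_mem (show ρ' ∈ {ρ' | (ω, ρ') ∈ S'} from hx), ENNReal.ofReal_one]
      · rw [Set.indicator_of_notMem hx, Set.indicator_of_notMem (show ρ' ∉ {ρ' | (ω, ρ') ∈ S'} from hx), ENNReal.ofReal_zero]
    · rw [hRdef]
      congr 2
      unfold HyF.tr
      refine integral_congr_ae (hω.mono fun ρ hρ => ?_)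
      simp only
      rw [hρ]
      congr 1
      show ((S.indicator (fun _ => (1 : ℝ)) (ω, ρ) : ℝ) : ℂ) • (F : p.Om × ℝ × ℝ → p.Fb) (ω, ρ) = _
      by_cases hx : (ω, ρ) ∈ S
      · rw [Set.indicator_of_mem hx, Set.indicator_of_mem (show ρ ∈ {ρ | (ω, ρ) ∈ S} from hx), Complex.ofReal_one]
      · rw [Set.indicator_of_notMem hx, Set.indicator_of_notMem (show ρ ∉ {ρ | (ω, ρ) ∈ S} from hx), Complex.ofReal_zero]
  have hsum : ENNReal.ofReal ((p.sys η).en T' k' b' (S'.indicator fun _ => (1 : ℝ)) (ContinuousLinearMap.adjoint (p.an T k) FS))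
      ≤ ENNReal.ofReal (C * ‖F‖ ^ 2) := by
    rw [hen]
    refine (lintegral_mono_ae hfib).trans (le_of_eq ?_)
    rw [lintegral_const_mul' _ _ ENNReal.ofReal_ne_top,
      ← hy_lk_lint p h (fun x => ‖(F : p.Om × ℝ × ℝ → p.Fb) x‖ₑ ^ 2) (hFm.enorm.pow_const 2).aemeasurable,
      hy_lk_normsq F, ← ENNReal.ofReal_mul hC0]
  have hfin := (ENNReal.ofReal_le_ofReal_iff (by positivity)).1 hsum
  rw [← hC, ← hFSdef]
  exact hfin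

end Claimed.Agent.R256
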