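import Mathlib

/-!
# Row 256, unit HYB, post BP-256-HYB-TAIL (helper218; prefix `hy_tl_`), file 5: NUMERICS      (Mathlib only)

`u = s⁻¹ = 2^n ≥ C + 2`;   all powers of `s` are natural powers of `u`.
-/

set_option autoImplicit false

namespace Claimed.Agent.R256

open Filter Topology

/-- a Gaussian beats every power -/
theorem hy_tl_exp (K : ℝ) (a : ℕ) : ∃ n0 : ℕ, ∀ n : ℕ, n0 ≤ n → K * Real.exp (-(((2 : ℝ) ^ n) ^ 2 / 40)) ≤ (((2 : ℝ) ^ n) ^ a)⁻¹ := by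
  have h1 : Tendsto (fun x : ℝ => |K| * (x ^ a * Real.exp (-x))) atTop (𝓝 (|K| * 0)) :=
    (Real.tendsto_pow_mul_exp_neg_atTop_nhds_zero a).const_mul _
  rw [mul_zero] at h1
  have h2 : ∀ᶠ x : ℝ in atTop, |K| * (x ^ a * Real.exp (-x)) < 1 := h1.eventually (gt_mem_nhds zero_lt_one)
  obtain ⟨x0, hx0⟩ := Filter.eventually_atTop.1 (h2.and (Filter.eventually_ge_atTop (40 : ℝ)))
  refine ⟨⌈x0⌉₊, fun n hn => ?_⟩
  have hx : x0 ≤ (2 : ℝ) ^ n := by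
    have e1 : x0 ≤ (n : ℝ) := (Nat.le_ceil x0).trans (by exact_mod_cast hn)
    have e2 : (n : ℝ) ≤ (2 : ℝ) ^ n := by exact_mod_cast (Nat.lt_two_pow_self (n := n)).le
    exact e1.trans e2
  obtain ⟨g1, g2⟩ := hx0 _ hx
  set x := (2 : ℝ) ^ n with hxdef
  have hxpos : 0 < x := by positivity
  have g3 : Real.exp (-(x ^ 2 / 40)) ≤ Real.exp (-x) := by
    refine Real.exp_le_exp.2 ?_
    nlinarith
  rw [← one_div, le_div_iff₀ (pow_pos hxpos a)]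
  calc K * Real.exp (-(x ^ 2 / 40)) * x ^ a ≤ |K| * Real.exp (-x) * x ^ a := by
        have := le_abs_self K
        gcongr
    _ = |K| * (x ^ a * Real.exp (-x)) := by ring
    _ ≤ 1 := g1.le

/-- the two energy / regularity ratios -/
theorem hy_tl_num_ek (U Z e e' ka ka' w : ℝ) (hU : 1 ≤ U) (hZ : U ^ 3 ≤ Z) (hw : 0 ≤ w) (hka' : 0 < ka')
    (h1 : U⁻¹ * (ka * w) ≤ e) (h1' : e ≤ U * (ka * w)) (h2 : U⁻¹ * e ≤ e') (h2' : e' ≤ e) (h3 : U⁻¹ * ka ≤ ka') (h3' : ka' ≤ U * ka) :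
    Z⁻¹ * (ka' * w) ≤ e' ∧ e' ≤ Z * (ka' * w) := by
  have hU0 : 0 < U := by linarith
  have hZ0 : 0 < Z := lt_of_lt_of_le (by positivity) hZ
  have hkw : 0 ≤ ka' * w := by positivity
  rw [inv_mul_le_iff₀ hU0] at h1 h2 h3
  constructor
  · rw [inv_mul_le_iff₀ hZ0]
    have a1 : ka' * w ≤ U * (ka * w) := by
      calc ka' * w ≤ (U * ka) * w := by gcongr
        _ = U * (ka * w) := by ring
    have he' : 0 ≤ e' := by
      by_contra hc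
      have hc' : e' < 0 := not_le.1 hc
      have : e < 0 := lt_of_le_of_lt h2 (mul_neg_of_pos_of_neg hU0 hc')
      have : ka * w < 0 := lt_of_le_of_lt h1 (mul_neg_of_pos_of_neg hU0 this)
      have : U * (ka * w) < 0 := mul_neg_of_pos_of_neg hU0 this
      linarith
    calc ka' * w ≤ U * (ka * w) := a1
      _ ≤ U * (U * e) := by gcongr
      _ ≤ U * (U * (U * e')) := by gcongr
      _ = U ^ 3 * e' := by ring
      _ ≤ Z * e' := by gcongr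
  · have hU2 : U ^ 2 ≤ Z := le_trans (by nlinarith [sq_nonneg U]) hZ
    calc e' ≤ e := h2'
      _ ≤ U * (ka * w) := h1'
      _ ≤ U * ((U * ka') * w) := by gcongr
      _ = U ^ 2 * (ka' * w) := by ring
      _ ≤ Z * (ka' * w) := by gcongr

/-- the velocity radius -/
theorem hy_tl_num_a (u f dl m : ℝ) (C : ℕ) (hu : (C : ℝ) + 2 ≤ u) (hf : 0 < f) (hm0 : 0 ≤ m) (hm : m ≤ C) (hdl0 : 0 ≤ dl) (hdl : dl ≤ u ^ (C + 1) * f) :
    u ^ C * f + (m + 1) * (u * dl) ≤ u ^ (C + 3) * f := by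
  have hC0 : (0 : ℝ) ≤ C := Nat.cast_nonneg _
  have hu0 : 0 < u := by linarith
  have hu1 : 1 ≤ u := by linarith
  have key : 1 + ((C : ℝ) + 1) * u ^ 2 ≤ u ^ 3 := by
    have : ((C : ℝ) + 2) * u ^ 2 ≤ u * u ^ 2 := by gcongr
    nlinarith
  calc u ^ C * f + (m + 1) * (u * dl) ≤ u ^ C * f + ((C : ℝ) + 1) * (u * (u ^ (C + 1) * f)) := by gcongr
    _ = u ^ C * f * (1 + ((C : ℝ) + 1) * u ^ 2) := by ring
    _ ≤ u ^ C * f * u ^ 3 := by gcongr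
    _ = u ^ (C + 3) * f := by ring

/-- the position radius -/
theorem hy_tl_num_b (u f l τ ql m : ℝ) (C : ℕ) (hu : (C : ℝ) + 2 ≤ u) (hf : 0 < f) (hl : 0 < l) (hτ : τ ≤ l) (hm0 : 0 ≤ m) (hm : m ≤ C)
    (hql0 : 0 ≤ ql) (hql : ql ≤ u ^ C * (l * f)) :
    u ^ C * (l * f) + τ * (u ^ (C + 3) * f) + (m + 1) * (u * ql) ≤ u ^ (C + 4) * (l * f) := by
  have hC0 : (0 : ℝ) ≤ C := Nat.cast_nonneg _
  have hu0 : 0 < u := by linarith
  have hu1 : 1 ≤ u := by linarith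
  have hu2 : 2 ≤ u := by linarith
  have key : 1 + u ^ 3 + ((C : ℝ) + 1) * u ≤ u ^ 4 := by
    have e1 : ((C : ℝ) + 2) * u ≤ u * u := by gcongr
    have e2 : u * u ≤ u ^ 3 := by nlinarith
    have e3 : 2 * u ^ 3 ≤ u * u ^ 3 := by gcongr
    nlinarith
  calc u ^ C * (l * f) + τ * (u ^ (C + 3) * f) + (m + 1) * (u * ql)
      ≤ u ^ C * (l * f) + l * (u ^ (C + 3) * f) + ((C : ℝ) + 1) * (u * (u ^ C * (l * f))) := by gcongr
    _ = u ^ C * (l * f) * (1 + u ^ 3 + ((C : ℝ) + 1) * u) := by ring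
    _ ≤ u ^ C * (l * f) * u ^ 4 := by gcongr
    _ = u ^ (C + 4) * (l * f) := by ring

/-- the tail mass -/
theorem hy_tl_num_tail (u e x m0 nv c : ℝ) (D : ℕ) (hu : 2 ≤ u) (he : 0 < e) (hx : 0 ≤ x) (hm0 : m0 ≤ (u ^ (2 * (D + 1)))⁻¹ * e) (hnv0 : 0 ≤ nv) (hnv : nv ^ 2 ≤ e)
    (hc0 : 0 ≤ c) (hc : c ≤ (u ^ D)⁻¹ / 2) (h : Real.sqrt x ≤ Real.sqrt m0 + c * nv) : x ≤ (u ^ D)⁻¹ * e := by
  have hu0 : 0 < u := by linarith
  set g := (u ^ D)⁻¹ with hg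
  have hg0 : 0 < g := by positivity
  have hg1 : g ≤ 1 := inv_le_one_of_one_le₀ (one_le_pow₀ (by linarith))
  have a1 : Real.sqrt m0 ≤ g / 2 * Real.sqrt e := by
    have e1 : (u ^ (2 * (D + 1)))⁻¹ = (g * u⁻¹) ^ 2 := by
      rw [hg, ← mul_inv, ← pow_succ, ← inv_pow, ← inv_pow, ← pow_mul, mul_comm]
    have e2 : u⁻¹ ≤ 1 / 2 := by
      rw [one_div]
      exact inv_anti₀ (by norm_num) hu
    calc Real.sqrt m0 ≤ Real.sqrt ((g * u⁻¹) ^ 2 * e) := Real.sqrt_le_sqrt (by rw [← e1]; exact hm0)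
      _ = g * u⁻¹ * Real.sqrt e := by rw [Real.sqrt_mul (by positivity), Real.sqrt_sq (by positivity)]
      _ ≤ g * (1 / 2) * Real.sqrt e := by gcongr
      _ = g / 2 * Real.sqrt e := by ring
  have a2 : nv ≤ Real.sqrt e := Real.le_sqrt_of_sq_le hnv
  have a3 : c * nv ≤ g / 2 * Real.sqrt e := by gcongr
  have a4 : Real.sqrt x ≤ g * Real.sqrt e := by linarith
  have a5 : x ≤ (g * Real.sqrt e) ^ 2 := by
    have := pow_le_pow_left₀ (Real.sqrt_nonneg x) a4 2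
    rwa [Real.sq_sqrt hx] at this
  rw [mul_pow, Real.sq_sqrt he.le] at a5
  refine a5.trans ?_
  have : g ^ 2 ≤ g := by nlinarith
  gcongr

/-- `√(H 2^k') ≤ u^(C+1) f` -/
theorem hy_tl_num_dl (u f H P lam : ℝ) (C : ℕ) (hu : 1 ≤ u) (hf : 0 < f) (hP : H * P / f ^ 2 ≤ u ^ C) (hlam0 : 0 ≤ lam) (hlam : lam ≤ u) :
    Real.sqrt (H * (P * lam)) ≤ u ^ (C + 1) * f := by
  have hu0 : 0 < u := by linarith
  rw [div_le_iff₀ (by positivity)] at hP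
  refine Real.sqrt_le_iff.2 ⟨by positivity, ?_⟩
  have h1 : (1 : ℝ) ≤ u ^ (C + 1) := one_le_pow₀ hu
  calc H * (P * lam) = (H * P) * lam := by ring
    _ ≤ (u ^ C * f ^ 2) * u := by
        have : 0 ≤ u ^ C * f ^ 2 := by positivity
        exact mul_le_mul hP hlam hlam0 this
    _ = u ^ (C + 1) * f ^ 2 := by ring
    _ ≤ u ^ (C + 1) * u ^ (C + 1) * f ^ 2 := by
        have : 0 < u ^ (C + 1) * f ^ 2 := by positivity
        nlinarith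
    _ = (u ^ (C + 1) * f) ^ 2 := by ring

/-- `√(H / 2^k) ≤ u^C l f` -/
theorem hy_tl_num_ql (u f H P : ℝ) (C : ℕ) (hu : 1 ≤ u) (hf : 0 < f) (hP0 : 0 < P) (hP : H * P / f ^ 2 ≤ u ^ C) :
    Real.sqrt (H / P) ≤ u ^ C * (P⁻¹ * f) := by
  have hu0 : 0 < u := by linarith
  rw [div_le_iff₀ (by positivity)] at hP
  refine Real.sqrt_le_iff.2 ⟨by positivity, ?_⟩
  have h1 : (1 : ℝ) ≤ u ^ C := one_le_pow₀ hu
  calc H / P = (H * P) * (P⁻¹) ^ 2 := by field_simp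
    _ ≤ (u ^ C * f ^ 2) * (P⁻¹) ^ 2 := by gcongr
    _ ≤ (u ^ C * u ^ C * f ^ 2) * (P⁻¹) ^ 2 := by
        have : 0 < u ^ C * f ^ 2 := by positivity
        have : u ^ C * f ^ 2 ≤ u ^ C * u ^ C * f ^ 2 := by nlinarith
        gcongr
    _ = (u ^ C * (P⁻¹ * f)) ^ 2 := by ring

end Claimed.Agent.R256
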