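import Claimed.Agent.R256.Hyb.TailSet
import Claimed.Agent.R256.Hyb.TailNum

/-!
# Row 256, unit HYB, post BP-256-HYB-TAIL (helper218; prefix `hy_tl_`), file 6: `TailAdm` FOR THE HYBRID CYLINDER

`hy_tl_main : (∀ p, p.Ok → (p.sys η).Tight) → HyKer η → (cylHyb η).TailAdm`      (02 l.209-225: "At every stage of a polynomial setup, the base and normal cutoff and density conditions hold with enlarged fixed powers").
Frame of the tail piece = the frame of the root transported by the free flow (`cyMv`), widths unchanged.    With `u = s⁻¹ = 2^n`, `Z = s'^(-C') ≥ u^(3C+8)`: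
 energy / regularity `u^(3C)` | base support `2 (ℓ/ℓ') u^(2C) ≤ u^(2C+2)` | density `u^(2C)` | Planck `u^(C+1)` | normal box `u^(C+5)` (`Λ = u`) | tail order `A = 2 (A' + C + 1)`, `n ≥ n0 (A', C)`.
-/

set_option autoImplicit false

namespace Claimed.Agent.R256

open MeasureTheory
open scoped ENNReal

theorem hy_tl_s_inv {P : PkSys} (E : Xp P) : E.s = ((2 : ℝ) ^ E.n)⁻¹ := by
  unfold Xp.s
  rw [inv_pow]

theorem hy_tl_s_pow {P : PkSys} (E : Xp P) (C : ℕ) : E.s ^ (C : ℝ) = (((2 : ℝ) ^ E.n) ^ C)⁻¹ := by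
  rw [Real.rpow_natCast, hy_tl_s_inv, inv_pow]

theorem hy_tl_s_npow {P : PkSys} (E : Xp P) (C : ℕ) : E.s ^ (-(C : ℝ)) = ((2 : ℝ) ^ E.n) ^ C := by
  have h0 : 0 ≤ E.s := by rw [hy_tl_s_inv]; positivity
  rw [Real.rpow_neg h0, hy_tl_s_pow, inv_inv]

/-- the core, with explicit types -/
theorem hy_tl_core (η : ℝ) (hT : ∀ p : ChyPar, p.Ok → (p.sys η).Tight) (hK : HyKer η) (C : ℕ) (h : ℝ) (hh : 0 < h) :
    ∃ C' : ℕ, ∀ A' : ℕ, ∃ A n0 : ℕ, ∀ (p : ChyPar) (E E' : Xp (p.sys η)), n0 ≤ E.n → p.Ok → E.Valid →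
      (∃ Q0 : CyT, CySet (p.sys η) p.co η False C A E Q0 ∧ E.s ^ (C : ℝ) ≤ p.H * 2 ^ E.k0 / Q0.f ^ 2 ∧ p.H * 2 ^ E.k0 / Q0.f ^ 2 ≤ E.s ^ (-(C : ℝ))) →
      E'.Valid → Mdl.IsTail C E E' → h * E.n ≤ E'.n →
      ∃ Q0 : CyT, CySet (p.sys η) p.co η False C' A' E' Q0 ∧ E'.s ^ (C' : ℝ) ≤ p.H * 2 ^ E'.k0 / Q0.f ^ 2 ∧ p.H * 2 ^ E'.k0 / Q0.f ^ 2 ≤ E'.s ^ (-(C' : ℝ)) := by
  obtain ⟨C', hC'⟩ : ∃ C' : ℕ, (3 * (C : ℝ) + 8) ≤ C' * h :=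
    ⟨⌈(3 * (C : ℝ) + 8) / h⌉₊, by have := Nat.le_ceil ((3 * (C : ℝ) + 8) / h); rwa [div_le_iff₀ hh] at this⟩
  refine ⟨C', fun A' => ?_⟩
  obtain ⟨n1, hn1⟩ := hy_tl_exp (104 * ((C : ℝ) + 1)) (A' + C + 1)
  refine ⟨2 * (A' + C + 1), max n1 (C + 2), fun p E E' hn hp hV hadm hV' hTl hhn => ?_⟩
  obtain ⟨Q0, hset, hpl1, hpl2⟩ := hadm
  have hTp := hT p hp
  obtain ⟨st', hst', hv'⟩ := hTl.st
  have hstm : StM st' := hst'.msk
  -- the scale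
  set u : ℝ := (2 : ℝ) ^ E.n with hu
  have hnC : C + 2 ≤ E.n := (le_max_right _ _).trans hn
  have huC : (C : ℝ) + 2 ≤ u := by
    have e1 : ((C + 2 : ℕ) : ℝ) ≤ (E.n : ℝ) := by exact_mod_cast hnC
    have e2 : (E.n : ℝ) ≤ (2 : ℝ) ^ E.n := by exact_mod_cast (Nat.lt_two_pow_self (n := E.n)).le
    push_cast at e1
    linarith
  have hC0 : (0 : ℝ) ≤ C := Nat.cast_nonneg _
  have hu2 : 2 ≤ u := by linarith
  have hu1 : 1 ≤ u := by linarith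
  have hu0 : 0 < u := by linarith
  -- the depths
  have hkf : E'.k0 + E'.n ≤ E.k0 + E.n := hTl.k_hi
  have hk0 : E.k0 ≤ E'.k0 := hTl.k_lo
  have hn' : E'.n ≤ E.n := by omega
  have hd : E'.k0 - E.k0 ≤ E.n := by omega
  have hlam : (2 : ℝ) ^ (E'.k0 - E.k0) ≤ u := pow_le_pow_right₀ (by norm_num) hd
  have hlam1 : (1 : ℝ) ≤ (2 : ℝ) ^ (E'.k0 - E.k0) := one_le_pow₀ (by norm_num)
  have hk0' : (2 : ℝ) ^ E'.k0 = 2 ^ E.k0 * 2 ^ (E'.k0 - E.k0) := by rw [← pow_add]; congr 1; omega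
  -- the new powers
  set Z : ℝ := ((2 : ℝ) ^ E'.n) ^ C' with hZ
  have hZu : u ^ (3 * C + 8) ≤ Z := by
    rw [hu, hZ, ← pow_mul, ← pow_mul]
    refine pow_le_pow_right₀ (by norm_num) ?_
    have e1 : (3 * (C : ℝ) + 8) * E.n ≤ C' * (E'.n : ℝ) := by
      calc (3 * (C : ℝ) + 8) * E.n ≤ (C' * h) * E.n := by gcongr
        _ = C' * (h * E.n) := by ring
        _ ≤ C' * (E'.n : ℝ) := by gcongr
    have e2 : ((E.n * (3 * C + 8) : ℕ) : ℝ) ≤ ((E'.n * C' : ℕ) : ℝ) := by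
      push_cast
      linarith
    exact_mod_cast e2
  have hZm : ∀ m : ℕ, m ≤ 3 * C + 8 → u ^ m ≤ Z := fun m hm => (pow_le_pow_right₀ hu1 hm).trans hZu
  have hZ0 : 0 < Z := by positivity
  rw [hy_tl_s_pow E' C', hy_tl_s_npow E' C', ← hZ]
  rw [hy_tl_s_pow E C, ← hu] at hpl1
  rw [hy_tl_s_npow E C, ← hu] at hpl2
  -- the cuts
  have hc : CutLe (tmL E.k0 E.i0) E.k0 (tmL E'.k0 E'.i0) E'.k0 := by
    have := gn_cutle_anc hk0 E'.i0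
    rwa [hTl.anc] at this
  have hf : 0 < Q0.f := hset.f_pos
  have hr : 0 < Q0.r := hset.r_pos
  have hw : 0 ≤ cyWt η Q0 := mul_nonneg (Real.rpow_nonneg hr.le _) (Real.rpow_nonneg hf.le _)
  have hl : (0 : ℝ) < (2 : ℝ)⁻¹ ^ E.k0 := by positivity
  have hl' : (0 : ℝ) < (2 : ℝ)⁻¹ ^ E'.k0 := by positivity
  have he_lo : (u ^ C)⁻¹ * E.e ≤ E'.e := by have := hTl.e_lo; rwa [hy_tl_s_pow E C] at this
  have he' : 0 < E'.e := hV'.e_pos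
  have huC1 : (1 : ℝ) ≤ u ^ C := one_le_pow₀ hu1
  have huC0 : (0 : ℝ) < u ^ C := by positivity
  have hek := hy_tl_num_ek (u ^ C) Z E.e E'.e E.ka E'.ka (cyWt η Q0) huC1 (by rw [← pow_mul]; exact hZm _ (by omega)) hw hV'.ka_pos
    (by have := hset.ek_lo; rwa [hy_tl_s_pow E C] at this) (by have := hset.ek_hi; rwa [hy_tl_s_npow E C] at this)
    he_lo hTl.e_hi (by have := hTl.ka_lo; rwa [hy_tl_s_pow E C] at this) (by have := hTl.ka_hi; rwa [hy_tl_s_npow E C] at this)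
  have hplk : p.H * 2 ^ E'.k0 / Q0.f ^ 2 = p.H * 2 ^ E.k0 / Q0.f ^ 2 * 2 ^ (E'.k0 - E.k0) := by rw [hk0']; ring
  refine ⟨cyMv Q0 (tmL E'.k0 E'.i0 - tmL E.k0 E.i0), ⟨hr, hf, ?_, ?_, ?_, ?_, ?_, fun hF => hF.elim⟩, ?_, ?_⟩
  · -- ek_lo
    rw [hy_tl_s_pow E' C']
    exact hek.1
  · -- ek_hi
    rw [hy_tl_s_npow E' C']
    exact hek.2
  · -- supp
    rw [hv']
    refine hy_tl_supp p hp η hTp Q0 hr _ E.k0 E.b0 _ E'.k0 E'.b0 E'.k0 E'.i0 hc st' hstm E.v (E.s ^ (-(C : ℝ))) (E'.s ^ (-(C' : ℝ)))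
      (by rw [hy_tl_s_npow]; exact huC1) ?_ hset.supp
    rw [hy_tl_s_npow, hy_tl_s_npow]
    calc 2 * 2 ^ (E'.k0 - E.k0) * (u ^ C) ^ 2 ≤ u * u * (u ^ C) ^ 2 := by gcongr
      _ = u ^ (2 * C + 2) := by ring
      _ ≤ Z := hZm _ (by omega)
  · -- tail
    rw [hv']
    have hlen : (st'.length : ℝ) ≤ C := by exact_mod_cast hst'.len
    have hlen0 : (0 : ℝ) ≤ (st'.length : ℝ) := Nat.cast_nonneg _
    have hdl : p.dl E'.k0 ≤ u ^ (C + 1) * Q0.f := by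
      unfold ChyPar.dl
      rw [hk0']
      exact hy_tl_num_dl u Q0.f p.H (2 ^ E.k0) (2 ^ (E'.k0 - E.k0)) C hu1 hf hpl2 (by positivity) hlam
    have hql : p.ql E.k0 ≤ u ^ C * ((2 : ℝ)⁻¹ ^ E.k0 * Q0.f) := by
      unfold ChyPar.ql
      rw [inv_pow]
      exact hy_tl_num_ql u Q0.f p.H (2 ^ E.k0) C hu1 hf (by positivity) hpl2
    have ht := hy_tl_tail η hK p hp hTp Q0 hf E.k0 E'.k0 E'.i0 E.b0 E'.b0 hk0 st' hstm hst'.dep hst'.mono E.v hV.plat u hu1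
      (E.s ^ (-(C : ℝ))) (u ^ (C + 3) * Q0.f) (u ^ (C + 4) * ((2 : ℝ)⁻¹ ^ E.k0 * Q0.f)) (E'.s ^ (-(C' : ℝ)))
      (by rw [hy_tl_s_npow]; positivity)
      (by rw [hy_tl_s_npow]; exact hy_tl_num_a u Q0.f (p.dl E'.k0) st'.length C huC hf hlen0 hlen (hy_tl_dl_nonneg p _) hdl)
      (by
        rw [hy_tl_s_npow, hTl.anc]
        exact hy_tl_num_b u Q0.f _ _ (p.ql E.k0) st'.length C huC hf hl (by linarith [hc.2.2]) hlen0 hlen (hy_tl_ql_nonneg p _) hql)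
      (by rw [hy_tl_s_npow]; exact mul_le_mul_of_nonneg_right (hZm _ (by omega)) hf.le)
      (by
        rw [hy_tl_s_npow]
        have e1 : (2 : ℝ)⁻¹ ^ E.k0 = 2 ^ (E'.k0 - E.k0) * (2 : ℝ)⁻¹ ^ E'.k0 := by
          rw [← hy_tl_ratio hk0]; field_simp
        rw [e1]
        calc u ^ (C + 4) * (2 ^ (E'.k0 - E.k0) * (2 : ℝ)⁻¹ ^ E'.k0 * Q0.f) ≤ u ^ (C + 4) * (u * (2 : ℝ)⁻¹ ^ E'.k0 * Q0.f) := by gcongr
          _ = u ^ (C + 5) * ((2 : ℝ)⁻¹ ^ E'.k0 * Q0.f) := by ring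
          _ ≤ Z * ((2 : ℝ)⁻¹ ^ E'.k0 * Q0.f) := by
            have := hZm (C + 5) (by omega)
            gcongr)
    rw [hTl.anc] at ht
    have hcc : ((st'.length : ℝ) + 1) * (52 * Real.exp (-(u ^ 2 / 40)) * 2 ^ (((E'.k0 : ℝ) - E.k0) / 4)) ≤ (u ^ (A' + C))⁻¹ / 2 := by
      have g1 := hn1 E.n ((le_max_left _ _).trans hn)
      have g2 : (2 : ℝ) ^ (((E'.k0 : ℝ) - E.k0) / 4) ≤ u := by
        rw [hu, ← Real.rpow_natCast 2 E.n]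
        refine Real.rpow_le_rpow_of_exponent_le (by norm_num) ?_
        have e1 : ((E'.k0 - E.k0 : ℕ) : ℝ) ≤ (E.n : ℝ) := by exact_mod_cast hd
        rw [Nat.cast_sub hk0] at e1
        have e2 : (0 : ℝ) ≤ (E'.k0 : ℝ) - E.k0 := by
          have : (E.k0 : ℝ) ≤ E'.k0 := by exact_mod_cast hk0
          linarith
        linarith
      have hexp0 : 0 ≤ Real.exp (-(u ^ 2 / 40)) := (Real.exp_pos _).le
      calc ((st'.length : ℝ) + 1) * (52 * Real.exp (-(u ^ 2 / 40)) * 2 ^ (((E'.k0 : ℝ) - E.k0) / 4))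
          ≤ ((C : ℝ) + 1) * (52 * Real.exp (-(u ^ 2 / 40)) * u) := by gcongr
        _ = (104 * ((C : ℝ) + 1) * Real.exp (-(u ^ 2 / 40))) * u / 2 := by ring
        _ ≤ (u ^ (A' + C + 1))⁻¹ * u / 2 := by gcongr
        _ = (u ^ (A' + C))⁻¹ / 2 := by
          rw [pow_succ, mul_inv]
          field_simp
    have hfin := hy_tl_num_tail u E.e _ _ ‖E.v‖ _ (A' + C) hu2 hV.e_pos (gn_ms_nonneg _ _ _ _ _)
      (by have := hset.tail; rwa [hy_tl_s_pow E (2 * (A' + C + 1))] at this) (norm_nonneg _) hV.budget (by positivity) hcc ht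
    refine hfin.trans ?_
    rw [hy_tl_s_pow E' A']
    have g3 : (u ^ A')⁻¹ ≤ (((2 : ℝ) ^ E'.n) ^ A')⁻¹ := by
      refine inv_anti₀ (by positivity) ?_
      refine pow_le_pow_left₀ (by positivity) ?_ _
      exact pow_le_pow_right₀ (by norm_num) hn'
    calc (u ^ (A' + C))⁻¹ * E.e = (u ^ A')⁻¹ * ((u ^ C)⁻¹ * E.e) := by rw [pow_add, mul_inv]; ring
      _ ≤ (u ^ A')⁻¹ * E'.e := by gcongr
      _ ≤ (((2 : ℝ) ^ E'.n) ^ A')⁻¹ * E'.e := by gcongr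
  · -- dens
    intro S hS
    rw [hv']
    refine (hy_tl_dens p hp η hTp Q0 hr _ E.k0 E.b0 _ E'.k0 E'.b0 E'.k0 E'.i0 hc st' hstm E.v _ hset.dens S hS).trans ?_
    refine mul_le_mul_left ?_ _
    refine ENNReal.ofReal_le_ofReal ?_
    rw [hy_tl_s_npow, hy_tl_s_npow]
    have e1 : E.e ≤ u ^ C * E'.e := by rwa [inv_mul_le_iff₀ huC0] at he_lo
    calc u ^ C * E.e ≤ u ^ C * (u ^ C * E'.e) := by gcongr
      _ = u ^ (2 * C) * E'.e := by ring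
      _ ≤ Z * E'.e := by
        have := hZm (2 * C) (by omega)
        gcongr
  · -- Planck, lower
    show Z⁻¹ ≤ p.H * 2 ^ E'.k0 / Q0.f ^ 2
    rw [hplk]
    have e1 : Z⁻¹ ≤ (u ^ C)⁻¹ := inv_anti₀ huC0 (hZm C (by omega))
    have e2 : (0 : ℝ) ≤ (u ^ C)⁻¹ := by positivity
    calc Z⁻¹ ≤ (u ^ C)⁻¹ * 1 := by rw [mul_one]; exact e1
      _ ≤ p.H * 2 ^ E.k0 / Q0.f ^ 2 * 2 ^ (E'.k0 - E.k0) := mul_le_mul hpl1 hlam1 zero_le_one (e2.trans hpl1)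
  · -- Planck, upper
    show p.H * 2 ^ E'.k0 / Q0.f ^ 2 ≤ Z
    rw [hplk]
    calc p.H * 2 ^ E.k0 / Q0.f ^ 2 * 2 ^ (E'.k0 - E.k0) ≤ u ^ C * u := mul_le_mul hpl2 hlam (by positivity) huC0.le
      _ = u ^ (C + 1) := by ring
      _ ≤ Z := hZm _ (by omega)

/-- **TAIL** from `Tight` and the kernel bound -/
theorem hy_tl_main (η : ℝ) (hT : ∀ p : ChyPar, p.Ok → (p.sys η).Tight) (hK : HyKer η) : (cylHyb η).TailAdm := by
  intro C h hh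
  obtain ⟨C', H⟩ := hy_tl_core η hT hK C h hh
  refine ⟨C', fun A' => ?_⟩
  obtain ⟨A, n0, H'⟩ := H A'
  exact ⟨A, n0, fun p E E' hn hCls hV' hTl hhn => H' p E E' hn hCls.1 hCls.2.1 hCls.2.2.2.2 hV' hTl hhn⟩

end Claimed.Agent.R256
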