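import Claimed.Agent.R256.Hyb.Inst
import Claimed.Agent.R256.Hyb.Loc
import Claimed.Agent.R256.Hyb.LocKer
import Claimed.Agent.R256.Hyb.Floor
import Claimed.Agent.R256.Hyb.Tail
import Claimed.Agent.R256.Gen.Sgl

/-!
# Row 256, unit HYB = the hybrid cylinder instance: CONTRACT      (chief helper82; prefix `hy_`)

## ENTRY   `Base/Sys`, `Base/Cyl` (helper207), `Gen/Hyp` (the list of hypotheses of the generic theory).     Geometry of tests (back covering, sublevel sets, densities): with R256/Cyl (helper255).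
## EXIT    `hy_gen : (cylHyb η).Gen (1 + η/2)`  =  `hy_tight`, `hy_rep` (DIRECT, constant 8), `hy_loc` (-> `gn_sgl`), `hy_root`, `hy_scale`, `hy_tail`, `hy_floor`;
           the fibre calculus `Hyb/{Defs,Ker,Gau,Iso,Tool,Inst}` (kernel `kr`, exact modulus, majorant `kb`, Schur integrals, isometry, composition law, rows of a branch) for Hz, Chan, Cyl.
## UNITS (lines)
 K0-K4 kernel 1150 | G1-G10 Gaussian Schur integrals 900 | K5-K8 isometry, composition, contraction 1600 | S1-S4 tools 700 | I0-I5 instance 1900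
 TIGHT 250 (I1 + measurability of cells) | REP 350 (I2 with `T' = T, k' = k`, `hy_kr_same` at `t = 0`: `|kr| = exp(-ΔD²/4q² - σ²ΔN²/4d²)` is a function of `ρ' - ρ`; `hy_cs`; a TRANSLATE of a test in `(D,N)` is a test with the same widths)
 LOC-KER 500 (I2 + `hy_kr_le` + G3-G6 + `hy_schur`; `exp(-Λ²/40) ≤ C_N Λ^-N`) | LOC-COV 800 (02 l.323-345; geometry) | ROOT, SCALE 150 | TAIL 1200 (02 l.209-225: support, tails, density at later cuts) | FLOOR 1500 (02 l.226-262)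
-/

set_option autoImplicit false

namespace Claimed.Agent.R256

open MeasureTheory
open scoped ENNReal

/-- **TIGHT** -/
theorem hy_tight (η : ℝ) (p : ChyPar) (h : p.Ok) : (p.sys η).Tight := by
  refine ⟨fun T k b v => le_of_eq (hy_an_norm p h T k v), fun b v hv => hv, fun T k b F T' k' => hy_an_norm p h T' k' _,
    fun T k b b' v _ _ => rfl, fun k => hy_rw_sfin p h, fun Q T k => hy_fl_cell_meas p h Q _ T, ?_, ?_⟩
  · intro Q k hQ
    have h1 : 0 < Q.r := hQ.1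
    have h2 : 0 < Q.f := hQ.2.1
    show 0 < cyWt η Q
    unfold cyWt
    positivity
  · intro Q k k' hk hQ
    refine ⟨hQ.1, hQ.2.1, le_trans ?_ hQ.2.2⟩
    unfold ChyPar.dl
    refine Real.sqrt_le_sqrt ?_
    have := h.H_pos
    gcongr
    · norm_num

theorem hy_rp_conv (g f K : ℝ × ℝ → ℝ≥0∞) (hg : Measurable g) (hf : Measurable f) (hK : Measurable K) :
    ∫⁻ ρ', g ρ' * ∫⁻ ρ, K (ρ' - ρ) * f ρ = ∫⁻ τ, K τ * ∫⁻ ρ, f ρ * g (ρ + τ) := by
  calc ∫⁻ ρ', g ρ' * ∫⁻ ρ, K (ρ' - ρ) * f ρ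
      = ∫⁻ ρ', ∫⁻ ρ, g ρ' * (K (ρ' - ρ) * f ρ) := by
        refine lintegral_congr fun ρ' => ?_
        rw [lintegral_const_mul]
        fun_prop
    _ = ∫⁻ ρ, ∫⁻ ρ', g ρ' * (K (ρ' - ρ) * f ρ) := by
        refine lintegral_lintegral_swap ?_
        refine Measurable.aemeasurable ?_
        unfold Function.uncurry
        fun_prop
    _ = ∫⁻ ρ, ∫⁻ τ, g (τ + ρ) * (K τ * f ρ) := by
        refine lintegral_congr fun ρ => ?_
        have := lintegral_add_right_eq_self (μ := (volume : Measure (ℝ × ℝ))) (fun ρ' => g ρ' * (K (ρ' - ρ) * f ρ)) ρ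
        rw [← this]
        simp only [add_sub_cancel_right]
    _ = ∫⁻ τ, ∫⁻ ρ, g (τ + ρ) * (K τ * f ρ) := by
        refine lintegral_lintegral_swap ?_
        refine Measurable.aemeasurable ?_
        unfold Function.uncurry
        fun_prop
    _ = ∫⁻ τ, K τ * ∫⁻ ρ, f ρ * g (ρ + τ) := by
        refine lintegral_congr fun τ => ?_
        rw [← lintegral_const_mul _ (by fun_prop)]
        refine lintegral_congr fun ρ => ?_
        rw [add_comm τ ρ]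
        ring

/-- the translation invariant majorant of the reproducing kernel -/
noncomputable def hyK0 (q d : ℝ) (τ : ℝ × ℝ) : ℝ≥0∞ :=
  ENNReal.ofReal (Real.exp (-(τ.1 ^ 2 / (4 * q ^ 2)))) * ENNReal.ofReal (Real.exp (-(τ.2 ^ 2 / (4 * d ^ 2))))

/-- the translate of a test in the normal variables -/
def hyTrQ (Q : CyT) (τ : ℝ × ℝ) : CyT := { Q with c := Q.c - τ.2, d := Q.d - τ.1 }

theorem hy_rp_eqns_cite : True := by
  have := @hyK0.eq_1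
  have := @hyTrQ.eq_1
  trivial

theorem hy_rp_cell (p : ChyPar) (Q : CyT) (l T : ℝ) (ω : p.Om) (ρ τ : ℝ × ℝ) :
    cyIn Q l (p.co T (ω, ρ + τ)) ↔ cyIn (hyTrQ Q τ) l (p.co T (ω, ρ)) := by
  unfold cyIn cyTilt cyVel cyPos ChyPar.co hyTrQ
  simp only [Prod.fst_add, Prod.snd_add]
  constructor
  · rintro ⟨h1, h2, h3, h4, h5⟩
    refine ⟨h1, h2, h3, ?_, ?_⟩
    · convert h4 using 2; ring
    · convert h5 using 2; ring
  · rintro ⟨h1, h2, h3, h4, h5⟩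
    refine ⟨h1, h2, h3, ?_, ?_⟩
    · convert h4 using 2; ring
    · convert h5 using 2; ring

theorem hy_rp_K0_meas (q d : ℝ) : Measurable (hyK0 q d) := by
  unfold hyK0
  fun_prop

theorem hy_rp_K0_int {q d : ℝ} (hq : 0 < q) (hd : 0 < d) : ∫⁻ τ, hyK0 q d τ = ENNReal.ofReal (4 * Real.pi * (q * d)) := by
  unfold hyK0
  rw [Measure.volume_eq_prod, lintegral_prod_mul (f := fun x : ℝ => ENNReal.ofReal (Real.exp (-(x ^ 2 / (4 * q ^ 2)))))
    (g := fun x : ℝ => ENNReal.ofReal (Real.exp (-(x ^ 2 / (4 * d ^ 2))))) (by fun_prop) (by fun_prop),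
    hy_g_gauss hq (by norm_num), hy_g_gauss hd (by norm_num), ← ENNReal.ofReal_mul (by positivity)]
  congr 1
  have : Real.sqrt (4 * Real.pi) * Real.sqrt (4 * Real.pi) = 4 * Real.pi := Real.mul_self_sqrt (by positivity)
  linear_combination (q * d) * this

theorem hy_rp_kr_le (φ : HyF) (h : φ.Ok) (T : ℝ) (k : ℕ) (ρ' ρ : ℝ × ℝ) : ‖φ.kr T k T k ρ' ρ‖ₑ ≤ hyK0 (φ.q k) (φ.d k) (ρ' - ρ) := by
  obtain ⟨hq, hd, -⟩ := hy_qd φ h k
  rw [← ofReal_norm, hy_kr_same φ h, hyK0, ← ENNReal.ofReal_mul (by positivity), ← Real.exp_add]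
  refine ENNReal.ofReal_le_ofReal ?_
  simp only [sub_self, zero_mul, zero_div, ne_eq, OfNat.ofNat_ne_zero, not_false_eq_true, zero_pow, add_zero, Real.one_rpow, one_mul,
    sub_zero, mul_one, Prod.fst_sub, Prod.snd_sub]
  refine Real.exp_le_exp.2 ?_
  have h1 : (ρ'.2 - ρ.2) ^ 2 / (4 * φ.d k ^ 2) ≤ φ.sg ^ 2 * (ρ.2 - ρ'.2) ^ 2 / (4 * φ.d k ^ 2) := by
    have hs := h.sg_lo
    have h2 : 1 ≤ φ.sg ^ 2 := by nlinarith
    have : (ρ'.2 - ρ.2) ^ 2 ≤ φ.sg ^ 2 * (ρ.2 - ρ'.2) ^ 2 := by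
      have e : (ρ'.2 - ρ.2) ^ 2 = 1 * (ρ.2 - ρ'.2) ^ 2 := by ring
      rw [e]
      gcongr
    gcongr
  linarith

theorem hy_rp_pt (φ : HyF) (h : φ.Ok) (T : ℝ) (k : ℕ) {E : Type} [NormedAddCommGroup E] [NormedSpace ℂ E] (f : ℝ × ℝ → E)
    (hf : StronglyMeasurable f) (ρ' : ℝ × ℝ) :
    ‖φ.tr T k T k f ρ'‖ₑ ^ 2 ≤ 4 * ∫⁻ ρ, hyK0 (φ.q k) (φ.d k) (ρ' - ρ) * ‖f ρ‖ₑ ^ 2 ∂φ.nu := by
  obtain ⟨hq, hd, hqd, -⟩ := hy_qd φ h k
  have hH := h.H_pos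
  have hkm : Measurable (φ.kr T k T k ρ') := ((hy_kr_cont φ h T k T k).comp (Continuous.prodMk_right ρ')).measurable
  unfold HyF.tr
  refine (hy_cs φ.nu (φ.kr T k T k ρ') hkm.aemeasurable f hf.aestronglyMeasurable).trans ?_
  have h1 : ∫⁻ ρ, ‖φ.kr T k T k ρ' ρ‖ₑ ∂φ.nu ≤ 4 := by
    calc ∫⁻ ρ, ‖φ.kr T k T k ρ' ρ‖ₑ ∂φ.nu ≤ ∫⁻ ρ, hyK0 (φ.q k) (φ.d k) (ρ' - ρ) ∂φ.nu := lintegral_mono fun ρ => hy_rp_kr_le φ h T k ρ' ρ
      _ = ENNReal.ofReal (φ.sg / (2 * Real.pi * φ.H)) * ∫⁻ ρ, hyK0 (φ.q k) (φ.d k) (ρ' - ρ) := by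
          rw [HyF.nu, lintegral_smul_measure, smul_eq_mul]
      _ = ENNReal.ofReal (φ.sg / (2 * Real.pi * φ.H)) * ENNReal.ofReal (4 * Real.pi * (φ.q k * φ.d k)) := by
          rw [lintegral_sub_left_eq_self (hyK0 (φ.q k) (φ.d k)) ρ', hy_rp_K0_int hq hd]
      _ = ENNReal.ofReal (2 * φ.sg) := by
          rw [← ENNReal.ofReal_mul (hy_g_c_nonneg φ h), hqd]
          congr 1
          field_simp
          ring
      _ ≤ 4 := by
          have : (4 : ℝ≥0∞) = ENNReal.ofReal 4 := by norm_num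
          rw [this]
          refine ENNReal.ofReal_le_ofReal ?_
          have := h.sg_hi
          linarith
  have h2 : ∫⁻ ρ, ‖φ.kr T k T k ρ' ρ‖ₑ * ‖f ρ‖ₑ ^ 2 ∂φ.nu ≤ ∫⁻ ρ, hyK0 (φ.q k) (φ.d k) (ρ' - ρ) * ‖f ρ‖ₑ ^ 2 ∂φ.nu :=
    lintegral_mono fun ρ => by
      have := hy_rp_kr_le φ h T k ρ' ρ
      gcongr
  gcongr

theorem hy_rp_main (η : ℝ) (p : ChyPar) (h : p.Ok) (T : ℝ) (k b' : ℕ) (κ : ℝ) (F : Lp p.Fb 2 p.rw)
    (hreg : ∀ Q : CyT, (0 < Q.r ∧ 0 < Q.f ∧ p.dl k ≤ Q.f) →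
      ∫ x in {x : p.Om × ℝ × ℝ | cyIn Q ((2 : ℝ)⁻¹ ^ k) (p.co T x)}, ‖(F : p.Om × ℝ × ℝ → p.Fb) x‖ ^ 2 ∂p.rw ≤ κ * cyWt η Q)
    (Q : CyT) (hQ : 0 < Q.r ∧ 0 < Q.f ∧ p.dl k ≤ Q.f) :
    (p.sys η).ms T k b' {x : p.Om × ℝ × ℝ | cyIn Q ((2 : ℝ)⁻¹ ^ k) (p.co T x)} (ContinuousLinearMap.adjoint (p.an T k) F)
      ≤ 16 * κ * cyWt η Q := by
  obtain ⟨l, hl⟩ : ∃ l : ℝ, l = (2 : ℝ)⁻¹ ^ k := ⟨_, rfl⟩
  rw [← hl] at hreg ⊢
  have := h.sf
  have hH := h.H_pos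
  obtain ⟨f, hf⟩ : ∃ f : p.Om × ℝ × ℝ → ℝ≥0∞, f = fun x => ‖(F : p.Om × ℝ × ℝ → p.Fb) x‖ₑ ^ 2 := ⟨_, rfl⟩
  have hfm : Measurable f := by rw [hf]; exact (Lp.stronglyMeasurable F).enorm.pow_const 2
  obtain ⟨K, hK⟩ : ∃ K : ℝ × ℝ → ℝ≥0∞, K = hyK0 (p.ql k) (p.dl k) := ⟨_, rfl⟩
  have hKm : Measurable K := by rw [hK]; exact hy_rp_K0_meas _ _
  obtain ⟨c, hc⟩ : ∃ c : p.Om → ℝ≥0∞, c = fun ω => ENNReal.ofReal (p.sg ω / (2 * Real.pi * p.H)) := ⟨_, rfl⟩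
  have hcm : Measurable c := by
    rw [hc]
    have := h.mS
    fun_prop
  obtain ⟨c0, hc0⟩ : ∃ c0 : ℝ≥0∞, c0 = ENNReal.ofReal (1 / (Real.pi * p.H)) := ⟨_, rfl⟩
  have hcc0 : ∀ ω, c ω ≤ c0 := by
    intro ω
    rw [hc, hc0]
    refine ENNReal.ofReal_le_ofReal ?_
    have := (h.sg_rg ω).2
    rw [div_le_div_iff₀ (by positivity) (by positivity)]
    nlinarith [Real.pi_pos, mul_pos Real.pi_pos hH]
  have hnu : ∀ (ω : p.Om) (G : ℝ × ℝ → ℝ≥0∞), ∫⁻ ρ, G ρ ∂(p.fib ω).nu = c ω * ∫⁻ ρ, G ρ := by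
    intro ω G
    rw [HyF.nu, lintegral_smul_measure, smul_eq_mul, hc]
    rfl
  have hcell : ∀ Q' : CyT, MeasurableSet {x : p.Om × ℝ × ℝ | cyIn Q' l (p.co T x)} := fun Q' => hy_fl_cell_meas p h Q' l T
  obtain ⟨g, hg⟩ : ∃ g : p.Om × ℝ × ℝ → ℝ≥0∞, g = {x : p.Om × ℝ × ℝ | cyIn Q l (p.co T x)}.indicator fun _ => 1 := ⟨_, rfl⟩
  have hgm : Measurable g := by rw [hg]; exact measurable_const.indicator (hcell Q)
  -- regularity in `lintegral` form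
  have hregL : ∀ Q' : CyT, (0 < Q'.r ∧ 0 < Q'.f ∧ p.dl k ≤ Q'.f) →
      ∫⁻ x in {x : p.Om × ℝ × ℝ | cyIn Q' l (p.co T x)}, f x ∂p.rw ≤ ENNReal.ofReal (κ * cyWt η Q') := by
    intro Q' hQ'
    have hint : Integrable (fun x => ‖(F : p.Om × ℝ × ℝ → p.Fb) x‖ ^ 2) p.rw := (Lp.memLp F).integrable_norm_pow (by norm_num)
    refine le_trans (le_of_eq ?_) (ENNReal.ofReal_le_ofReal (hreg Q' hQ'))
    rw [ofReal_integral_eq_lintegral_ofReal hint.restrict (ae_of_all _ fun x => by positivity), hf]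
    refine lintegral_congr fun x => ?_
    rw [ENNReal.ofReal_pow (norm_nonneg _), ofReal_norm]
  have hκ : 0 ≤ κ * cyWt η Q := le_trans (integral_nonneg fun x => by positivity) (hreg Q hQ)
  -- the pointwise bound
  have hpt : ∀ᵐ x ∂p.rw, ‖(p.an T k (ContinuousLinearMap.adjoint (p.an T k) F) : p.Om × ℝ × ℝ → p.Fb) x‖ₑ ^ 2
      ≤ 4 * (c x.1 * ∫⁻ ρ, K (x.2 - ρ) * f (x.1, ρ)) := by
    filter_upwards [hy_an_adj p h T k T k F] with x hx
    rw [hx, ← hnu, hK, hf]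
    exact hy_rp_pt (p.fib x.1) (hy_fib_ok p h x.1) T k _ ((Lp.stronglyMeasurable F).comp_measurable measurable_prodMk_left) x.2
  have hΦm : Measurable fun x : p.Om × ℝ × ℝ => 4 * (c x.1 * ∫⁻ ρ, K (x.2 - ρ) * f (x.1, ρ)) := by
    have : Measurable fun x : p.Om × ℝ × ℝ => ∫⁻ ρ, K (x.2 - ρ) * f (x.1, ρ) := by
      refine Measurable.lintegral_prod_right' (f := fun z : (p.Om × ℝ × ℝ) × (ℝ × ℝ) => K (z.1.2 - z.2) * f (z.1.1, z.2)) ?_
      fun_prop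
    fun_prop
  have hJm : Measurable fun z : p.Om × (ℝ × ℝ) => ∫⁻ ρ, f (z.1, ρ) * g (z.1, ρ + z.2) := by
    refine Measurable.lintegral_prod_right' (f := fun z : (p.Om × ℝ × ℝ) × (ℝ × ℝ) => f (z.1.1, z.2) * g (z.1.1, z.2 + z.1.2)) ?_
    fun_prop
  have key : ENNReal.ofReal ((p.sys η).ms T k b' {x : p.Om × ℝ × ℝ | cyIn Q l (p.co T x)} (ContinuousLinearMap.adjoint (p.an T k) F))
      ≤ ENNReal.ofReal (16 * κ * cyWt η Q) := by
    refine le_trans (le_of_eq (hy_fl_ms_lint p h η T k b' _ (hcell Q) _)) ?_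
    calc ∫⁻ x in {x : p.Om × ℝ × ℝ | cyIn Q l (p.co T x)},
          ‖(p.an T k (ContinuousLinearMap.adjoint (p.an T k) F) : p.Om × ℝ × ℝ → p.Fb) x‖ₑ ^ 2 ∂p.rw
        ≤ ∫⁻ x in {x : p.Om × ℝ × ℝ | cyIn Q l (p.co T x)}, 4 * (c x.1 * ∫⁻ ρ, K (x.2 - ρ) * f (x.1, ρ)) ∂p.rw :=
          lintegral_mono_ae (ae_restrict_of_ae hpt)
      _ = ∫⁻ x, g x * (4 * (c x.1 * ∫⁻ ρ, K (x.2 - ρ) * f (x.1, ρ))) ∂p.rw := by
          rw [← lintegral_indicator (hcell Q)]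
          refine lintegral_congr fun x => ?_
          rw [hg]
          by_cases hx : x ∈ {x : p.Om × ℝ × ℝ | cyIn Q l (p.co T x)}
          · rw [Set.indicator_of_mem hx, Set.indicator_of_mem hx, one_mul]
          · rw [Set.indicator_of_notMem hx, Set.indicator_of_notMem hx, zero_mul]
      _ = ∫⁻ ω, ∫⁻ ρ', g (ω, ρ') * (4 * (c ω * ∫⁻ ρ, K (ρ' - ρ) * f (ω, ρ))) ∂(p.fib ω).nu ∂p.m := hy_rw_lint p h _ (hgm.mul hΦm)
      _ ≤ ∫⁻ ω, (4 * c0 * ∫⁻ τ, K τ * (c ω * ∫⁻ ρ, f (ω, ρ) * g (ω, ρ + τ))) ∂p.m := by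
          refine lintegral_mono fun ω => ?_
          rw [hnu]
          have e1 : ∀ ρ', g (ω, ρ') * (4 * (c ω * ∫⁻ ρ, K (ρ' - ρ) * f (ω, ρ))) = 4 * c ω * (g (ω, ρ') * ∫⁻ ρ, K (ρ' - ρ) * f (ω, ρ)) :=
            fun ρ' => by ring
          have e2 : ∀ τ, K τ * (c ω * ∫⁻ ρ, f (ω, ρ) * g (ω, ρ + τ)) = c ω * (K τ * ∫⁻ ρ, f (ω, ρ) * g (ω, ρ + τ)) := fun τ => by ring
          have m1 : Measurable fun ρ' : ℝ × ℝ => g (ω, ρ') * ∫⁻ ρ, K (ρ' - ρ) * f (ω, ρ) := by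
            have : Measurable fun ρ' : ℝ × ℝ => ∫⁻ ρ, K (ρ' - ρ) * f (ω, ρ) := by
              refine Measurable.lintegral_prod_right' (f := fun z : (ℝ × ℝ) × (ℝ × ℝ) => K (z.1 - z.2) * f (ω, z.2)) ?_
              fun_prop
            fun_prop
          have m2 : Measurable fun τ : ℝ × ℝ => K τ * ∫⁻ ρ, f (ω, ρ) * g (ω, ρ + τ) := by
            have : Measurable fun τ : ℝ × ℝ => ∫⁻ ρ, f (ω, ρ) * g (ω, ρ + τ) := hJm.comp measurable_prodMk_left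
            fun_prop
          simp only [e1, e2]
          rw [lintegral_const_mul _ m1, lintegral_const_mul _ m2,
            hy_rp_conv (fun ρ' => g (ω, ρ')) (fun ρ => f (ω, ρ)) K (by fun_prop) (by fun_prop) hKm]
          calc c ω * (4 * c ω * ∫⁻ τ, K τ * ∫⁻ ρ, f (ω, ρ) * g (ω, ρ + τ))
              = 4 * c ω * (c ω * ∫⁻ τ, K τ * ∫⁻ ρ, f (ω, ρ) * g (ω, ρ + τ)) := by ring
            _ ≤ 4 * c0 * (c ω * ∫⁻ τ, K τ * ∫⁻ ρ, f (ω, ρ) * g (ω, ρ + τ)) := by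
                have := hcc0 ω
                gcongr
      _ = 4 * c0 * ∫⁻ ω, (∫⁻ τ, K τ * (c ω * ∫⁻ ρ, f (ω, ρ) * g (ω, ρ + τ))) ∂p.m := by
          refine lintegral_const_mul _ ?_
          refine Measurable.lintegral_prod_right' (f := fun z : p.Om × (ℝ × ℝ) => K z.2 * (c z.1 * ∫⁻ ρ, f (z.1, ρ) * g (z.1, ρ + z.2))) ?_
          fun_prop
      _ = 4 * c0 * ∫⁻ τ, ∫⁻ ω, K τ * (c ω * ∫⁻ ρ, f (ω, ρ) * g (ω, ρ + τ)) ∂p.m := by
          rw [lintegral_lintegral_swap]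
          refine Measurable.aemeasurable ?_
          show Measurable fun z : p.Om × (ℝ × ℝ) => K z.2 * (c z.1 * ∫⁻ ρ, f (z.1, ρ) * g (z.1, ρ + z.2))
          fun_prop
      _ ≤ 4 * c0 * ∫⁻ τ, K τ * ENNReal.ofReal (κ * cyWt η Q) := by
          gcongr with τ
          have m3 : Measurable fun ω : p.Om => c ω * ∫⁻ ρ, f (ω, ρ) * g (ω, ρ + τ) := by
            have : Measurable fun ω : p.Om => ∫⁻ ρ, f (ω, ρ) * g (ω, ρ + τ) := hJm.comp measurable_prodMk_right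
            fun_prop
          rw [lintegral_const_mul _ m3]
          gcongr
          simp only [← hnu]
          rw [← hy_rw_lint p h (fun x => f x * g (x.1, x.2 + τ)) (by fun_prop)]
          refine le_trans (le_of_eq ?_) (hregL (hyTrQ Q τ) hQ)
          rw [← lintegral_indicator (hcell _)]
          refine lintegral_congr fun x => ?_
          rw [hg]
          by_cases hx : x ∈ {x : p.Om × ℝ × ℝ | cyIn (hyTrQ Q τ) l (p.co T x)}
          · have hx' : (x.1, x.2 + τ) ∈ {x : p.Om × ℝ × ℝ | cyIn Q l (p.co T x)} := (hy_rp_cell p Q l T x.1 x.2 τ).2 hx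
            rw [Set.indicator_of_mem hx, Set.indicator_of_mem hx', mul_one]
          · have hx' : (x.1, x.2 + τ) ∉ {x : p.Om × ℝ × ℝ | cyIn Q l (p.co T x)} := fun hc => hx ((hy_rp_cell p Q l T x.1 x.2 τ).1 hc)
            rw [Set.indicator_of_notMem hx, Set.indicator_of_notMem hx', mul_zero]
      _ = 4 * c0 * ((∫⁻ τ, K τ) * ENNReal.ofReal (κ * cyWt η Q)) := by rw [lintegral_mul_const _ hKm]
      _ = ENNReal.ofReal (16 * κ * cyWt η Q) := by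
          have hq : 0 < p.ql k := by unfold ChyPar.ql; positivity
          have hd : 0 < p.dl k := by unfold ChyPar.dl; positivity
          have hqd : p.ql k * p.dl k = p.H := by
            unfold ChyPar.ql ChyPar.dl
            rw [← Real.sqrt_mul (by positivity)]
            have : p.H / 2 ^ k * (p.H * 2 ^ k) = p.H ^ 2 := by field_simp
            rw [this, Real.sqrt_sq hH.le]
          have h4 : (4 : ℝ≥0∞) = ENNReal.ofReal 4 := by norm_num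
          rw [hK, hy_rp_K0_int hq hd, hc0, hqd, h4, ← ENNReal.ofReal_mul (by norm_num), ← ENNReal.ofReal_mul (by positivity),
            ← ENNReal.ofReal_mul (by positivity)]
          congr 1
          field_simp
          ring
  exact (ENNReal.ofReal_le_ofReal_iff (by linarith)).1 key

/-- **REP**, directly -/
theorem hy_rep (η : ℝ) : (cylHyb η).Rep := by
  intro bm
  refine ⟨16, by norm_num, ?_⟩
  intro p T k c b' κ F hp _ _ hreg Q hQ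
  exact hy_rp_main η p hp T k b' κ F hreg Q hQ

/-- the correspondence (cyl:correspondence) -/
def hyCn (p : ChyPar) (Λ T : ℝ) (k : ℕ) (T' : ℝ) (k' : ℕ) (x x' : p.Om × ℝ × ℝ) : Prop :=
  x.1 = x'.1 ∧ |x'.2.2 - x.2.2| ≤ Λ * p.dl k' ∧ |x'.2.1 - x.2.1 - (T' - T) * x.2.2| ≤ Λ * p.ql k

/-- **LOC-KER**: the transfer is negligible off the correspondence (explicit Gaussian form) -/
theorem hy_loc_ker (η : ℝ) (p : ChyPar) (h : p.Ok) (Λ : ℝ) (hΛ : 1 ≤ Λ) (T : ℝ) (k : ℕ) (T' : ℝ) (k' : ℕ) (hc : CutLe T k T' k')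
    (S S' : Set (p.Om × ℝ × ℝ)) (hS : MeasurableSet S) (hS' : MeasurableSet S') (hn : ∀ x ∈ S, ∀ x' ∈ S', ¬ hyCn p Λ T k T' k' x x')
    (F : Lp p.Fb 2 p.rw) (b b' : ℕ) :
    (p.sys η).ms T' k' b' S' (ContinuousLinearMap.adjoint ((p.sys η).An T k b) ((p.sys η).mulR k (S.indicator fun _ => 1) F))
      ≤ (52 * Real.exp (-(Λ ^ 2 / 40))) ^ 2 * 2 ^ (((k' : ℝ) - k) / 2) * ‖F‖ ^ 2 :=
  hy_lk_main η p h Λ hΛ T k T' k' hc S S' hS hS' hn F b b'

/-- **LOC** (PROVED from `hy_loc_ker` and `Hyb/Loc.lean`: `hy_lc_exp`, `hy_lc_cov`; helper169) -/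
theorem hy_loc (η : ℝ) (h0 : 0 < η) (h1 : η < 1) : Nonempty ((cylHyb η).Loc (1 + η / 2)) := by
  refine ⟨{ cn := fun p Λ T k T' k' x x' => hyCn p Λ T k T' k' x x'
            Cl := 1 / 4
            Cg := 648
            CN := fun _ N => 52 * ((N.factorial : ℝ) * 40 ^ N)
            cn_mono := ?_
            ker := ?_
            cov := ?_ }⟩
  · intro p Λ Λ' T k T' k' x x' hΛ h
    obtain ⟨a1, a2, a3⟩ := h
    exact ⟨a1, a2.trans (mul_le_mul_of_nonneg_right hΛ (Real.sqrt_nonneg _)), a3.trans (mul_le_mul_of_nonneg_right hΛ (Real.sqrt_nonneg _))⟩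
  · intro p hp bm N Λ hΛ T k T' k' b b' hc _ _ S S' hS hS' hn F
    refine (hy_loc_ker η p hp Λ hΛ T k T' k' hc S S' hS hS' hn F b b').trans ?_
    apply mul_le_mul_of_nonneg_right _ (by positivity)
    have hΛ0 : 0 < Λ := by linarith
    have e : (52 * ((N.factorial : ℝ) * 40 ^ N) * Λ ^ (-(N : ℝ)) * 2 ^ (1 / 4 * ((k' : ℝ) - k))) ^ 2
        = (52 * ((N.factorial : ℝ) * 40 ^ N * Λ ^ (-(N : ℝ)))) ^ 2 * 2 ^ (((k' : ℝ) - k) / 2) := by
      have : ((2 : ℝ) ^ (1 / 4 * ((k' : ℝ) - k))) ^ 2 = 2 ^ (((k' : ℝ) - k) / 2) := by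
        rw [← Real.rpow_natCast, ← Real.rpow_mul (by norm_num)]
        congr 1
        push_cast; ring
      rw [← this]; ring
    rw [e]
    apply mul_le_mul_of_nonneg_right _ (by positivity)
    apply pow_le_pow_left₀ (by positivity)
    exact mul_le_mul_of_nonneg_left (hy_lc_exp N Λ hΛ) (by norm_num)
  · intro p hp Λ hΛ T k T' k' hc Q hQ
    obtain ⟨m, Qs, a1, a2, a3⟩ := hy_lc_cov η h0 h1 p hp Λ hΛ T k T' k' hc Q hQ
    exact ⟨m, Qs, a1, fun x x' hx' hcn => a2 x x' hx' hcn, a3⟩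

theorem hy_root (η : ℝ) : (cylHyb η).AdmRoot := by
  intro C A p E E' hadm hroot hn
  obtain ⟨k0, i0, n, v, e, ka, b0, st, bT, L, iv, ts, th⟩ := E
  obtain ⟨k0', i0', n', v', e', ka', b0', st', bT', L', iv', ts', th'⟩ := E'
  obtain ⟨h1, h2, h3, h4, h5, h6⟩ := hroot
  simp only at h1 h2 h3 h4 h5 h6 hn
  subst h1 h2 h3 h4 h5 h6 hn
  obtain ⟨Q0, hs, ha, hb⟩ := hadm
  exact ⟨Q0, ⟨hs.r_pos, hs.f_pos, hs.ek_lo, hs.ek_hi, hs.supp, hs.tail, hs.dens, hs.densJ⟩, ha, hb⟩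

theorem hy_tg_s_pow {P : PkSys} (E : Xp P) (C : ℕ) : E.s ^ (C : ℝ) = (2 : ℝ)⁻¹ ^ (C * E.n) := by
  unfold Xp.s
  rw [Real.rpow_natCast, ← pow_mul, mul_comm]

theorem hy_tg_s_npow {P : PkSys} (E : Xp P) (C : ℕ) : E.s ^ (-(C : ℝ)) = (2 : ℝ) ^ (C * E.n) := by
  rw [Real.rpow_neg (by unfold Xp.s; positivity), hy_tg_s_pow, inv_pow, inv_inv]

theorem hy_tg_ms_nonneg (P : PkSys) (T : ℝ) (k b : ℕ) (S : Set P.X) (v : P.Kc) : 0 ≤ P.ms T k b S v := by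
  unfold PkSys.ms PkSys.en
  refine integral_nonneg fun x => ?_
  exact mul_nonneg (Set.indicator_nonneg (fun _ _ => zero_le_one) x) (by positivity)

theorem hy_tg_ms_mono (p : ChyPar) (h : p.Ok) (η T : ℝ) (k b : ℕ) (Z Z' : Set (p.Om × ℝ × ℝ)) (hZ : MeasurableSet Z) (hZ' : MeasurableSet Z')
    (hsub : Z' ⊆ Z) (G : (p.sys η).Kc) : (p.sys η).ms T k b Z' G ≤ (p.sys η).ms T k b Z G := by
  have h1 := hy_fl_ms_lint p h η T k b Z hZ G
  have h2 := hy_fl_ms_lint p h η T k b Z' hZ' G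
  have h3 : ENNReal.ofReal ((p.sys η).ms T k b Z' G) ≤ ENNReal.ofReal ((p.sys η).ms T k b Z G) := by
    rw [h1, h2]
    exact lintegral_mono_set hsub
  exact (ENNReal.ofReal_le_ofReal_iff (hy_tg_ms_nonneg _ _ _ _ _ _)).1 h3

theorem hy_tg_base_meas (p : ChyPar) (h : p.Ok) (Q : CyT) (l T c : ℝ) :
    MeasurableSet {x : p.Om × ℝ × ℝ | c < cyBaseSz Q l (p.co T x)} := by
  have mX : Measurable fun x : p.Om × ℝ × ℝ => p.X x.1 := h.mX.comp measurable_fst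
  have mB : Measurable fun x : p.Om × ℝ × ℝ => p.B x.1 := h.mB.comp measurable_fst
  have mY : Measurable fun x : p.Om × ℝ × ℝ => p.Y x.1 := h.mY.comp measurable_fst
  refine measurableSet_lt measurable_const ?_
  unfold cyBaseSz cyBase cyTilt ChyPar.co
  simp only []
  fun_prop

theorem hy_tg_nor_meas (p : ChyPar) (h : p.Ok) (Q : CyT) (l T c : ℝ) :
    MeasurableSet {x : p.Om × ℝ × ℝ | c < cyNorSz Q l (p.co T x)} := by
  have mX : Measurable fun x : p.Om × ℝ × ℝ => p.X x.1 := h.mX.comp measurable_fst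
  have mB : Measurable fun x : p.Om × ℝ × ℝ => p.B x.1 := h.mB.comp measurable_fst
  have mY : Measurable fun x : p.Om × ℝ × ℝ => p.Y x.1 := h.mY.comp measurable_fst
  have mD : Measurable fun x : p.Om × ℝ × ℝ => x.2.1 := measurable_fst.comp measurable_snd
  have mN : Measurable fun x : p.Om × ℝ × ℝ => x.2.2 := measurable_snd.comp measurable_snd
  refine measurableSet_lt measurable_const ?_
  unfold cyNorSz cyNor cyVel cyPos ChyPar.co
  simp only []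
  fun_prop

theorem hy_tg_scale (η : ℝ) (C A C' A' : ℕ) (p : ChyPar) (hp : p.Ok) (E E' : Xp (p.sys η)) (Q0 : CyT)
    (hs : CySet (p.sys η) p.co η False C A E Q0) (hroot : Mdl.SameRoot E E') (hC : C * E.n ≤ C' * E'.n) (hA : A' * E'.n ≤ A * E.n) :
    CySet (p.sys η) p.co η False C' A' E' Q0 ∧ E'.s ^ (C' : ℝ) ≤ E.s ^ (C : ℝ) ∧ E.s ^ (-(C : ℝ)) ≤ E'.s ^ (-(C' : ℝ)) := by
  obtain ⟨h1, h2, h3, h4, h5, h6⟩ := hroot
  -- powers of the scales
  have p1 : E'.s ^ (C' : ℝ) ≤ E.s ^ (C : ℝ) := by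
    rw [hy_tg_s_pow, hy_tg_s_pow]
    exact pow_le_pow_of_le_one (by norm_num) (by norm_num) hC
  have p2 : E.s ^ (-(C : ℝ)) ≤ E'.s ^ (-(C' : ℝ)) := by
    rw [hy_tg_s_npow, hy_tg_s_npow]
    exact pow_le_pow_right₀ (by norm_num) hC
  have p3 : E.s ^ (A : ℝ) ≤ E'.s ^ (A' : ℝ) := by
    rw [hy_tg_s_pow, hy_tg_s_pow]
    exact pow_le_pow_of_le_one (by norm_num) (by norm_num) hA
  have p4 : 0 < E.s ^ (A : ℝ) := by rw [hy_tg_s_pow]; positivity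
  have p5 : 0 < E.s ^ (-(C : ℝ)) := by rw [hy_tg_s_npow]; positivity
  have he : 0 ≤ E.e := by
    have := (hy_tg_ms_nonneg _ _ _ _ _ _).trans hs.tail
    exact nonneg_of_mul_nonneg_right this p4
  have hW : 0 ≤ E.ka * cyWt η Q0 := nonneg_of_mul_nonneg_right (he.trans hs.ek_hi) p5
  refine ⟨⟨hs.r_pos, hs.f_pos, ?_, ?_, ?_, ?_, ?_, fun hf => hf.elim⟩, p1, p2⟩
  · rw [h4, h5]
    exact (mul_le_mul_of_nonneg_right p1 hW).trans hs.ek_lo
  · rw [h4, h5]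
    exact hs.ek_hi.trans (mul_le_mul_of_nonneg_right p2 hW)
  · rw [h1, h2, h3, h6]
    refine le_antisymm ?_ (hy_tg_ms_nonneg _ _ _ _ _ _)
    refine le_trans ?_ (le_of_eq hs.supp)
    refine hy_tg_ms_mono p hp η _ _ _ _ _ (hy_tg_base_meas p hp _ _ _ _) (hy_tg_base_meas p hp _ _ _ _) ?_ _
    intro x hx
    exact lt_of_le_of_lt p2 hx
  · rw [h1, h2, h3, h4, h6]
    refine le_trans ?_ (hs.tail.trans (mul_le_mul_of_nonneg_right p3 he))
    refine hy_tg_ms_mono p hp η _ _ _ _ _ (hy_tg_nor_meas p hp _ _ _ _) (hy_tg_nor_meas p hp _ _ _ _) ?_ _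
    intro x hx
    exact lt_of_le_of_lt p2 hx
  · intro S hS
    rw [h1, h2, h3, h4, h6]
    refine (hs.dens S hS).trans ?_
    gcongr

theorem hy_scale (η : ℝ) : (cylHyb η).AdmScale := by
  intro C A C' A' p E E' hp hadm hroot hC hA
  obtain ⟨Q0, hs, ha, hb⟩ := hadm
  obtain ⟨a1, a2, a3⟩ := hy_tg_scale η C A C' A' p hp E E' Q0 hs hroot hC hA
  have hk : E'.k0 = E.k0 := hroot.1
  refine ⟨Q0, a1, ?_, ?_⟩
  · rw [hk]; exact a2.trans ha
  · rw [hk]; exact hb.trans a3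

/-- **TAIL** (PROVED from `hy_tight`, `hy_loc_ker` and `Hyb/Tail*.lean`: `hy_tl_main`; helper218) -/
theorem hy_tail (η : ℝ) (_h0 : 0 < η) (_h1 : η < 1) : (cylHyb η).TailAdm :=
  hy_tl_main η (hy_tight η) fun p hp Λ hΛ T k T' k' hc S S' hS hS' hn F b b' => hy_loc_ker η p hp Λ hΛ T k T' k' hc S S' hS hS' hn F b b'

theorem hy_floor (η : ℝ) (h0 : 0 < η) (h1 : η < 1) : (cylHyb η).Floor := hy_fl_floor η h0 h1

theorem hy_contract_eqns_cite : True := by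
  have := @hyCn.eq_1
  trivial

/-- **EXIT** -/
theorem hy_gen (η : ℝ) (h0 : 0 < η) (h1 : η < 1) : (cylHyb η).Gen (1 + η / 2) where
  g_pos := by linarith
  tight := fun p hp => hy_tight η p hp
  rep := hy_rep η
  sgl := by
    obtain ⟨L⟩ := hy_loc η h0 h1
    exact gn_sgl _ _ L fun p hp => hy_tight η p hp
  root := hy_root η
  scale := hy_scale η
  tail := hy_tail η h0 h1
  floor := hy_floor η h0 h1

end Claimed.Agent.R256
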