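import Claimed.Agent.R256.Hyb.Ker

/-!
# Row 256, unit HYB, file 5: GAUSSIAN SCHUR INTEGRALS OF THE MAJORANT `kb`      (chief helper82; prefix `hy_`)      Base-free; real Gaussian integrals + Tonelli.

`kb k k' t ρ' ρ = √2 sqrt(q'/q) exp(-(N-N')²/(8d'²) - (D'-D-tN)²/(20q²))`,   `dν = σ/(2πH) dD dN`,  `σ ≤ 2`,  `q d = q' d' = H`.
Integrate first in the position variable (`∫ exp(-y²/(20q²)) dy = q sqrt(20π)`), then in the velocity variable (`∫ exp(-x²/(8d'²)) dx = d' sqrt(8π)`).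
Far regions: `exp(-x²/(8d'²)) ≤ exp(-Λ²/16) exp(-x²/(16d'²))` for `|x| ≥ Λd'`;   `exp(-y²/(20q²)) ≤ exp(-Λ²/40) exp(-y²/(40q²))` for `|y| ≥ Λq`.
Numerics: `√2·2·√160/2 = 17.9`, `×√2 = 25.3`, `√2·2·√(20π)/π = 7.14`, `√2·2·√(8π)/π = 4.52`.      No relation between `k` and `k'` is needed.
-/

set_option autoImplicit false

namespace Claimed.Agent.R256

open MeasureTheory
open scoped ENNReal

theorem hy_kb_nonneg (φ : HyF) (k k' : ℕ) (t : ℝ) (ρ' ρ : ℝ × ℝ) : 0 ≤ φ.kb k k' t ρ' ρ := by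
  unfold HyF.kb
  positivity

theorem hy_kb_cont (φ : HyF) (k k' : ℕ) (t : ℝ) : Continuous fun z : (ℝ × ℝ) × (ℝ × ℝ) => φ.kb k k' t z.1 z.2 := by
  unfold HyF.kb
  have h1 : Continuous fun z : (ℝ × ℝ) × (ℝ × ℝ) => z.2.2 - z.1.2 :=
    (continuous_snd.comp continuous_snd).sub (continuous_snd.comp continuous_fst)
  have h2 : Continuous fun z : (ℝ × ℝ) × (ℝ × ℝ) => z.1.1 - z.2.1 - t * z.2.2 :=
    ((continuous_fst.comp continuous_fst).sub (continuous_fst.comp continuous_snd)).sub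
      (continuous_const.mul (continuous_snd.comp continuous_snd))
  exact continuous_const.mul (Real.continuous_exp.comp ((((h1.pow 2).div_const _).neg).sub ((h2.pow 2).div_const _)))

/-! ### tools: product formulas, Gaussian integrals, windows, numerics -/

/-- integration over the source rows: first the position, then the velocity -/
theorem hy_g_src (f g : ℝ → ℝ≥0∞) (hf : Measurable f) (hg : Measurable g) (t N' D' : ℝ) :
    ∫⁻ ρ : ℝ × ℝ, f (ρ.2 - N') * g (D' - ρ.1 - t * ρ.2) = (∫⁻ x, f x) * ∫⁻ y, g y := by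
  have hm : Measurable fun ρ : ℝ × ℝ => f (ρ.2 - N') * g (D' - ρ.1 - t * ρ.2) :=
    (hf.comp (measurable_snd.sub_const _)).mul (hg.comp ((measurable_fst.const_sub _).sub (measurable_snd.const_mul _)))
  rw [Measure.volume_eq_prod, lintegral_prod_symm _ hm.aemeasurable]
  have h1 : ∀ N : ℝ, ∫⁻ D : ℝ, f (N - N') * g (D' - D - t * N) = f (N - N') * ∫⁻ y, g y := by
    intro N
    rw [lintegral_const_mul _ (show Measurable fun D : ℝ => g (D' - D - t * N) from hg.comp ((measurable_id.const_sub _).sub_const _))]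
    congr 1
    have e : ∀ D : ℝ, D' - D - t * N = (D' - t * N) - D := fun D => by ring
    simp_rw [e]
    exact lintegral_sub_left_eq_self g (D' - t * N)
  simp_rw [h1]
  rw [lintegral_mul_const _ (show Measurable fun N : ℝ => f (N - N') from hf.comp (measurable_id.sub_const _))]
  congr 1
  exact lintegral_sub_right_eq_self f N'

/-- integration over the target rows -/
theorem hy_g_tgt (f g : ℝ → ℝ≥0∞) (hf : Measurable f) (hg : Measurable g) (N a : ℝ) :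
    ∫⁻ ρ' : ℝ × ℝ, f (N - ρ'.2) * g (ρ'.1 - a) = (∫⁻ x, f x) * ∫⁻ y, g y := by
  have h1 : Measurable fun y : ℝ => g (y - a) := hg.comp (measurable_id.sub_const _)
  have h2 : Measurable fun x : ℝ => f (N - x) := hf.comp (measurable_id.const_sub _)
  have h3 := lintegral_prod_mul (μ := (volume : Measure ℝ)) (ν := (volume : Measure ℝ)) h1.aemeasurable h2.aemeasurable
  rw [lintegral_sub_right_eq_self g a, lintegral_sub_left_eq_self f N] at h3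
  rw [Measure.volume_eq_prod, mul_comm (∫⁻ x, f x), ← h3]
  exact lintegral_congr fun ρ' => mul_comm _ _

/-- `∫ exp(-x²/(m s²)) dx = s sqrt(mπ)` -/
theorem hy_g_gauss {s m : ℝ} (hs : 0 < s) (hm : 0 < m) :
    ∫⁻ x : ℝ, ENNReal.ofReal (Real.exp (-(x ^ 2 / (m * s ^ 2)))) = ENNReal.ofReal (s * Real.sqrt (m * Real.pi)) := by
  have hb : 0 < 1 / (m * s ^ 2) := by positivity
  have e : ∀ x : ℝ, -(x ^ 2 / (m * s ^ 2)) = -(1 / (m * s ^ 2)) * x ^ 2 := fun x => by ring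
  simp_rw [e]
  rw [← ofReal_integral_eq_lintegral_ofReal (integrable_exp_neg_mul_sq hb) (Filter.Eventually.of_forall fun x => (Real.exp_pos _).le),
    integral_gaussian]
  congr 1
  have e2 : Real.pi / (1 / (m * s ^ 2)) = s ^ 2 * (m * Real.pi) := by
    field_simp
  rw [e2, Real.sqrt_mul (by positivity), Real.sqrt_sq hs.le]

theorem hy_g_gauss_meas (c : ℝ) : Measurable fun x : ℝ => ENNReal.ofReal (Real.exp (-(x ^ 2 / c))) :=
  ENNReal.measurable_ofReal.comp (Real.measurable_exp.comp (((measurable_id.pow_const 2).div_const c).neg))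

/-- a window -/
theorem hy_g_win (a W : ℝ) : ∫⁻ x : ℝ, Set.indicator {x : ℝ | |x - a| ≤ W} (fun _ => (1 : ℝ≥0∞)) x = ENNReal.ofReal (2 * W) := by
  have e : {x : ℝ | |x - a| ≤ W} = Set.Icc (a - W) (a + W) := by
    ext x
    rw [Set.mem_ofPred_eq, abs_le, Set.mem_Icc]
    constructor <;> intro h <;> constructor <;> linarith [h.1, h.2]
  rw [e, lintegral_indicator measurableSet_Icc, setLIntegral_const, one_mul, Real.volume_Icc]
  congr 1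
  ring

theorem hy_g_win_meas (a W : ℝ) : Measurable (Set.indicator {x : ℝ | |x - a| ≤ W} (fun _ => (1 : ℝ≥0∞))) :=
  measurable_const.indicator (measurableSet_le ((measurable_id.sub_const a).abs) measurable_const)

/-- master bound, source rows -/
theorem hy_g_msrc (φ : HyF) (k k' : ℕ) (t : ℝ) (ρ' : ℝ × ℝ) (S : Set (ℝ × ℝ)) (f g : ℝ → ℝ≥0∞) (hf : Measurable f) (hg : Measurable g)
    (hS : ∀ ρ ∈ S, ENNReal.ofReal (Real.exp (-((ρ.2 - ρ'.2) ^ 2 / (8 * φ.d k' ^ 2)) - (ρ'.1 - ρ.1 - t * ρ.2) ^ 2 / (20 * φ.q k ^ 2)))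
      ≤ f (ρ.2 - ρ'.2) * g (ρ'.1 - ρ.1 - t * ρ.2)) :
    ∫⁻ ρ in S, ENNReal.ofReal (φ.kb k k' t ρ' ρ) ∂φ.nu
      ≤ ENNReal.ofReal (φ.sg / (2 * Real.pi * φ.H)) * (ENNReal.ofReal (Real.sqrt 2 * Real.sqrt (φ.q k' / φ.q k)) * ((∫⁻ x, f x) * ∫⁻ y, g y)) := by
  have hm : Measurable fun ρ : ℝ × ℝ => ENNReal.ofReal (Real.sqrt 2 * Real.sqrt (φ.q k' / φ.q k)) * (f (ρ.2 - ρ'.2) * g (ρ'.1 - ρ.1 - t * ρ.2)) :=
    ((hf.comp (measurable_snd.sub_const _)).mul (hg.comp ((measurable_fst.const_sub _).sub (measurable_snd.const_mul _)))).const_mul _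
  unfold HyF.nu
  rw [Measure.restrict_smul, lintegral_smul_measure, smul_eq_mul]
  refine mul_le_mul' le_rfl ?_
  rw [← hy_g_src f g hf hg t ρ'.2 ρ'.1, ← lintegral_const_mul' _ _ ENNReal.ofReal_ne_top]
  refine (setLIntegral_mono hm fun ρ hρ => ?_).trans (setLIntegral_le_lintegral _ _)
  unfold HyF.kb
  rw [ENNReal.ofReal_mul (by positivity)]
  exact mul_le_mul' le_rfl (hS ρ hρ)

/-- master bound, target rows -/
theorem hy_g_mtgt (φ : HyF) (k k' : ℕ) (t : ℝ) (ρ : ℝ × ℝ) (S : Set (ℝ × ℝ)) (f g : ℝ → ℝ≥0∞) (hf : Measurable f) (hg : Measurable g)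
    (hS : ∀ ρ' ∈ S, ENNReal.ofReal (Real.exp (-((ρ.2 - ρ'.2) ^ 2 / (8 * φ.d k' ^ 2)) - (ρ'.1 - ρ.1 - t * ρ.2) ^ 2 / (20 * φ.q k ^ 2)))
      ≤ f (ρ.2 - ρ'.2) * g (ρ'.1 - (ρ.1 + t * ρ.2))) :
    ∫⁻ ρ' in S, ENNReal.ofReal (φ.kb k k' t ρ' ρ) ∂φ.nu
      ≤ ENNReal.ofReal (φ.sg / (2 * Real.pi * φ.H)) * (ENNReal.ofReal (Real.sqrt 2 * Real.sqrt (φ.q k' / φ.q k)) * ((∫⁻ x, f x) * ∫⁻ y, g y)) := by
  have hm : Measurable fun ρ' : ℝ × ℝ => ENNReal.ofReal (Real.sqrt 2 * Real.sqrt (φ.q k' / φ.q k)) * (f (ρ.2 - ρ'.2) * g (ρ'.1 - (ρ.1 + t * ρ.2))) :=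
    ((hf.comp (measurable_snd.const_sub _)).mul (hg.comp (measurable_fst.sub_const _))).const_mul _
  unfold HyF.nu
  rw [Measure.restrict_smul, lintegral_smul_measure, smul_eq_mul]
  refine mul_le_mul' le_rfl ?_
  rw [← hy_g_tgt f g hf hg ρ.2 (ρ.1 + t * ρ.2), ← lintegral_const_mul' _ _ ENNReal.ofReal_ne_top]
  refine (setLIntegral_mono hm fun ρ' hρ' => ?_).trans (setLIntegral_le_lintegral _ _)
  unfold HyF.kb
  rw [ENNReal.ofReal_mul (by positivity)]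
  exact mul_le_mul' le_rfl (hS ρ' hρ')

/-- splitting the exponential -/
theorem hy_g_split (a b : ℝ) : ENNReal.ofReal (Real.exp (-a - b)) = ENNReal.ofReal (Real.exp (-a)) * ENNReal.ofReal (Real.exp (-b)) := by
  rw [← ENNReal.ofReal_mul (Real.exp_pos _).le, ← Real.exp_add]
  congr 2

/-- the constant of two full Gaussians -/
theorem hy_g_num1 (φ : HyF) (h : φ.Ok) (k k' : ℕ) (m1 m2 C : ℝ) (hm1 : 0 < m1) (hm2 : 0 < m2) (hC : 0 ≤ C) (hmC : 2 * m1 * m2 ≤ C ^ 2) :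
    φ.sg / (2 * Real.pi * φ.H) * (Real.sqrt 2 * Real.sqrt (φ.q k' / φ.q k) *
      (φ.d k' * Real.sqrt (m1 * Real.pi) * (φ.q k * Real.sqrt (m2 * Real.pi)))) ≤ C * Real.sqrt (φ.q k / φ.q k') := by
  obtain ⟨hq, -, -, -, -, -⟩ := hy_qd φ h k
  obtain ⟨hq', hd', hqd', -, -, -⟩ := hy_qd φ h k'
  have hH := h.H_pos
  have hpi := Real.pi_pos
  have hσ0 : 0 < φ.sg := by linarith [h.sg_lo]
  have hr : 0 < Real.sqrt (φ.q k / φ.q k') := Real.sqrt_pos.2 (by positivity)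
  have hr2 : Real.sqrt (φ.q k / φ.q k') ^ 2 = φ.q k / φ.q k' := Real.sq_sqrt (by positivity)
  have hinv : Real.sqrt (φ.q k' / φ.q k) = (Real.sqrt (φ.q k / φ.q k'))⁻¹ := by
    rw [← Real.sqrt_inv, inv_div]
  have hs : Real.sqrt 2 * Real.sqrt (m1 * Real.pi) * Real.sqrt (m2 * Real.pi) = Real.pi * Real.sqrt (2 * m1 * m2) := by
    rw [← Real.sqrt_mul (by norm_num), ← Real.sqrt_mul (by positivity)]
    have e : 2 * (m1 * Real.pi) * (m2 * Real.pi) = Real.pi ^ 2 * (2 * m1 * m2) := by ring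
    rw [e, Real.sqrt_mul (by positivity), Real.sqrt_sq hpi.le]
  have hsC : Real.sqrt (2 * m1 * m2) ≤ C := by
    rw [← Real.sqrt_sq hC]
    exact Real.sqrt_le_sqrt hmC
  have hd : φ.d k' = φ.H / φ.q k' := by
    rw [eq_div_iff hq'.ne', mul_comm]
    exact hqd'
  have e : φ.sg / (2 * Real.pi * φ.H) * (Real.sqrt 2 * Real.sqrt (φ.q k' / φ.q k) *
      (φ.d k' * Real.sqrt (m1 * Real.pi) * (φ.q k * Real.sqrt (m2 * Real.pi))))
      = φ.sg / (2 * Real.pi * φ.H) * (Real.sqrt (φ.q k' / φ.q k) * φ.d k' * φ.q k) *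
        (Real.sqrt 2 * Real.sqrt (m1 * Real.pi) * Real.sqrt (m2 * Real.pi)) := by ring
  rw [e, hs, hinv, hd]
  have e2 : φ.sg / (2 * Real.pi * φ.H) * ((Real.sqrt (φ.q k / φ.q k'))⁻¹ * (φ.H / φ.q k') * φ.q k) * (Real.pi * Real.sqrt (2 * m1 * m2))
      = φ.sg / 2 * Real.sqrt (2 * m1 * m2) * ((Real.sqrt (φ.q k / φ.q k'))⁻¹ * (φ.q k / φ.q k')) := by
    field_simp
  have key : (Real.sqrt (φ.q k / φ.q k'))⁻¹ * (φ.q k / φ.q k') = Real.sqrt (φ.q k / φ.q k') := by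
    rw [inv_mul_eq_div, div_eq_iff hr.ne', ← pow_two, hr2]
  rw [e2, key]
  have h1 : φ.sg / 2 ≤ 1 := by linarith [h.sg_hi]
  calc φ.sg / 2 * Real.sqrt (2 * m1 * m2) * Real.sqrt (φ.q k / φ.q k') ≤ 1 * C * Real.sqrt (φ.q k / φ.q k') := by
        gcongr
    _ = C * Real.sqrt (φ.q k / φ.q k') := by rw [one_mul]

/-- the constant of one Gaussian and one window -/
theorem hy_g_num2 {σ m C : ℝ} (hσ : σ ≤ 2) (hm : 0 < m) (hC : 0 ≤ C) (hmC : 8 * m ≤ C ^ 2 * 3.14) :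
    σ / (2 * Real.pi) * (Real.sqrt 2 * (2 * Real.sqrt (m * Real.pi))) ≤ C := by
  have hpi := Real.pi_pos
  have hpi2 := Real.pi_gt_d2
  have hs : Real.sqrt 2 * Real.sqrt (m * Real.pi) = Real.sqrt (2 * m * Real.pi) := by
    rw [← Real.sqrt_mul (by norm_num)]
    congr 1
    ring
  have h1 : 2 * Real.sqrt (2 * m * Real.pi) ≤ C * Real.pi := by
    have e : 2 * Real.sqrt (2 * m * Real.pi) = Real.sqrt (8 * m * Real.pi) := by
      have : (8 : ℝ) * m * Real.pi = 2 ^ 2 * (2 * m * Real.pi) := by ring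
      rw [this, Real.sqrt_mul (show (0 : ℝ) ≤ 2 ^ 2 by norm_num) (2 * m * Real.pi), Real.sqrt_sq (by norm_num)]
    rw [e, ← Real.sqrt_sq (by positivity : 0 ≤ C * Real.pi)]
    refine Real.sqrt_le_sqrt ?_
    have h2 : C ^ 2 * 3.14 ≤ C ^ 2 * Real.pi := mul_le_mul_of_nonneg_left hpi2.le (by positivity)
    nlinarith
  have e : σ / (2 * Real.pi) * (Real.sqrt 2 * (2 * Real.sqrt (m * Real.pi))) = σ / 2 * (2 * (Real.sqrt 2 * Real.sqrt (m * Real.pi)) / Real.pi) := by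
    field_simp
  rw [e, hs]
  have h3 : 2 * Real.sqrt (2 * m * Real.pi) / Real.pi ≤ C := by
    rw [div_le_iff₀ hpi]
    exact h1
  calc σ / 2 * (2 * Real.sqrt (2 * m * Real.pi) / Real.pi) ≤ 1 * C := by
        refine mul_le_mul (by linarith) h3 (by positivity) zero_le_one
    _ = C := one_mul _

/-- collecting the constants -/
theorem hy_g_fin {c A I1 I2 B : ℝ} (hc : 0 ≤ c) (hA : 0 ≤ A) (hI1 : 0 ≤ I1) (hB : c * (A * (I1 * I2)) ≤ B) :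
    ENNReal.ofReal c * (ENNReal.ofReal A * (ENNReal.ofReal I1 * ENNReal.ofReal I2)) ≤ ENNReal.ofReal B := by
  rw [← ENNReal.ofReal_mul hI1, ← ENNReal.ofReal_mul hA, ← ENNReal.ofReal_mul hc]
  exact ENNReal.ofReal_le_ofReal hB

theorem hy_g_c_nonneg (φ : HyF) (h : φ.Ok) : 0 ≤ φ.sg / (2 * Real.pi * φ.H) := by
  have := h.H_pos
  have := Real.pi_pos
  have : 0 < φ.sg := by linarith [h.sg_lo]
  positivity

theorem hy_g_exp_le_one {a : ℝ} (ha : 0 ≤ a) : ENNReal.ofReal (Real.exp (-a)) ≤ 1 :=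
  ENNReal.ofReal_le_one.2 (Real.exp_le_one_iff.2 (by linarith))

/-- targets in a position bin, the position Gaussian bounded by `E` on the bin -/
theorem hy_g_bin (φ : HyF) (h : φ.Ok) (k k' : ℕ) (t x R : ℝ) (hR : 0 ≤ R) (ρ : ℝ × ℝ) (E : ℝ) (hE0 : 0 ≤ E)
    (hE : ∀ ρ' : ℝ × ℝ, |ρ'.1 - x| ≤ R → Real.exp (-((ρ'.1 - ρ.1 - t * ρ.2) ^ 2 / (20 * φ.q k ^ 2))) ≤ E) :
    ∫⁻ ρ' in {ρ' : ℝ × ℝ | |ρ'.1 - x| ≤ R}, ENNReal.ofReal (φ.kb k k' t ρ' ρ) ∂φ.nu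
      ≤ ENNReal.ofReal (23 / 5 * E * Real.sqrt (φ.q k' / φ.q k) * (R / φ.q k')) := by
  obtain ⟨hq', hd', hqd', -, -, -⟩ := hy_qd φ h k'
  have hH := h.H_pos
  have hpi := Real.pi_pos
  have h1 := hy_g_mtgt φ k k' t ρ {ρ' : ℝ × ℝ | |ρ'.1 - x| ≤ R} (fun x => ENNReal.ofReal (Real.exp (-(x ^ 2 / (8 * φ.d k' ^ 2)))))
    (fun y => ENNReal.ofReal E * Set.indicator {y : ℝ | |y - (x - (ρ.1 + t * ρ.2))| ≤ R} (fun _ => (1 : ℝ≥0∞)) y)
    (hy_g_gauss_meas _) ((hy_g_win_meas _ _).const_mul _) (fun ρ' hρ' => by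
      have hmem : ρ'.1 - (ρ.1 + t * ρ.2) ∈ {y : ℝ | |y - (x - (ρ.1 + t * ρ.2))| ≤ R} := by
        have e : ρ'.1 - (ρ.1 + t * ρ.2) - (x - (ρ.1 + t * ρ.2)) = ρ'.1 - x := by ring
        rw [Set.mem_ofPred_eq, e]
        exact hρ'
      rw [hy_g_split, Set.indicator_of_mem hmem, mul_one]
      exact mul_le_mul' le_rfl (ENNReal.ofReal_le_ofReal (hE ρ' hρ')))
  rw [hy_g_gauss hd' (by norm_num), lintegral_const_mul _ (hy_g_win_meas _ _), hy_g_win, ← ENNReal.ofReal_mul hE0] at h1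
  refine h1.trans (hy_g_fin (hy_g_c_nonneg φ h) (by positivity) (by positivity) ?_)
  have hX := hy_g_num2 (σ := φ.sg) (m := 8) (C := 23 / 5) h.sg_hi (by norm_num) (by norm_num) (by norm_num)
  have hd : φ.d k' = φ.H / φ.q k' := by
    rw [eq_div_iff hq'.ne', mul_comm]
    exact hqd'
  have e : φ.sg / (2 * Real.pi * φ.H) * (Real.sqrt 2 * Real.sqrt (φ.q k' / φ.q k) * (φ.d k' * Real.sqrt (8 * Real.pi) * (E * (2 * R))))
      = φ.sg / (2 * Real.pi) * (Real.sqrt 2 * (2 * Real.sqrt (8 * Real.pi))) * (E * Real.sqrt (φ.q k' / φ.q k) * (R / φ.q k')) := by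
    rw [hd]
    field_simp
  rw [e]
  calc φ.sg / (2 * Real.pi) * (Real.sqrt 2 * (2 * Real.sqrt (8 * Real.pi))) * (E * Real.sqrt (φ.q k' / φ.q k) * (R / φ.q k'))
      ≤ 23 / 5 * (E * Real.sqrt (φ.q k' / φ.q k) * (R / φ.q k')) := mul_le_mul_of_nonneg_right hX (by positivity)
    _ = 23 / 5 * E * Real.sqrt (φ.q k' / φ.q k) * (R / φ.q k') := by ring

/-- **(G1)** -/
theorem hy_kb_src (φ : HyF) (h : φ.Ok) (k k' : ℕ) (t : ℝ) (ρ' : ℝ × ℝ) :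
    ∫⁻ ρ, ENNReal.ofReal (φ.kb k k' t ρ' ρ) ∂φ.nu ≤ ENNReal.ofReal (18 * Real.sqrt (φ.q k / φ.q k')) := by
  have hq := (hy_qd φ h k).1
  have hd' := (hy_qd φ h k').2.1
  have h1 := hy_g_msrc φ k k' t ρ' Set.univ (fun x => ENNReal.ofReal (Real.exp (-(x ^ 2 / (8 * φ.d k' ^ 2)))))
    (fun y => ENNReal.ofReal (Real.exp (-(y ^ 2 / (20 * φ.q k ^ 2))))) (hy_g_gauss_meas _) (hy_g_gauss_meas _)
    (fun ρ _ => (hy_g_split _ _).le)
  rw [setLIntegral_univ, hy_g_gauss hd' (by norm_num), hy_g_gauss hq (by norm_num)] at h1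
  exact h1.trans (hy_g_fin (hy_g_c_nonneg φ h) (by positivity) (by positivity)
    (hy_g_num1 φ h k k' 8 20 18 (by norm_num) (by norm_num) (by norm_num) (by norm_num)))

/-- **(G2)** -/
theorem hy_kb_tgt (φ : HyF) (h : φ.Ok) (k k' : ℕ) (t : ℝ) (ρ : ℝ × ℝ) :
    ∫⁻ ρ', ENNReal.ofReal (φ.kb k k' t ρ' ρ) ∂φ.nu ≤ ENNReal.ofReal (18 * Real.sqrt (φ.q k / φ.q k')) := by
  have hq := (hy_qd φ h k).1
  have hd' := (hy_qd φ h k').2.1
  have h1 := hy_g_mtgt φ k k' t ρ Set.univ (fun x => ENNReal.ofReal (Real.exp (-(x ^ 2 / (8 * φ.d k' ^ 2)))))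
    (fun y => ENNReal.ofReal (Real.exp (-(y ^ 2 / (20 * φ.q k ^ 2))))) (hy_g_gauss_meas _) (hy_g_gauss_meas _)
    (fun ρ' _ => by
      rw [hy_g_split, sub_sub])
  rw [setLIntegral_univ, hy_g_gauss hd' (by norm_num), hy_g_gauss hq (by norm_num)] at h1
  exact h1.trans (hy_g_fin (hy_g_c_nonneg φ h) (by positivity) (by positivity)
    (hy_g_num1 φ h k k' 8 20 18 (by norm_num) (by norm_num) (by norm_num) (by norm_num)))

/-- splitting a Gaussian in a far region: `exp(-x²/(m s²)) ≤ exp(-Λ²/(2m)) exp(-x²/(2m s²))` for `|x| ≥ Λ s` -/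
theorem hy_g_far {s m Λ x : ℝ} (hs : 0 < s) (hm : 0 < m) (hΛ : 0 ≤ Λ) (hx : Λ * s ≤ |x|) :
    ENNReal.ofReal (Real.exp (-(x ^ 2 / (m * s ^ 2)))) ≤
      ENNReal.ofReal (Real.exp (-(Λ ^ 2 / (2 * m)))) * ENNReal.ofReal (Real.exp (-(x ^ 2 / (2 * m * s ^ 2)))) := by
  rw [← ENNReal.ofReal_mul (Real.exp_pos _).le, ← Real.exp_add]
  refine ENNReal.ofReal_le_ofReal (Real.exp_le_exp.2 ?_)
  have h3 : (Λ * s) ^ 2 ≤ x ^ 2 := by
    rw [← sq_abs x]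
    exact pow_le_pow_left₀ (by positivity) hx 2
  have h4 : Λ ^ 2 / (2 * m) ≤ x ^ 2 / (2 * m * s ^ 2) := by
    rw [div_le_div_iff₀ (by positivity) (by positivity)]
    have : 0 ≤ 2 * m := by positivity
    nlinarith
  have e : x ^ 2 / (m * s ^ 2) = x ^ 2 / (2 * m * s ^ 2) + x ^ 2 / (2 * m * s ^ 2) := by
    field_simp
    ring
  rw [e]
  linarith

/-- the constants of the far regions -/
theorem hy_g_fin_far (φ : HyF) (h : φ.Ok) (k k' : ℕ) (m1 m2 E : ℝ) (hm1 : 0 < m1) (hm2 : 0 < m2) (hE : 0 ≤ E) (hm : 2 * m1 * m2 ≤ 26 ^ 2) :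
    ENNReal.ofReal (φ.sg / (2 * Real.pi * φ.H)) * (ENNReal.ofReal (Real.sqrt 2 * Real.sqrt (φ.q k' / φ.q k)) *
      (ENNReal.ofReal (E * (φ.d k' * Real.sqrt (m1 * Real.pi))) * ENNReal.ofReal (φ.q k * Real.sqrt (m2 * Real.pi))))
      ≤ ENNReal.ofReal (26 * E * Real.sqrt (φ.q k / φ.q k')) := by
  have hq := (hy_qd φ h k).1
  have hd' := (hy_qd φ h k').2.1
  refine hy_g_fin (hy_g_c_nonneg φ h) (by positivity) (by positivity) ?_
  have h1 := hy_g_num1 φ h k k' m1 m2 26 hm1 hm2 (by norm_num) hm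
  calc φ.sg / (2 * Real.pi * φ.H) * (Real.sqrt 2 * Real.sqrt (φ.q k' / φ.q k) *
        (E * (φ.d k' * Real.sqrt (m1 * Real.pi)) * (φ.q k * Real.sqrt (m2 * Real.pi))))
      = E * (φ.sg / (2 * Real.pi * φ.H) * (Real.sqrt 2 * Real.sqrt (φ.q k' / φ.q k) *
        (φ.d k' * Real.sqrt (m1 * Real.pi) * (φ.q k * Real.sqrt (m2 * Real.pi))))) := by ring
    _ ≤ E * (26 * Real.sqrt (φ.q k / φ.q k')) := mul_le_mul_of_nonneg_left h1 hE
    _ = 26 * E * Real.sqrt (φ.q k / φ.q k') := by ring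

theorem hy_g_fin_far' (φ : HyF) (h : φ.Ok) (k k' : ℕ) (m1 m2 E : ℝ) (hm1 : 0 < m1) (hm2 : 0 < m2) (hE : 0 ≤ E) (hm : 2 * m1 * m2 ≤ 26 ^ 2) :
    ENNReal.ofReal (φ.sg / (2 * Real.pi * φ.H)) * (ENNReal.ofReal (Real.sqrt 2 * Real.sqrt (φ.q k' / φ.q k)) *
      (ENNReal.ofReal (φ.d k' * Real.sqrt (m1 * Real.pi)) * ENNReal.ofReal (E * (φ.q k * Real.sqrt (m2 * Real.pi)))))
      ≤ ENNReal.ofReal (26 * E * Real.sqrt (φ.q k / φ.q k')) := by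
  have hq := (hy_qd φ h k).1
  have hd' := (hy_qd φ h k').2.1
  refine le_trans (le_of_eq ?_) (hy_g_fin_far φ h k k' m1 m2 E hm1 hm2 hE hm)
  rw [ENNReal.ofReal_mul hE, ENNReal.ofReal_mul hE]
  ring

/-- **(G3)** -/
theorem hy_kb_src_farN (φ : HyF) (h : φ.Ok) (k k' : ℕ) (t Λ : ℝ) (hΛ : 0 ≤ Λ) (ρ' : ℝ × ℝ) :
    ∫⁻ ρ in {ρ : ℝ × ℝ | Λ * φ.d k' ≤ |ρ.2 - ρ'.2|}, ENNReal.ofReal (φ.kb k k' t ρ' ρ) ∂φ.nu
      ≤ ENNReal.ofReal (26 * Real.exp (-(Λ ^ 2 / 16)) * Real.sqrt (φ.q k / φ.q k')) := by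
  have hq := (hy_qd φ h k).1
  have hd' := (hy_qd φ h k').2.1
  have h1 := hy_g_msrc φ k k' t ρ' {ρ : ℝ × ℝ | Λ * φ.d k' ≤ |ρ.2 - ρ'.2|}
    (fun x => ENNReal.ofReal (Real.exp (-(Λ ^ 2 / (2 * 8)))) * ENNReal.ofReal (Real.exp (-(x ^ 2 / (2 * 8 * φ.d k' ^ 2)))))
    (fun y => ENNReal.ofReal (Real.exp (-(y ^ 2 / (20 * φ.q k ^ 2))))) ((hy_g_gauss_meas _).const_mul _) (hy_g_gauss_meas _)
    (fun ρ hρ => by
      rw [hy_g_split]
      exact mul_le_mul' (hy_g_far hd' (by norm_num) hΛ hρ) le_rfl)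
  rw [lintegral_const_mul _ (hy_g_gauss_meas _), hy_g_gauss hd' (by norm_num), hy_g_gauss hq (by norm_num),
    ← ENNReal.ofReal_mul (Real.exp_pos _).le] at h1
  refine h1.trans ((hy_g_fin_far φ h k k' (2 * 8) 20 _ (by norm_num) (by norm_num) (Real.exp_pos _).le (by norm_num)).trans (le_of_eq ?_))
  norm_num

/-- **(G4)** -/
theorem hy_kb_tgt_farN (φ : HyF) (h : φ.Ok) (k k' : ℕ) (t Λ : ℝ) (hΛ : 0 ≤ Λ) (ρ : ℝ × ℝ) :
    ∫⁻ ρ' in {ρ' : ℝ × ℝ | Λ * φ.d k' ≤ |ρ.2 - ρ'.2|}, ENNReal.ofReal (φ.kb k k' t ρ' ρ) ∂φ.nu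
      ≤ ENNReal.ofReal (26 * Real.exp (-(Λ ^ 2 / 16)) * Real.sqrt (φ.q k / φ.q k')) := by
  have hq := (hy_qd φ h k).1
  have hd' := (hy_qd φ h k').2.1
  have h1 := hy_g_mtgt φ k k' t ρ {ρ' : ℝ × ℝ | Λ * φ.d k' ≤ |ρ.2 - ρ'.2|}
    (fun x => ENNReal.ofReal (Real.exp (-(Λ ^ 2 / (2 * 8)))) * ENNReal.ofReal (Real.exp (-(x ^ 2 / (2 * 8 * φ.d k' ^ 2)))))
    (fun y => ENNReal.ofReal (Real.exp (-(y ^ 2 / (20 * φ.q k ^ 2))))) ((hy_g_gauss_meas _).const_mul _) (hy_g_gauss_meas _)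
    (fun ρ' hρ' => by
      rw [hy_g_split, sub_sub]
      exact mul_le_mul' (hy_g_far hd' (by norm_num) hΛ hρ') le_rfl)
  rw [lintegral_const_mul _ (hy_g_gauss_meas _), hy_g_gauss hd' (by norm_num), hy_g_gauss hq (by norm_num),
    ← ENNReal.ofReal_mul (Real.exp_pos _).le] at h1
  refine h1.trans ((hy_g_fin_far φ h k k' (2 * 8) 20 _ (by norm_num) (by norm_num) (Real.exp_pos _).le (by norm_num)).trans (le_of_eq ?_))
  norm_num

/-- **(G5)** -/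
theorem hy_kb_src_farD (φ : HyF) (h : φ.Ok) (k k' : ℕ) (t Λ : ℝ) (hΛ : 0 ≤ Λ) (ρ' : ℝ × ℝ) :
    ∫⁻ ρ in {ρ : ℝ × ℝ | Λ * φ.q k ≤ |ρ'.1 - ρ.1 - t * ρ.2|}, ENNReal.ofReal (φ.kb k k' t ρ' ρ) ∂φ.nu
      ≤ ENNReal.ofReal (26 * Real.exp (-(Λ ^ 2 / 40)) * Real.sqrt (φ.q k / φ.q k')) := by
  have hq := (hy_qd φ h k).1
  have hd' := (hy_qd φ h k').2.1
  have h1 := hy_g_msrc φ k k' t ρ' {ρ : ℝ × ℝ | Λ * φ.q k ≤ |ρ'.1 - ρ.1 - t * ρ.2|}
    (fun x => ENNReal.ofReal (Real.exp (-(x ^ 2 / (8 * φ.d k' ^ 2)))))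
    (fun y => ENNReal.ofReal (Real.exp (-(Λ ^ 2 / (2 * 20)))) * ENNReal.ofReal (Real.exp (-(y ^ 2 / (2 * 20 * φ.q k ^ 2)))))
    (hy_g_gauss_meas _) ((hy_g_gauss_meas _).const_mul _)
    (fun ρ hρ => by
      rw [hy_g_split]
      exact mul_le_mul' le_rfl (hy_g_far hq (by norm_num) hΛ hρ))
  rw [lintegral_const_mul _ (hy_g_gauss_meas _), hy_g_gauss hd' (by norm_num), hy_g_gauss hq (by norm_num),
    ← ENNReal.ofReal_mul (Real.exp_pos _).le] at h1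
  refine h1.trans ((hy_g_fin_far' φ h k k' 8 (2 * 20) _ (by norm_num) (by norm_num) (Real.exp_pos _).le (by norm_num)).trans (le_of_eq ?_))
  norm_num

/-- **(G6)** -/
theorem hy_kb_tgt_farD (φ : HyF) (h : φ.Ok) (k k' : ℕ) (t Λ : ℝ) (hΛ : 0 ≤ Λ) (ρ : ℝ × ℝ) :
    ∫⁻ ρ' in {ρ' : ℝ × ℝ | Λ * φ.q k ≤ |ρ'.1 - ρ.1 - t * ρ.2|}, ENNReal.ofReal (φ.kb k k' t ρ' ρ) ∂φ.nu
      ≤ ENNReal.ofReal (26 * Real.exp (-(Λ ^ 2 / 40)) * Real.sqrt (φ.q k / φ.q k')) := by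
  have hq := (hy_qd φ h k).1
  have hd' := (hy_qd φ h k').2.1
  have h1 := hy_g_mtgt φ k k' t ρ {ρ' : ℝ × ℝ | Λ * φ.q k ≤ |ρ'.1 - ρ.1 - t * ρ.2|}
    (fun x => ENNReal.ofReal (Real.exp (-(x ^ 2 / (8 * φ.d k' ^ 2)))))
    (fun y => ENNReal.ofReal (Real.exp (-(Λ ^ 2 / (2 * 20)))) * ENNReal.ofReal (Real.exp (-(y ^ 2 / (2 * 20 * φ.q k ^ 2)))))
    (hy_g_gauss_meas _) ((hy_g_gauss_meas _).const_mul _)
    (fun ρ' hρ' => by
      have hρ2 : Λ * φ.q k ≤ |ρ'.1 - (ρ.1 + t * ρ.2)| := by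
        rw [← sub_sub]
        exact hρ'
      rw [hy_g_split, sub_sub]
      exact mul_le_mul' le_rfl (hy_g_far hq (by norm_num) hΛ hρ2))
  rw [lintegral_const_mul _ (hy_g_gauss_meas _), hy_g_gauss hd' (by norm_num), hy_g_gauss hq (by norm_num),
    ← ENNReal.ofReal_mul (Real.exp_pos _).le] at h1
  refine h1.trans ((hy_g_fin_far' φ h k k' 8 (2 * 20) _ (by norm_num) (by norm_num) (Real.exp_pos _).le (by norm_num)).trans (le_of_eq ?_))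
  norm_num

/-- **(G7)** sources in a velocity window (the velocity Gaussian is bounded by `1`): THE AMPLITUDE GAIN `sqrt(q'/q)` -/
theorem hy_kb_src_win (φ : HyF) (h : φ.Ok) (k k' : ℕ) (t θ W : ℝ) (hW : 0 ≤ W) (ρ' : ℝ × ℝ) :
    ∫⁻ ρ in {ρ : ℝ × ℝ | |ρ.2 - θ| ≤ W}, ENNReal.ofReal (φ.kb k k' t ρ' ρ) ∂φ.nu
      ≤ ENNReal.ofReal (36 / 5 * Real.sqrt (φ.q k' / φ.q k) * (W / φ.d k)) := by
  obtain ⟨hq, hd, hqd, -, -, -⟩ := hy_qd φ h k
  have hH := h.H_pos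
  have hpi := Real.pi_pos
  have h1 := hy_g_msrc φ k k' t ρ' {ρ : ℝ × ℝ | |ρ.2 - θ| ≤ W} (Set.indicator {x : ℝ | |x - (θ - ρ'.2)| ≤ W} (fun _ => (1 : ℝ≥0∞)))
    (fun y => ENNReal.ofReal (Real.exp (-(y ^ 2 / (20 * φ.q k ^ 2))))) (hy_g_win_meas _ _) (hy_g_gauss_meas _) (fun ρ hρ => by
      have hmem : ρ.2 - ρ'.2 ∈ {x : ℝ | |x - (θ - ρ'.2)| ≤ W} := by
        have e : ρ.2 - ρ'.2 - (θ - ρ'.2) = ρ.2 - θ := by ring
        rw [Set.mem_ofPred_eq, e]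
        exact hρ
      rw [hy_g_split, Set.indicator_of_mem hmem]
      exact mul_le_mul' (hy_g_exp_le_one (by positivity)) le_rfl)
  rw [hy_g_win, hy_g_gauss hq (by norm_num)] at h1
  refine h1.trans (hy_g_fin (hy_g_c_nonneg φ h) (by positivity) (by positivity) ?_)
  have hX := hy_g_num2 (σ := φ.sg) (m := 20) (C := 36 / 5) h.sg_hi (by norm_num) (by norm_num) (by norm_num)
  have hqH : φ.q k = φ.H / φ.d k := by
    rw [eq_div_iff hd.ne']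
    exact hqd
  have e : φ.sg / (2 * Real.pi * φ.H) * (Real.sqrt 2 * Real.sqrt (φ.q k' / φ.q k) * (2 * W * (φ.q k * Real.sqrt (20 * Real.pi))))
      = φ.sg / (2 * Real.pi) * (Real.sqrt 2 * (2 * Real.sqrt (20 * Real.pi))) * (Real.sqrt (φ.q k' / φ.q k) * (W * (φ.q k / φ.H))) := by
    field_simp
  have e2 : φ.q k / φ.H = 1 / φ.d k := by
    rw [div_eq_div_iff hH.ne' hd.ne', one_mul]
    exact hqd
  rw [e, e2]
  calc φ.sg / (2 * Real.pi) * (Real.sqrt 2 * (2 * Real.sqrt (20 * Real.pi))) * (Real.sqrt (φ.q k' / φ.q k) * (W * (1 / φ.d k)))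
      ≤ 36 / 5 * (Real.sqrt (φ.q k' / φ.q k) * (W * (1 / φ.d k))) := mul_le_mul_of_nonneg_right hX (by positivity)
    _ = 36 / 5 * Real.sqrt (φ.q k' / φ.q k) * (W / φ.d k) := by ring

/-- **(G8)** targets in a position bin (the position Gaussian is bounded by `1`) -/
theorem hy_kb_tgt_bin (φ : HyF) (h : φ.Ok) (k k' : ℕ) (t x R : ℝ) (hR : 0 ≤ R) (ρ : ℝ × ℝ) :
    ∫⁻ ρ' in {ρ' : ℝ × ℝ | |ρ'.1 - x| ≤ R}, ENNReal.ofReal (φ.kb k k' t ρ' ρ) ∂φ.nu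
      ≤ ENNReal.ofReal (23 / 5 * Real.sqrt (φ.q k' / φ.q k) * (R / φ.q k')) := by
  have h1 := hy_g_bin φ h k k' t x R hR ρ 1 zero_le_one (fun ρ' _ => Real.exp_le_one_iff.2 (by
    have : 0 ≤ (ρ'.1 - ρ.1 - t * ρ.2) ^ 2 / (20 * φ.q k ^ 2) := by positivity
    linarith))
  rwa [mul_one] at h1

/-- **(G9)** the same when the source does not flow into the bin -/
theorem hy_kb_tgt_bin_far (φ : HyF) (h : φ.Ok) (k k' : ℕ) (t x R Λ : ℝ) (hR : 0 ≤ R) (hΛ : 0 ≤ Λ) (ρ : ℝ × ℝ)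
    (hfar : R + Λ * φ.q k ≤ |ρ.1 + t * ρ.2 - x|) :
    ∫⁻ ρ' in {ρ' : ℝ × ℝ | |ρ'.1 - x| ≤ R}, ENNReal.ofReal (φ.kb k k' t ρ' ρ) ∂φ.nu
      ≤ ENNReal.ofReal (23 / 5 * Real.exp (-(Λ ^ 2 / 20)) * Real.sqrt (φ.q k' / φ.q k) * (R / φ.q k')) := by
  have hq := (hy_qd φ h k).1
  refine hy_g_bin φ h k k' t x R hR ρ _ (Real.exp_pos _).le (fun ρ' hρ' => Real.exp_le_exp.2 ?_)
  have h1 : Λ * φ.q k ≤ |ρ'.1 - ρ.1 - t * ρ.2| := by
    have h2 : |ρ.1 + t * ρ.2 - x| ≤ |ρ'.1 - ρ.1 - t * ρ.2| + |ρ'.1 - x| := by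
      have e : ρ.1 + t * ρ.2 - x = -(ρ'.1 - ρ.1 - t * ρ.2) + (ρ'.1 - x) := by ring
      rw [e]
      exact (abs_add_le _ _).trans (by rw [abs_neg])
    linarith
  have h3 : (Λ * φ.q k) ^ 2 ≤ (ρ'.1 - ρ.1 - t * ρ.2) ^ 2 := by
    rw [← sq_abs (ρ'.1 - ρ.1 - t * ρ.2)]
    exact pow_le_pow_left₀ (by positivity) h1 2
  have h4 : Λ ^ 2 / 20 ≤ (ρ'.1 - ρ.1 - t * ρ.2) ^ 2 / (20 * φ.q k ^ 2) := by
    rw [div_le_div_iff₀ (by norm_num) (by positivity)]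
    nlinarith
  linarith

/-- source rows, the centre of the position Gaussian depends on the velocity -/
theorem hy_g_src2 (f g : ℝ → ℝ≥0∞) (hf : Measurable f) (hg : Measurable g) (N' : ℝ) (s : ℝ → ℝ) (hs : Measurable s) :
    ∫⁻ ρ : ℝ × ℝ, f (ρ.2 - N') * g (s ρ.2 - ρ.1) = (∫⁻ x, f x) * ∫⁻ y, g y := by
  have hm : Measurable fun ρ : ℝ × ℝ => f (ρ.2 - N') * g (s ρ.2 - ρ.1) :=
    (hf.comp (measurable_snd.sub_const _)).mul (hg.comp ((hs.comp measurable_snd).sub measurable_fst))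
  rw [Measure.volume_eq_prod, lintegral_prod_symm _ hm.aemeasurable]
  have h1 : ∀ N : ℝ, ∫⁻ D : ℝ, f (N - N') * g (s N - D) = f (N - N') * ∫⁻ y, g y := by
    intro N
    rw [lintegral_const_mul _ (show Measurable fun D : ℝ => g (s N - D) from hg.comp (measurable_id.const_sub _))]
    congr 1
    exact lintegral_sub_left_eq_self g (s N)
  simp_rw [h1]
  rw [lintegral_mul_const _ (show Measurable fun N : ℝ => f (N - N') from hf.comp (measurable_id.sub_const _))]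
  congr 1
  exact lintegral_sub_right_eq_self f N'

/-- target rows, the centre of the position Gaussian depends on the velocity -/
theorem hy_g_tgt2 (f g : ℝ → ℝ≥0∞) (hf : Measurable f) (hg : Measurable g) (N : ℝ) (s : ℝ → ℝ) (hs : Measurable s) :
    ∫⁻ ρ' : ℝ × ℝ, f (N - ρ'.2) * g (ρ'.1 - s ρ'.2) = (∫⁻ x, f x) * ∫⁻ y, g y := by
  have hm : Measurable fun ρ' : ℝ × ℝ => f (N - ρ'.2) * g (ρ'.1 - s ρ'.2) :=
    (hf.comp (measurable_snd.const_sub _)).mul (hg.comp (measurable_fst.sub (hs.comp measurable_snd)))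
  rw [Measure.volume_eq_prod, lintegral_prod_symm _ hm.aemeasurable]
  have h1 : ∀ N' : ℝ, ∫⁻ D' : ℝ, f (N - N') * g (D' - s N') = f (N - N') * ∫⁻ y, g y := by
    intro N'
    rw [lintegral_const_mul _ (show Measurable fun D' : ℝ => g (D' - s N') from hg.comp (measurable_id.sub_const _))]
    congr 1
    exact lintegral_sub_right_eq_self g (s N')
  simp_rw [h1]
  rw [lintegral_mul_const _ (show Measurable fun N' : ℝ => f (N - N') from hf.comp (measurable_id.const_sub _))]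
  congr 1
  exact lintegral_sub_left_eq_self f N

theorem hy_g_gauss0 {b : ℝ} (hb : 0 < b) :
    ∫⁻ x : ℝ, ENNReal.ofReal (Real.exp (-b * x ^ 2)) = ENNReal.ofReal (Real.sqrt (Real.pi / b)) := by
  rw [← ofReal_integral_eq_lintegral_ofReal (integrable_exp_neg_mul_sq hb) (Filter.Eventually.of_forall fun x => (Real.exp_pos _).le),
    integral_gaussian]

theorem hy_g_gauss0_meas (b : ℝ) : Measurable fun x : ℝ => ENNReal.ofReal (Real.exp (-b * x ^ 2)) :=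
  ENNReal.measurable_ofReal.comp (Real.measurable_exp.comp ((measurable_id.pow_const 2).const_mul _))

/-- **(G10)** ANY two frames: the kernel has finite Schur sums (from `hy_kr_abs`: integrate first in the position variable, then in the velocity variable; the value does not depend on the frozen row) -/
theorem hy_kr_schur_fin (φ : HyF) (h : φ.Ok) (T : ℝ) (k : ℕ) (T' : ℝ) (k' : ℕ) :
    ∃ C : ℝ, (∀ ρ', ∫⁻ ρ, ‖φ.kr T k T' k' ρ' ρ‖ₑ ∂φ.nu ≤ ENNReal.ofReal C) ∧ ∀ ρ, ∫⁻ ρ', ‖φ.kr T k T' k' ρ' ρ‖ₑ ∂φ.nu ≤ ENNReal.ofReal C := by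
  have hq := (hy_qd φ h k).1
  have hq' := (hy_qd φ h k').1
  have hH := h.H_pos
  have hσ : 0 < φ.sg := by linarith [h.sg_lo]
  have haa : 0 < φ.aa k k' := by
    unfold HyF.aa
    positivity
  obtain ⟨A, hA⟩ : ∃ A : ℝ, A = Real.sqrt (φ.q k * φ.q k') * (φ.aa k k' ^ 2 + φ.bb (T' - T) ^ 2) ^ (-(1 / 4) : ℝ) := ⟨_, rfl⟩
  obtain ⟨α, hα⟩ : ∃ α : ℝ, α = φ.q k ^ 2 * φ.q k' ^ 2 * φ.sg ^ 2 / (2 * (φ.q k ^ 2 + φ.q k' ^ 2) * φ.H ^ 2) := ⟨_, rfl⟩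
  obtain ⟨β, hβ⟩ : ∃ β : ℝ, β = φ.aa k k' / (4 * (φ.aa k k' ^ 2 + φ.bb (T' - T) ^ 2)) := ⟨_, rfl⟩
  have hA0 : 0 ≤ A := by rw [hA]; positivity
  have hα0 : 0 < α := by rw [hα]; positivity
  have hβ0 : 0 < β := by rw [hβ]; positivity
  have hkr : ∀ ρ' ρ : ℝ × ℝ, ‖φ.kr T k T' k' ρ' ρ‖ₑ = ENNReal.ofReal A * (ENNReal.ofReal (Real.exp (-α * (ρ.2 - ρ'.2) ^ 2)) *
      ENNReal.ofReal (Real.exp (-β * (ρ'.1 - ρ.1 - (T' - T) * φ.nc k k' ρ.2 ρ'.2) ^ 2))) := by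
    intro ρ' ρ
    rw [← ofReal_norm, hy_kr_abs φ h, ← hA, ENNReal.ofReal_mul hA0, ← ENNReal.ofReal_mul (Real.exp_pos _).le, ← Real.exp_add]
    congr 3
    rw [hα, hβ]
    ring
  have hc := hy_g_c_nonneg φ h
  have hfin : ENNReal.ofReal (φ.sg / (2 * Real.pi * φ.H)) * (ENNReal.ofReal A *
      (ENNReal.ofReal (Real.sqrt (Real.pi / α)) * ENNReal.ofReal (Real.sqrt (Real.pi / β))))
      ≤ ENNReal.ofReal (φ.sg / (2 * Real.pi * φ.H) * (A * (Real.sqrt (Real.pi / α) * Real.sqrt (Real.pi / β)))) :=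
    hy_g_fin hc hA0 (Real.sqrt_nonneg _) le_rfl
  refine ⟨φ.sg / (2 * Real.pi * φ.H) * (A * (Real.sqrt (Real.pi / α) * Real.sqrt (Real.pi / β))), fun ρ' => ?_, fun ρ => ?_⟩
  · refine le_trans (le_of_eq ?_) hfin
    simp_rw [hkr]
    unfold HyF.nu
    rw [lintegral_smul_measure, smul_eq_mul, lintegral_const_mul' _ _ ENNReal.ofReal_ne_top]
    congr 2
    have hs : Measurable fun N : ℝ => ρ'.1 - (T' - T) * φ.nc k k' N ρ'.2 := by
      unfold HyF.nc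
      exact ((((measurable_id.const_mul _).add_const _).div_const _).const_mul _).const_sub _
    have h1 := hy_g_src2 (fun x => ENNReal.ofReal (Real.exp (-α * x ^ 2))) (fun y => ENNReal.ofReal (Real.exp (-β * y ^ 2)))
      (hy_g_gauss0_meas α) (hy_g_gauss0_meas β) ρ'.2 _ hs
    rw [hy_g_gauss0 hα0, hy_g_gauss0 hβ0] at h1
    rw [← h1]
    refine lintegral_congr fun ρ => ?_
    have e : ρ'.1 - ρ.1 - (T' - T) * φ.nc k k' ρ.2 ρ'.2 = ρ'.1 - (T' - T) * φ.nc k k' ρ.2 ρ'.2 - ρ.1 := by ring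
    simp only [e]
  · refine le_trans (le_of_eq ?_) hfin
    simp_rw [hkr]
    unfold HyF.nu
    rw [lintegral_smul_measure, smul_eq_mul, lintegral_const_mul' _ _ ENNReal.ofReal_ne_top]
    congr 2
    have hs : Measurable fun N' : ℝ => ρ.1 + (T' - T) * φ.nc k k' ρ.2 N' := by
      unfold HyF.nc
      exact ((((measurable_id.const_mul _).const_add _).div_const _).const_mul _).const_add _
    have h1 := hy_g_tgt2 (fun x => ENNReal.ofReal (Real.exp (-α * x ^ 2))) (fun y => ENNReal.ofReal (Real.exp (-β * y ^ 2)))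
      (hy_g_gauss0_meas α) (hy_g_gauss0_meas β) ρ.2 _ hs
    rw [hy_g_gauss0 hα0, hy_g_gauss0 hβ0] at h1
    rw [← h1]
    refine lintegral_congr fun ρ' => ?_
    have e : ρ'.1 - ρ.1 - (T' - T) * φ.nc k k' ρ.2 ρ'.2 = ρ'.1 - (ρ.1 + (T' - T) * φ.nc k k' ρ.2 ρ'.2) := by ring
    simp only [e]

end Claimed.Agent.R256
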