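import Claimed.Agent.R256.Hyb.Iso
import Claimed.Agent.R256.Hyb.Gau
import Claimed.Agent.R256.Gen.Hyp

/-!
# Row 256, unit HYB, file 6: FROM THE FIBRES TO THE SYSTEM `ChyPar.sys`      (chief helper82; prefix `hy_`)

* (I0) `hy_rw_lint`     `∫⁻ F d rw = ∫⁻_ω ∫⁻ F(ω,·) dν_ω dm`
* (I1) `hy_an_row`, `hy_an_norm`    `an = row` a.e., isometry
* (I2) `hy_an_adj`      `an' ∘ an† F = tr F` fibre by fibre
* (I3) `hy_run_rows`    the rows of a branch of an experiment = the explicit iterated integrals `HyF.br`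
* (I4) `hy_ms_lint`, `hy_en_lint`    masses as `lintegral`s of explicit functions
* (I5) `hy_an_ind`      the operators commute with functions of the exact index
* (I6) `hy_mult`        functoriality in the multiplicity space
-/

set_option autoImplicit false

namespace Claimed.Agent.R256

open MeasureTheory
open scoped ENNReal ComplexConjugate

theorem hy_rw_dens_meas (p : ChyPar) (h : p.Ok) : Measurable fun x : p.Om × ℝ × ℝ => ENNReal.ofReal (p.sg x.1 / (2 * Real.pi * p.H)) :=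
  ((h.mS.comp measurable_fst).div_const _).ennreal_ofReal

/-- **(I0)** Tonelli for the row measure.  `lintegral_withDensity_eq_lintegral_mul`, `lintegral_prod`.  ~80 l. -/
theorem hy_rw_lint (p : ChyPar) (h : p.Ok) (F : p.Om × ℝ × ℝ → ℝ≥0∞) (hF : Measurable F) :
    ∫⁻ x, F x ∂p.rw = ∫⁻ ω, ∫⁻ ρ, F (ω, ρ) ∂(p.fib ω).nu ∂p.m := by
  unfold ChyPar.rw
  rw [lintegral_withDensity_eq_lintegral_mul _ (hy_rw_dens_meas p h) hF, lintegral_prod _ ((hy_rw_dens_meas p h).mul hF).aemeasurable]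
  refine lintegral_congr fun ω => ?_
  unfold HyF.nu
  rw [lintegral_smul_measure, smul_eq_mul]
  have hm : Measurable fun ρ : ℝ × ℝ => F (ω, ρ) := hF.comp measurable_prodMk_left
  rw [← lintegral_const_mul _ hm]
  rfl

theorem hy_rw_sfin (p : ChyPar) (h : p.Ok) : SigmaFinite p.rw := by
  have := h.sf
  unfold ChyPar.rw
  exact SigmaFinite.withDensity_ofReal _

/-- joint measurability of the packet -/
theorem hy_pk_meas (p : ChyPar) (h : p.Ok) (T : ℝ) (k : ℕ) : Measurable fun z : (p.Om × ℝ × ℝ) × ℝ => p.pk T k z.1 z.2 := by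
  unfold ChyPar.pk
  have hs : Measurable fun z : (p.Om × ℝ × ℝ) × ℝ => p.sg z.1.1 := h.mS.comp (measurable_fst.comp measurable_fst)
  fun_prop

/-- joint measurability of the rows of a state -/
theorem hy_row_smeas (p : ChyPar) (h : p.Ok) (T : ℝ) (k : ℕ) (G : Lp p.Fb 2 (p.m.prod (volume : Measure ℝ))) : StronglyMeasurable (p.row T k G) := by
  unfold ChyPar.row
  have h1 : StronglyMeasurable fun z : (p.Om × ℝ × ℝ) × ℝ => p.pk T k z.1 z.2 • (G : p.Om × ℝ → p.Fb) (z.1.1, z.2) :=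
    (hy_pk_meas p h T k).stronglyMeasurable.smul ((Lp.stronglyMeasurable G).comp_measurable (by fun_prop))
  exact h1.integral_prod_right

/-- almost every fibre of a state is square integrable -/
theorem hy_fib_memLp (p : ChyPar) (G : Lp p.Fb 2 (p.m.prod (volume : Measure ℝ))) :
    ∀ᵐ ω ∂p.m, MemLp (fun u => (G : p.Om × ℝ → p.Fb) (ω, u)) 2 volume := by
  have hm : Measurable fun y : p.Om × ℝ => ‖(G : p.Om × ℝ → p.Fb) y‖ₑ ^ 2 := (Lp.stronglyMeasurable G).enorm.pow_const 2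
  have hfin : ∫⁻ y, ‖(G : p.Om × ℝ → p.Fb) y‖ₑ ^ 2 ∂(p.m.prod (volume : Measure ℝ)) ≠ ⊤ := hy_lint_of_memLp _ _ (Lp.memLp G)
  rw [lintegral_prod _ hm.aemeasurable] at hfin
  filter_upwards [ae_lt_top hm.lintegral_prod_right' hfin] with ω hω
  exact hy_memLp_two _ _ ((Lp.stronglyMeasurable G).comp_measurable measurable_prodMk_left).aestronglyMeasurable hω.ne

/-- a property of almost every exact index holds for almost every row -/
theorem hy_ae_fst (p : ChyPar) {P : p.Om → Prop} (hP : ∀ᵐ ω ∂p.m, P ω) : ∀ᵐ x ∂p.rw, P x.1 := by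
  have h1 : ∀ᵐ x ∂(p.m.prod (volume : Measure (ℝ × ℝ))), P x.1 := Measure.quasiMeasurePreserving_fst.ae hP
  exact (withDensity_absolutelyContinuous _ _).ae_le h1

/-- the rows of a state, fibre by fibre -/
theorem hy_row_fib (p : ChyPar) (T : ℝ) (k : ℕ) (G : Lp p.Fb 2 (p.m.prod (volume : Measure ℝ))) (x : p.Om × ℝ × ℝ) :
    p.row T k G x = (p.fib x.1).row T k (fun u => (G : p.Om × ℝ → p.Fb) (x.1, u)) x.2 := rfl

/-- the isometry over every set of exact indices, for the formula -/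
theorem hy_row_ind (p : ChyPar) (h : p.Ok) (T : ℝ) (k : ℕ) (S : Set p.Om) (hS : MeasurableSet S) (G : Lp p.Fb 2 (p.m.prod (volume : Measure ℝ))) :
    ∫⁻ x in {x : p.Om × ℝ × ℝ | x.1 ∈ S}, ‖p.row T k G x‖ₑ ^ 2 ∂p.rw
      = ∫⁻ y in {y : p.Om × ℝ | y.1 ∈ S}, ‖(G : p.Om × ℝ → p.Fb) y‖ₑ ^ 2 ∂(p.m.prod (volume : Measure ℝ)) := by
  have hm : Measurable fun y : p.Om × ℝ => ‖(G : p.Om × ℝ → p.Fb) y‖ₑ ^ 2 := (Lp.stronglyMeasurable G).enorm.pow_const 2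
  have hr : Measurable fun x : p.Om × ℝ × ℝ => ‖p.row T k G x‖ₑ ^ 2 := (hy_row_smeas p h T k G).enorm.pow_const 2
  have s1 : MeasurableSet {x : p.Om × ℝ × ℝ | x.1 ∈ S} := measurable_fst hS
  have s2 : MeasurableSet {y : p.Om × ℝ | y.1 ∈ S} := measurable_fst hS
  rw [← lintegral_indicator s1, ← lintegral_indicator s2, hy_rw_lint p h _ (hr.indicator s1), lintegral_prod _ (hm.indicator s2).aemeasurable]
  refine lintegral_congr_ae ?_
  filter_upwards [hy_fib_memLp p G] with ω hω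
  by_cases hωS : ω ∈ S
  · have e1 : ∀ ρ : ℝ × ℝ, ({x : p.Om × ℝ × ℝ | x.1 ∈ S}.indicator (fun x => ‖p.row T k G x‖ₑ ^ 2)) (ω, ρ)
        = ‖(p.fib ω).row T k (fun u => (G : p.Om × ℝ → p.Fb) (ω, u)) ρ‖ₑ ^ 2 := fun ρ => by
      rw [Set.indicator_of_mem (show (ω, ρ) ∈ {x : p.Om × ℝ × ℝ | x.1 ∈ S} from hωS), hy_row_fib]
    have e2 : ∀ u : ℝ, ({y : p.Om × ℝ | y.1 ∈ S}.indicator (fun y => ‖(G : p.Om × ℝ → p.Fb) y‖ₑ ^ 2)) (ω, u) = ‖(G : p.Om × ℝ → p.Fb) (ω, u)‖ₑ ^ 2 := fun u =>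
      Set.indicator_of_mem (show (ω, u) ∈ {y : p.Om × ℝ | y.1 ∈ S} from hωS) _
    simp only [e1, e2]
    exact hy_row_iso (p.fib ω) (hy_fib_ok p h ω) T k _ hω
  · have e1 : ∀ ρ : ℝ × ℝ, ({x : p.Om × ℝ × ℝ | x.1 ∈ S}.indicator (fun x => ‖p.row T k G x‖ₑ ^ 2)) (ω, ρ) = 0 := fun ρ =>
      Set.indicator_of_notMem (show (ω, ρ) ∉ {x : p.Om × ℝ × ℝ | x.1 ∈ S} from hωS) _
    have e2 : ∀ u : ℝ, ({y : p.Om × ℝ | y.1 ∈ S}.indicator (fun y => ‖(G : p.Om × ℝ → p.Fb) y‖ₑ ^ 2)) (ω, u) = 0 := fun u =>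
      Set.indicator_of_notMem (show (ω, u) ∉ {y : p.Om × ℝ | y.1 ∈ S} from hωS) _
    simp only [e1, e2, lintegral_zero]

/-- the isometry, for the formula -/
theorem hy_row_lint (p : ChyPar) (h : p.Ok) (T : ℝ) (k : ℕ) (G : Lp p.Fb 2 (p.m.prod (volume : Measure ℝ))) :
    ∫⁻ x, ‖p.row T k G x‖ₑ ^ 2 ∂p.rw = ∫⁻ y, ‖(G : p.Om × ℝ → p.Fb) y‖ₑ ^ 2 ∂(p.m.prod (volume : Measure ℝ)) := by
  have := hy_row_ind p h T k Set.univ MeasurableSet.univ G
  simpa using this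

theorem hy_row_mem (p : ChyPar) (h : p.Ok) (T : ℝ) (k : ℕ) (G : Lp p.Fb 2 (p.m.prod (volume : Measure ℝ))) : MemLp (p.row T k G) 2 p.rw := by
  refine hy_memLp_two _ _ (hy_row_smeas p h T k G).aestronglyMeasurable ?_
  rw [hy_row_lint p h]
  exact hy_lint_of_memLp _ _ (Lp.memLp G)

/-- additivity of the formula -/
theorem hy_row_add (p : ChyPar) (h : p.Ok) (T : ℝ) (k : ℕ) (G G' : Lp p.Fb 2 (p.m.prod (volume : Measure ℝ))) :
    p.row T k (G + G') =ᵐ[p.rw] fun x => p.row T k G x + p.row T k G' x := by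
  have h0 : ∀ᵐ ω ∂p.m, ∀ᵐ u ∂(volume : Measure ℝ), ((G + G' : Lp p.Fb 2 (p.m.prod (volume : Measure ℝ))) : p.Om × ℝ → p.Fb) (ω, u)
      = (G : p.Om × ℝ → p.Fb) (ω, u) + (G' : p.Om × ℝ → p.Fb) (ω, u) := Measure.ae_ae_of_ae_prod (Lp.coeFn_add G G')
  filter_upwards [hy_ae_fst p (h0.and ((hy_fib_memLp p G).and (hy_fib_memLp p G')))] with x hx
  obtain ⟨a, b, c⟩ := hx
  rw [hy_row_fib, hy_row_fib, hy_row_fib]
  have e := hy_row_lin (p.fib x.1) (hy_fib_ok p h x.1) T k _ _ b c 1 x.2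
  rw [one_smul] at e
  rw [← e]
  unfold HyF.row
  refine integral_congr_ae ?_
  filter_upwards [a] with u hu
  rw [hu, one_smul]

/-- homogeneity of the formula -/
theorem hy_row_smul (p : ChyPar) (T : ℝ) (k : ℕ) (c : ℂ) (G : Lp p.Fb 2 (p.m.prod (volume : Measure ℝ))) :
    p.row T k (c • G) =ᵐ[p.rw] fun x => c • p.row T k G x := by
  have h0 : ∀ᵐ ω ∂p.m, ∀ᵐ u ∂(volume : Measure ℝ), ((c • G : Lp p.Fb 2 (p.m.prod (volume : Measure ℝ))) : p.Om × ℝ → p.Fb) (ω, u)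
      = c • (G : p.Om × ℝ → p.Fb) (ω, u) := Measure.ae_ae_of_ae_prod (Lp.coeFn_smul c G)
  filter_upwards [hy_ae_fst p h0] with x hx
  unfold ChyPar.row
  rw [← integral_smul]
  refine integral_congr_ae ?_
  filter_upwards [hx] with u hu
  rw [hu, smul_comm]

/-- the `L²` seminorm -/
theorem hy_elp_two {X : Type*} [MeasurableSpace X] (μ : Measure X) {E : Type*} [NormedAddCommGroup E] (f : X → E) :
    eLpNorm f 2 μ = (∫⁻ x, ‖f x‖ₑ ^ 2 ∂μ) ^ (1 / 2 : ℝ) := by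
  rw [eLpNorm_eq_lintegral_rpow_enorm_toReal (by norm_num) (by norm_num)]
  simp only [ENNReal.toReal_ofNat, ENNReal.rpow_two]

/-- the formula defines a bounded operator -/
theorem hy_an_exists (p : ChyPar) (h : p.Ok) (T : ℝ) (k : ℕ) :
    ∃ L : Lp p.Fb 2 (p.m.prod (volume : Measure ℝ)) →L[ℂ] Lp p.Fb 2 p.rw, ∀ G, (L G : p.Om × ℝ × ℝ → p.Fb) =ᵐ[p.rw] p.row T k G := by
  let L0 : Lp p.Fb 2 (p.m.prod (volume : Measure ℝ)) →ₗ[ℂ] Lp p.Fb 2 p.rw :=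
    { toFun := fun G => (hy_row_mem p h T k G).toLp _
      map_add' := fun G G' => by
        rw [← MemLp.toLp_add]
        exact (MemLp.toLp_eq_toLp_iff _ _).2 (hy_row_add p h T k G G')
      map_smul' := fun c G => by
        rw [RingHom.id_apply, ← MemLp.toLp_const_smul]
        exact (MemLp.toLp_eq_toLp_iff _ _).2 (hy_row_smul p T k c G) }
  refine ⟨L0.mkContinuous 1 (fun G => ?_), fun G => (hy_row_mem p h T k G).coeFn_toLp⟩
  rw [one_mul]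
  show ‖(hy_row_mem p h T k G).toLp _‖ ≤ ‖G‖
  rw [Lp.norm_toLp, Lp.norm_def, hy_elp_two, hy_elp_two, hy_row_lint p h]

/-- **(I1)** the formula `row` defines a bounded operator: `an = row` a.e.
PLAN: for `G ∈ L²(m × du)` the fibre `G(ω,·)` is in `L²(du)` for a.e. `ω`; `row T k G (ω,ρ) = (fib ω).row T k (G(ω,·)) ρ`; joint measurability (`StronglyMeasurable.integral_prod_right`); `hy_row_iso` + `hy_rw_lint` + Tonelli:
`‖row G‖_{L²(rw)} = ‖G‖`; linearity a.e.; `LinearMap.mkContinuous`; then `ChyPar.an` unfolds to `h.choose`.  ~400 l. -/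
theorem hy_an_row (p : ChyPar) (h : p.Ok) (T : ℝ) (k : ℕ) (G : Lp p.Fb 2 (p.m.prod (volume : Measure ℝ))) :
    (p.an T k G : p.Om × ℝ × ℝ → p.Fb) =ᵐ[p.rw] p.row T k G := by
  unfold ChyPar.an
  rw [dif_pos (hy_an_exists p h T k)]
  exact (hy_an_exists p h T k).choose_spec G

theorem hy_an_norm (p : ChyPar) (h : p.Ok) (T : ℝ) (k : ℕ) (G : Lp p.Fb 2 (p.m.prod (volume : Measure ℝ))) : ‖p.an T k G‖ = ‖G‖ := by
  rw [Lp.norm_def, Lp.norm_def, eLpNorm_congr_ae (hy_an_row p h T k G), hy_elp_two, hy_elp_two, hy_row_lint p h]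

/-! ### (I2): helper lemmas (helper24) -/

/-- Cauchy-Schwarz, `L² × L²` form -/
theorem hy_adj_cs {X : Type*} [MeasurableSpace X] (μ : Measure X) {E : Type*} [NormedAddCommGroup E] [NormedSpace ℂ E]
    (K : X → ℂ) (hK : AEMeasurable K μ) (f : X → E) (hf : AEStronglyMeasurable f μ) :
    ‖∫ x, K x • f x ∂μ‖ₑ ^ 2 ≤ (∫⁻ x, ‖K x‖ₑ ^ 2 ∂μ) * ∫⁻ x, ‖f x‖ₑ ^ 2 ∂μ := by
  have h1 : ‖∫ x, K x • f x ∂μ‖ₑ ≤ ∫⁻ x, ‖K x‖ₑ * ‖f x‖ₑ ∂μ :=
    (enorm_integral_le_lintegral_enorm _).trans (le_of_eq (lintegral_congr fun x => enorm_smul _ _))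
  calc ‖∫ x, K x • f x ∂μ‖ₑ ^ 2 ≤ (∫⁻ x, ‖K x‖ₑ * ‖f x‖ₑ ∂μ) ^ 2 := by gcongr
    _ ≤ _ := hy_lcs μ hK.enorm hf.enorm

/-- the pairing of two `L²` functions is integrable -/
theorem hy_adj_inner_int {X : Type*} [MeasurableSpace X] (μ : Measure X) {E : Type*} [NormedAddCommGroup E] [InnerProductSpace ℂ E]
    (u w : X → E) (hu : MemLp u 2 μ) (hw : MemLp w 2 μ) : Integrable (fun x => inner ℂ (u x) (w x)) μ := by
  refine (L2.integrable_inner (𝕜 := ℂ) (hu.toLp u) (hw.toLp w)).congr ?_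
  filter_upwards [hu.coeFn_toLp, hw.coeFn_toLp] with x h1 h2
  rw [h1, h2]

/-- joint measurability of the packet -/
theorem hy_adj_pk_meas (p : ChyPar) (h : p.Ok) (T : ℝ) (k : ℕ) : Measurable fun z : (p.Om × ℝ × ℝ) × ℝ => p.pk T k z.1 z.2 := by
  have := h.mS
  unfold ChyPar.pk
  fun_prop

/-- joint measurability of the kernel -/
theorem hy_adj_kr_meas (p : ChyPar) (h : p.Ok) (T : ℝ) (k : ℕ) (T' : ℝ) (k' : ℕ) :
    Measurable fun z : (p.Om × ℝ × ℝ) × ℝ × ℝ => (p.fib z.1.1).kr T k T' k' z.1.2 z.2 := by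
  have h1 : Measurable fun w : ((p.Om × ℝ × ℝ) × ℝ × ℝ) × ℝ => p.pk T' k' (w.1.1.1, w.1.1.2) w.2 :=
    (hy_adj_pk_meas p h T' k').comp
      (f := fun w : ((p.Om × ℝ × ℝ) × ℝ × ℝ) × ℝ => (((w.1.1.1, w.1.1.2), w.2) : (p.Om × ℝ × ℝ) × ℝ)) (by fun_prop)
  have h2 : Measurable fun w : ((p.Om × ℝ × ℝ) × ℝ × ℝ) × ℝ => p.pk T k (w.1.1.1, w.1.2) w.2 :=
    (hy_adj_pk_meas p h T k).comp
      (f := fun w : ((p.Om × ℝ × ℝ) × ℝ × ℝ) × ℝ => (((w.1.1.1, w.1.2), w.2) : (p.Om × ℝ × ℝ) × ℝ)) (by fun_prop)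
  have h3 : StronglyMeasurable fun w : ((p.Om × ℝ × ℝ) × ℝ × ℝ) × ℝ =>
      p.pk T' k' (w.1.1.1, w.1.1.2) w.2 * conj (p.pk T k (w.1.1.1, w.1.2) w.2) :=
    (h1.mul (Complex.continuous_conj.measurable.comp h2)).stronglyMeasurable
  exact (StronglyMeasurable.integral_prod_right' (ν := (volume : Measure ℝ)) h3).measurable

/-- joint measurability of the rows of a state -/
theorem hy_adj_row_sm (p : ChyPar) (h : p.Ok) (T : ℝ) (k : ℕ) (G : Lp p.Fb 2 (p.m.prod (volume : Measure ℝ))) :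
    StronglyMeasurable (p.row T k G) := by
  have h1 : StronglyMeasurable fun z : (p.Om × ℝ × ℝ) × ℝ => p.pk T k z.1 z.2 • (G : p.Om × ℝ → p.Fb) (z.1.1, z.2) :=
    (hy_adj_pk_meas p h T k).stronglyMeasurable.smul
      ((Lp.stronglyMeasurable G).comp_measurable (g := fun z : (p.Om × ℝ × ℝ) × ℝ => ((z.1.1, z.2) : p.Om × ℝ)) (by fun_prop))
  exact StronglyMeasurable.integral_prod_right' (ν := (volume : Measure ℝ)) h1

/-- joint measurability of the fibrewise transfer -/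
theorem hy_adj_tr_sm (p : ChyPar) (h : p.Ok) (T : ℝ) (k : ℕ) (T' : ℝ) (k' : ℕ) (f : p.Om × ℝ × ℝ → p.Fb) (hf : StronglyMeasurable f) :
    StronglyMeasurable fun x : p.Om × ℝ × ℝ => (p.fib x.1).tr T k T' k' (fun ρ => f (x.1, ρ)) x.2 := by
  have h1 : StronglyMeasurable fun z : (p.Om × ℝ × ℝ) × ℝ × ℝ => (p.fib z.1.1).kr T k T' k' z.1.2 z.2 • f (z.1.1, z.2) :=
    (hy_adj_kr_meas p h T k T' k').stronglyMeasurable.smul
      (hf.comp_measurable (g := fun z : (p.Om × ℝ × ℝ) × ℝ × ℝ => ((z.1.1, z.2) : p.Om × ℝ × ℝ)) (by fun_prop))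
  have h2 := StronglyMeasurable.integral_prod_right' (ν := (volume : Measure (ℝ × ℝ))) h1
  have h3 : StronglyMeasurable fun x : p.Om × ℝ × ℝ => (ENNReal.ofReal (p.sg x.1 / (2 * Real.pi * p.H))).toReal :=
    (hy_rw_dens_meas p h).ennreal_toReal.stronglyMeasurable
  have e : (fun x : p.Om × ℝ × ℝ => (p.fib x.1).tr T k T' k' (fun ρ => f (x.1, ρ)) x.2) = fun x : p.Om × ℝ × ℝ =>
      (ENNReal.ofReal (p.sg x.1 / (2 * Real.pi * p.H))).toReal • ∫ ρ, (p.fib x.1).kr T k T' k' x.2 ρ • f (x.1, ρ) := by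
    funext x
    unfold HyF.tr HyF.nu
    rw [integral_smul_measure]
    rfl
  rw [e]
  exact h3.smul h2

/-- Fubini for the row measure -/
theorem hy_adj_fub (p : ChyPar) (h : p.Ok) (f : p.Om × ℝ × ℝ → ℂ) (hf : Integrable f p.rw) :
    ∫ x, f x ∂p.rw = ∫ ω, ∫ ρ, f (ω, ρ) ∂(p.fib ω).nu ∂p.m := by
  have := h.sf
  have hfin : ∀ᵐ x ∂(p.m.prod (volume : Measure (ℝ × ℝ))), ENNReal.ofReal (p.sg x.1 / (2 * Real.pi * p.H)) < ∞ :=
    Filter.Eventually.of_forall fun x => ENNReal.ofReal_lt_top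
  have hi : Integrable (fun x : p.Om × ℝ × ℝ => (ENNReal.ofReal (p.sg x.1 / (2 * Real.pi * p.H))).toReal • f x)
      (p.m.prod (volume : Measure (ℝ × ℝ))) :=
    (integrable_withDensity_iff_integrable_smul' (hy_rw_dens_meas p h) hfin).1 hf
  unfold ChyPar.rw
  rw [integral_withDensity_eq_integral_toReal_smul (hy_rw_dens_meas p h) hfin, integral_prod _ hi]
  refine integral_congr_ae (Filter.Eventually.of_forall fun ω => ?_)
  unfold HyF.nu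
  simp only []
  rw [integral_smul_measure, integral_smul]
  rfl

/-- the total mass of a state, fibre by fibre -/
theorem hy_adj_G_lint (p : ChyPar) (h : p.Ok) (G : Lp p.Fb 2 (p.m.prod (volume : Measure ℝ))) :
    ∫⁻ ω, ∫⁻ u, ‖(G : p.Om × ℝ → p.Fb) (ω, u)‖ₑ ^ 2 ∂volume ∂p.m ≠ ∞ := by
  have := h.sf
  have h1 := hy_lint_of_memLp _ _ (Lp.memLp G)
  rwa [lintegral_prod _ ((Lp.stronglyMeasurable G).enorm.pow_const 2).aemeasurable] at h1

theorem hy_adj_F_lint (p : ChyPar) (h : p.Ok) (F : Lp p.Fb 2 p.rw) :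
    ∫⁻ ω, ∫⁻ ρ, ‖(F : p.Om × ℝ × ℝ → p.Fb) (ω, ρ)‖ₑ ^ 2 ∂(p.fib ω).nu ∂p.m ≠ ∞ := by
  have h1 := hy_lint_of_memLp _ _ (Lp.memLp F)
  rwa [hy_rw_lint p h _ ((Lp.stronglyMeasurable F).enorm.pow_const 2)] at h1

/-- almost every fibre of a state is a fibre state -/
theorem hy_adj_G_ae (p : ChyPar) (h : p.Ok) (G : Lp p.Fb 2 (p.m.prod (volume : Measure ℝ))) :
    ∀ᵐ ω ∂p.m, MemLp (fun u => (G : p.Om × ℝ → p.Fb) (ω, u)) 2 volume := by
  have := h.sf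
  have hm : Measurable fun ω => ∫⁻ u, ‖(G : p.Om × ℝ → p.Fb) (ω, u)‖ₑ ^ 2 :=
    ((Lp.stronglyMeasurable G).enorm.pow_const 2).lintegral_prod_right'
  filter_upwards [ae_lt_top hm (hy_adj_G_lint p h G)] with ω hω
  exact hy_memLp_two _ _ ((Lp.stronglyMeasurable G).comp_measurable measurable_prodMk_left).aestronglyMeasurable hω.ne

theorem hy_adj_F_ae (p : ChyPar) (h : p.Ok) (F : Lp p.Fb 2 p.rw) :
    ∀ᵐ ω ∂p.m, MemLp (fun ρ => (F : p.Om × ℝ × ℝ → p.Fb) (ω, ρ)) 2 (p.fib ω).nu := by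
  have := h.sf
  have hm0 : Measurable fun ω => ∫⁻ ρ, ‖(F : p.Om × ℝ × ℝ → p.Fb) (ω, ρ)‖ₑ ^ 2 :=
    ((Lp.stronglyMeasurable F).enorm.pow_const 2).lintegral_prod_right'
  have hm : Measurable fun ω => ∫⁻ ρ, ‖(F : p.Om × ℝ × ℝ → p.Fb) (ω, ρ)‖ₑ ^ 2 ∂(p.fib ω).nu := by
    unfold HyF.nu
    simp only [lintegral_smul_measure, smul_eq_mul]
    exact ((h.mS.div_const (2 * Real.pi * p.H)).ennreal_ofReal).mul hm0
  filter_upwards [ae_lt_top hm (hy_adj_F_lint p h F)] with ω hω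
  exact hy_memLp_two _ _ ((Lp.stronglyMeasurable F).comp_measurable measurable_prodMk_left).aestronglyMeasurable hω.ne

/-- packets are unit vectors -/
theorem hy_adj_pk_one (φ : HyF) (h : φ.Ok) (T : ℝ) (k : ℕ) (ρ : ℝ × ℝ) : ∫⁻ u, ‖φ.pk T k ρ u‖ₑ ^ 2 = 1 := by
  have h1 := hy_pk_memLp φ h T k ρ
  have h2 := hy_int_sq volume (φ.pk T k ρ) h1.1.1
  rw [h1.2.2] at h2
  exact (ENNReal.toReal_eq_one_iff _).1 h2.symm

/-- kernels are unit vectors -/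
theorem hy_adj_kr_one (φ : HyF) (h : φ.Ok) (T : ℝ) (k : ℕ) (T' : ℝ) (k' : ℕ) (ρ' : ℝ × ℝ) :
    ∫⁻ ρ, ‖φ.kr T k T' k' ρ' ρ‖ₑ ^ 2 ∂φ.nu = 1 := by
  have h1 := hy_row_iso φ h T k (fun u => conj (φ.pk T' k' ρ' u)) (hy_pk_conj_memLp φ h T' k' ρ')
  have e1 : ∀ ρ, ‖φ.kr T k T' k' ρ' ρ‖ₑ = ‖φ.row T k (fun u => conj (φ.pk T' k' ρ' u)) ρ‖ₑ := by
    intro ρ
    rw [hy_kr_row, ← ofReal_norm, ← ofReal_norm, RCLike.norm_conj]
  have e2 : ∀ u, ‖conj (φ.pk T' k' ρ' u)‖ₑ = ‖φ.pk T' k' ρ' u‖ₑ := by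
    intro u
    rw [← ofReal_norm, ← ofReal_norm, RCLike.norm_conj]
  simp only [e1, h1, e2]
  exact hy_adj_pk_one φ h T' k' ρ'

/-- the rows of a state at a fixed row index are square integrable in the exact index -/
theorem hy_adj_row_memLp (p : ChyPar) (h : p.Ok) (T : ℝ) (k : ℕ) (G : Lp p.Fb 2 (p.m.prod (volume : Measure ℝ))) (ρ : ℝ × ℝ) :
    MemLp (fun ω => p.row T k G (ω, ρ)) 2 p.m := by
  refine hy_memLp_two _ _ ((hy_adj_row_sm p h T k G).comp_measurable measurable_prodMk_right).aestronglyMeasurable ?_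
  refine ne_top_of_le_ne_top (hy_adj_G_lint p h G) (lintegral_mono fun ω => ?_)
  have h1 := hy_adj_cs volume ((p.fib ω).pk T k ρ) (hy_pk_memLp _ (hy_fib_ok p h ω) T k ρ).1.1.aemeasurable
    (fun u => (G : p.Om × ℝ → p.Fb) (ω, u)) ((Lp.stronglyMeasurable G).comp_measurable measurable_prodMk_left).aestronglyMeasurable
  rw [hy_adj_pk_one _ (hy_fib_ok p h ω), one_mul] at h1
  exact h1

theorem hy_adj_tr_memLp (p : ChyPar) (h : p.Ok) (T : ℝ) (k : ℕ) (T' : ℝ) (k' : ℕ) (F : Lp p.Fb 2 p.rw) (ρ' : ℝ × ℝ) :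
    MemLp (fun ω => (p.fib ω).tr T k T' k' (fun ρ => (F : p.Om × ℝ × ℝ → p.Fb) (ω, ρ)) ρ') 2 p.m := by
  refine hy_memLp_two _ _ ((hy_adj_tr_sm p h T k T' k' _ (Lp.stronglyMeasurable F)).comp_measurable
    (measurable_prodMk_right (y := ρ'))).aestronglyMeasurable ?_
  refine ne_top_of_le_ne_top (hy_adj_F_lint p h F) (lintegral_mono fun ω => ?_)
  have h1 := hy_adj_cs (p.fib ω).nu ((p.fib ω).kr T k T' k' ρ') (hy_kr_memLp _ (hy_fib_ok p h ω) T k T' k' ρ').1.1.aemeasurable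
    (fun ρ => (F : p.Om × ℝ × ℝ → p.Fb) (ω, ρ)) ((Lp.stronglyMeasurable F).comp_measurable measurable_prodMk_left).aestronglyMeasurable
  rw [hy_adj_kr_one _ (hy_fib_ok p h ω), one_mul] at h1
  exact h1

/-- the test state `conj pk'(ω,ρ')(u) • c(ω)` -/
theorem hy_adj_test_memLp (p : ChyPar) (h : p.Ok) (T' : ℝ) (k' : ℕ) (ρ' : ℝ × ℝ) (c : p.Om → p.Fb) (hcs : StronglyMeasurable c)
    (hc : MemLp c 2 p.m) : MemLp (fun z : p.Om × ℝ => conj (p.pk T' k' (z.1, ρ') z.2) • c z.1) 2 (p.m.prod (volume : Measure ℝ)) := by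
  have := h.sf
  have h1 : Measurable fun z : p.Om × ℝ => p.pk T' k' (z.1, ρ') z.2 :=
    (hy_adj_pk_meas p h T' k').comp (f := fun z : p.Om × ℝ => (((z.1, ρ'), z.2) : (p.Om × ℝ × ℝ) × ℝ)) (by fun_prop)
  have h2 : StronglyMeasurable fun z : p.Om × ℝ => conj (p.pk T' k' (z.1, ρ') z.2) • c z.1 :=
    (Complex.continuous_conj.measurable.comp h1).stronglyMeasurable.smul (hcs.comp_measurable measurable_fst)
  refine hy_memLp_two _ _ h2.aestronglyMeasurable ?_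
  rw [lintegral_prod _ (h2.enorm.pow_const 2).aemeasurable]
  have e : ∀ ω, ∫⁻ u, ‖conj (p.pk T' k' (ω, ρ') u) • c ω‖ₑ ^ 2 = ‖c ω‖ₑ ^ 2 := by
    intro ω
    have e2 : ∀ u, ‖conj (p.pk T' k' (ω, ρ') u) • c ω‖ₑ ^ 2 = ‖(p.fib ω).pk T' k' ρ' u‖ₑ ^ 2 * ‖c ω‖ₑ ^ 2 := by
      intro u
      rw [enorm_smul, mul_pow, ← ofReal_norm, RCLike.norm_conj, ofReal_norm]
      rfl
    simp only [e2]
    rw [lintegral_mul_const' _ _ (by simp), hy_adj_pk_one _ (hy_fib_ok p h ω), one_mul]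
  simp only [e]
  exact hy_lint_of_memLp _ _ hc

/-- pairing of a test state with a state -/
theorem hy_adj_pair_G (p : ChyPar) (h : p.Ok) (T' : ℝ) (k' : ℕ) (ρ' : ℝ × ℝ) (c : p.Om → p.Fb) (hcs : StronglyMeasurable c)
    (hc : MemLp c 2 p.m) (G : Lp p.Fb 2 (p.m.prod (volume : Measure ℝ))) :
    inner ℂ ((hy_adj_test_memLp p h T' k' ρ' c hcs hc).toLp _) G = ∫ ω, inner ℂ (c ω) (p.row T' k' G (ω, ρ')) ∂p.m := by
  have := h.sf
  have hΓ := hy_adj_test_memLp p h T' k' ρ' c hcs hc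
  rw [L2.inner_def]
  have e1 : ∫ z, inner ℂ ((hΓ.toLp _ : p.Om × ℝ → p.Fb) z) ((G : p.Om × ℝ → p.Fb) z) ∂(p.m.prod (volume : Measure ℝ))
      = ∫ z, inner ℂ (conj (p.pk T' k' (z.1, ρ') z.2) • c z.1) ((G : p.Om × ℝ → p.Fb) z) ∂(p.m.prod (volume : Measure ℝ)) := by
    refine integral_congr_ae ?_
    filter_upwards [hΓ.coeFn_toLp] with z hz
    rw [hz]
  rw [e1, integral_prod _ (hy_adj_inner_int _ _ _ hΓ (Lp.memLp G))]
  refine integral_congr_ae ?_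
  filter_upwards [hy_adj_G_ae p h G] with ω hω
  have hi := hy_row_int (p.fib ω) (hy_fib_ok p h ω) T' k' _ hω ρ'
  refine Eq.trans ?_ (integral_inner hi (c ω))
  refine integral_congr_ae (Filter.Eventually.of_forall fun u => ?_)
  show inner ℂ (conj (p.pk T' k' (ω, ρ') u) • c ω) ((G : p.Om × ℝ → p.Fb) (ω, u))
    = inner ℂ (c ω) (p.pk T' k' (ω, ρ') u • (G : p.Om × ℝ → p.Fb) (ω, u))
  rw [inner_smul_left, inner_smul_right, Complex.conj_conj]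

/-- the rows of a test state -/
theorem hy_adj_test_row (p : ChyPar) (h : p.Ok) (T : ℝ) (k : ℕ) (T' : ℝ) (k' : ℕ) (ρ' : ℝ × ℝ) (c : p.Om → p.Fb)
    (hcs : StronglyMeasurable c) (hc : MemLp c 2 p.m) :
    (p.an T k ((hy_adj_test_memLp p h T' k' ρ' c hcs hc).toLp _) : p.Om × ℝ × ℝ → p.Fb) =ᵐ[p.rw]
      fun x => conj ((p.fib x.1).kr T k T' k' ρ' x.2) • c x.1 := by
  have := h.sf
  have hΓ := hy_adj_test_memLp p h T' k' ρ' c hcs hc
  refine (hy_an_row p h T k _).trans ?_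
  have h1 : ∀ᵐ ω ∂p.m, ∀ᵐ u ∂(volume : Measure ℝ), (hΓ.toLp _ : p.Om × ℝ → p.Fb) (ω, u) = conj (p.pk T' k' (ω, ρ') u) • c ω :=
    Measure.ae_ae_of_ae_prod hΓ.coeFn_toLp
  have h2 : ∀ᵐ x ∂(p.m.prod (volume : Measure (ℝ × ℝ))), ∀ᵐ u ∂(volume : Measure ℝ),
      (hΓ.toLp _ : p.Om × ℝ → p.Fb) (x.1, u) = conj (p.pk T' k' (x.1, ρ') u) • c x.1 :=
    Measure.quasiMeasurePreserving_fst.ae h1
  have h3 : ∀ᵐ x ∂p.rw, ∀ᵐ u ∂(volume : Measure ℝ),
      (hΓ.toLp _ : p.Om × ℝ → p.Fb) (x.1, u) = conj (p.pk T' k' (x.1, ρ') u) • c x.1 :=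
    (withDensity_absolutelyContinuous _ _).ae_le h2
  filter_upwards [h3] with x hx
  have e1 : p.row T k (hΓ.toLp _) x = ∫ u, (p.pk T k x u * conj (p.pk T' k' (x.1, ρ') u)) • c x.1 := by
    unfold ChyPar.row
    refine integral_congr_ae (hx.mono fun u hu => ?_)
    simp only []
    rw [hu, smul_smul]
  rw [e1, integral_smul_const]
  congr 1
  unfold HyF.kr
  rw [← integral_conj]
  refine integral_congr_ae (Filter.Eventually.of_forall fun u => ?_)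
  show p.pk T k x u * conj (p.pk T' k' (x.1, ρ') u) = conj (p.pk T' k' (x.1, ρ') u * conj (p.pk T k x u))
  rw [map_mul, Complex.conj_conj, mul_comm]

/-- pairing of the rows of a test state with a row function -/
theorem hy_adj_pair_F (p : ChyPar) (h : p.Ok) (T : ℝ) (k : ℕ) (T' : ℝ) (k' : ℕ) (ρ' : ℝ × ℝ) (c : p.Om → p.Fb)
    (hcs : StronglyMeasurable c) (hc : MemLp c 2 p.m) (F : Lp p.Fb 2 p.rw) :
    inner ℂ (p.an T k ((hy_adj_test_memLp p h T' k' ρ' c hcs hc).toLp _)) F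
      = ∫ ω, inner ℂ (c ω) ((p.fib ω).tr T k T' k' (fun ρ => (F : p.Om × ℝ × ℝ → p.Fb) (ω, ρ)) ρ') ∂p.m := by
  have hrow := hy_adj_test_row p h T k T' k' ρ' c hcs hc
  rw [L2.inner_def]
  have hae : (fun x => inner ℂ ((p.an T k ((hy_adj_test_memLp p h T' k' ρ' c hcs hc).toLp _) : p.Om × ℝ × ℝ → p.Fb) x)
        ((F : p.Om × ℝ × ℝ → p.Fb) x)) =ᵐ[p.rw]
      fun x => inner ℂ (conj ((p.fib x.1).kr T k T' k' ρ' x.2) • c x.1) ((F : p.Om × ℝ × ℝ → p.Fb) x) := by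
    filter_upwards [hrow] with x hx
    rw [hx]
  have hint : Integrable (fun x => inner ℂ (conj ((p.fib x.1).kr T k T' k' ρ' x.2) • c x.1) ((F : p.Om × ℝ × ℝ → p.Fb) x)) p.rw :=
    (L2.integrable_inner (𝕜 := ℂ) _ F).congr hae
  rw [integral_congr_ae hae, hy_adj_fub p h _ hint]
  refine integral_congr_ae ?_
  filter_upwards [hy_adj_F_ae p h F] with ω hω
  have hi := hy_tr_int (p.fib ω) (hy_fib_ok p h ω) T k T' k' _ hω ρ'
  refine Eq.trans ?_ (integral_inner hi (c ω))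
  refine integral_congr_ae (Filter.Eventually.of_forall fun ρ => ?_)
  show inner ℂ (conj ((p.fib ω).kr T k T' k' ρ' ρ) • c ω) ((F : p.Om × ℝ × ℝ → p.Fb) (ω, ρ))
    = inner ℂ (c ω) ((p.fib ω).kr T k T' k' ρ' ρ • (F : p.Om × ℝ × ℝ → p.Fb) (ω, ρ))
  rw [inner_smul_left, inner_smul_right, Complex.conj_conj]

/-- **(I2)** KERNEL FORMULA.
PLAN: test against `Φ = 1_S(ω) 1_R(ρ') e` (`S` of finite measure, `R` bounded, `e : Fb`): `⟪an' an† F, Φ⟫ = ⟪F, an an'† Φ⟫`;  `an'† Φ (ω,u) = 1_S(ω) ∫_R conj (pk' ρ' u) dν • e` (pair with an arbitrary state, Fubini);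
`an (an'† Φ) = tr' Φ` (Fubini);  `⟪F, tr' Φ⟫ = ⟪tr F, Φ⟫` (Fubini, `hy_kr_conj`, absolute convergence by `hy_kr_memLp`);  such `Φ` separate `L²(rw)`.   ~600 l.  HARD. -/
theorem hy_an_adj (p : ChyPar) (h : p.Ok) (T : ℝ) (k : ℕ) (T' : ℝ) (k' : ℕ) (F : Lp p.Fb 2 p.rw) :
    (p.an T' k' (ContinuousLinearMap.adjoint (p.an T k) F) : p.Om × ℝ × ℝ → p.Fb)
      =ᵐ[p.rw] fun x => (p.fib x.1).tr T k T' k' (fun ρ => (F : p.Om × ℝ × ℝ → p.Fb) (x.1, ρ)) x.2 := by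
  have := h.sf
  obtain ⟨G, hG⟩ : ∃ G, G = ContinuousLinearMap.adjoint (p.an T k) F := ⟨_, rfl⟩
  rw [← hG]
  refine (hy_an_row p h T' k' G).trans ?_
  have hA := hy_adj_row_sm p h T' k' G
  have hB := hy_adj_tr_sm p h T k T' k' _ (Lp.stronglyMeasurable F)
  have key : ∀ ρ' : ℝ × ℝ, ∀ᵐ ω ∂p.m,
      p.row T' k' G (ω, ρ') = (p.fib ω).tr T k T' k' (fun ρ => (F : p.Om × ℝ × ℝ → p.Fb) (ω, ρ)) ρ' := by
    intro ρ'
    have mA := hy_adj_row_memLp p h T' k' G ρ'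
    have mB := hy_adj_tr_memLp p h T k T' k' F ρ'
    obtain ⟨c, hc⟩ : ∃ c : p.Om → p.Fb, c = fun ω =>
        p.row T' k' G (ω, ρ') - (p.fib ω).tr T k T' k' (fun ρ => (F : p.Om × ℝ × ℝ → p.Fb) (ω, ρ)) ρ' := ⟨_, rfl⟩
    have hcs : StronglyMeasurable c := by
      rw [hc]
      exact (hA.comp_measurable measurable_prodMk_right).sub (hB.comp_measurable (measurable_prodMk_right (y := ρ')))
    have mc : MemLp c 2 p.m := by
      rw [hc]
      exact mA.sub mB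
    have e1 := hy_adj_pair_G p h T' k' ρ' c hcs mc G
    have e2 := hy_adj_pair_F p h T k T' k' ρ' c hcs mc F
    have e3 : inner ℂ ((hy_adj_test_memLp p h T' k' ρ' c hcs mc).toLp _) G
        = inner ℂ (p.an T k ((hy_adj_test_memLp p h T' k' ρ' c hcs mc).toLp _)) F := by
      rw [hG, ContinuousLinearMap.adjoint_inner_right]
    have e4 : ∫ ω, inner ℂ (c ω) (c ω) ∂p.m = 0 := by
      have e : ∀ ω, inner ℂ (c ω) (c ω) = inner ℂ (c ω) (p.row T' k' G (ω, ρ'))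
          - inner ℂ (c ω) ((p.fib ω).tr T k T' k' (fun ρ => (F : p.Om × ℝ × ℝ → p.Fb) (ω, ρ)) ρ') := by
        intro ω
        rw [← inner_sub_right]
        congr 1
        rw [hc]
      simp only [e]
      rw [integral_sub (hy_adj_inner_int _ _ _ mc mA) (hy_adj_inner_int _ _ _ mc mB), ← e1, ← e2, e3, sub_self]
    have e5 := hy_enorm_self _ c mc
    rw [e4, enorm_zero] at e5
    have e6 := (lintegral_eq_zero_iff (hcs.enorm.pow_const 2)).1 e5.symm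
    filter_upwards [e6] with ω hω
    have h0 : c ω = 0 := by simpa using hω
    rw [hc] at h0
    exact sub_eq_zero.1 h0
  have hS : MeasurableSet {x : p.Om × ℝ × ℝ |
      p.row T' k' G x = (p.fib x.1).tr T k T' k' (fun ρ => (F : p.Om × ℝ × ℝ → p.Fb) (x.1, ρ)) x.2} :=
    hA.measurableSet_eq_fun hB
  have h0 : (p.m.prod (volume : Measure (ℝ × ℝ))) {x : p.Om × ℝ × ℝ |
      p.row T' k' G x = (p.fib x.1).tr T k T' k' (fun ρ => (F : p.Om × ℝ × ℝ → p.Fb) (x.1, ρ)) x.2}ᶜ = 0 := by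
    rw [Measure.prod_apply_symm hS.compl]
    refine (lintegral_congr fun ρ' => ?_).trans lintegral_zero
    exact key ρ'
  exact (withDensity_absolutelyContinuous _ _).ae_le (show ∀ᵐ x ∂(p.m.prod (volume : Measure (ℝ × ℝ))), _ from h0)

/-- the transfer only depends on the a.e. class of the row function -/
theorem hy_i3_tr_congr (φ : HyF) {E : Type} [NormedAddCommGroup E] [NormedSpace ℂ E] (T : ℝ) (k : ℕ) (T' : ℝ) (k' : ℕ) {f f' : ℝ × ℝ → E}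
    (hf : f =ᵐ[φ.nu] f') : φ.tr T k T' k' f = φ.tr T k T' k' f' := by
  funext ρ'
  unfold HyF.tr
  refine integral_congr_ae ?_
  filter_upwards [hf] with ρ hρ
  rw [hρ]

theorem hy_i3_br_congr (φ : HyF) {E : Type} [NormedAddCommGroup E] [NormedSpace ℂ E] (k' i : ℕ) (l : List HyStg) (T : ℝ) (k : ℕ) {f f' : ℝ × ℝ → E}
    (hf : f =ᵐ[φ.nu] f') : φ.br k' i l T k f = φ.br k' i l T k f' := by
  cases l with
  | nil =>
    simp only [HyF.br]
    exact hy_i3_tr_congr φ T k _ _ hf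
  | cons σ l =>
    simp only [HyF.br]
    rw [hy_i3_tr_congr φ T k _ _ hf]

/-- a property of almost all rows holds for almost all rows of almost all fibres -/
theorem hy_i3_fib_ae (p : ChyPar) (h : p.Ok) {P : p.Om × ℝ × ℝ → Prop} (hP : ∀ᵐ x ∂p.rw, P x) :
    ∀ᵐ ω ∂p.m, ∀ᵐ ρ ∂(p.fib ω).nu, P (ω, ρ) := by
  have := h.sf
  have hdm : Measurable fun x : p.Om × ℝ × ℝ => ENNReal.ofReal (p.sg x.1 / (2 * Real.pi * p.H)) :=
    ENNReal.measurable_ofReal.comp ((h.mS.comp measurable_fst).div_const _)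
  have hac : p.m.prod (volume : Measure (ℝ × ℝ)) ≪ p.rw :=
    withDensity_absolutelyContinuous' hdm.aemeasurable (Filter.Eventually.of_forall fun x => by
      have h1 := (h.sg_rg x.1).1
      have h2 := h.H_pos
      have h3 := Real.pi_pos
      have h4 : 0 < p.sg x.1 := by linarith
      exact (ENNReal.ofReal_pos.2 (by positivity)).ne')
  have h1 : ∀ᵐ x ∂(p.m.prod (volume : Measure (ℝ × ℝ))), P x := hac.ae_le hP
  filter_upwards [Measure.ae_ae_of_ae_prod h1] with ω hω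
  unfold HyF.nu
  exact Measure.ae_smul_measure hω _

/-- a property of almost all exact indices holds for almost all rows -/
theorem hy_i3_lift_ae (p : ChyPar) {Q : p.Om → Prop} (hQ : ∀ᵐ ω ∂p.m, Q ω) : ∀ᵐ x ∂p.rw, Q x.1 := by
  have h1 : ∀ᵐ x ∂(p.m.prod (volume : Measure (ℝ × ℝ))), Q x.1 := Measure.quasiMeasurePreserving_fst.ae hQ
  exact (withDensity_absolutelyContinuous _ _).ae_le h1

/-- the masked rows (`gn_mulR_coe` of `Gen/BasA`, which is not imported here) -/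
theorem hy_i3_mulR0 {P : PkSys} (k : ℕ) {M : P.X → ℝ} (hM : IsMask M) (F : Lp P.Fb 2 (P.rho k)) :
    (P.mulR k M F : P.X → P.Fb) =ᵐ[P.rho k] fun x => ((M x : ℝ) : ℂ) • (F : P.X → P.Fb) x := by
  have hm : MemLp (fun x => ((M x : ℝ) : ℂ) • (F : P.X → P.Fb) x) 2 (P.rho k) := by
    refine MemLp.of_le (Lp.memLp F) ?_ (Filter.Eventually.of_forall fun x => ?_)
    · exact (Complex.measurable_ofReal.comp hM.1).aestronglyMeasurable.smul (Lp.aestronglyMeasurable F)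
    · rw [norm_smul, Complex.norm_real, Real.norm_eq_abs, abs_of_nonneg (hM.2 x).1]
      exact mul_le_of_le_one_left (norm_nonneg _) (hM.2 x).2
  unfold PkSys.mulR
  rw [dif_pos hm]
  exact MemLp.coeFn_toLp _

theorem hy_i3_mulR (p : ChyPar) (η : ℝ) (k : ℕ) {M : p.Om × ℝ × ℝ → ℝ} (hM : IsMask M) (F : Lp p.Fb 2 p.rw) :
    ((p.sys η).mulR k M F : p.Om × ℝ × ℝ → p.Fb) =ᵐ[p.rw] fun x => ((M x : ℝ) : ℂ) • (F : p.Om × ℝ × ℝ → p.Fb) x :=
  hy_i3_mulR0 (P := p.sys η) k hM F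

/-- **(I3)** ROWS OF A BRANCH.   Induction on the stack with (I2); `mulR` of a bounded measurable mask is the pointwise product a.e.; a.e. equal fibres give equal transfers.  ~400 l. -/
theorem hy_run_rows (p : ChyPar) (h : p.Ok) (η : ℝ) (k' i : ℕ) (st : List (Stg (p.sys η))) (hst : ∀ σ ∈ st, ∀ j, IsMask (σ.M j))
    (T : ℝ) (k : ℕ) (F : Lp p.Fb 2 p.rw) :
    (p.an (tmL k' i) k' (Xp.run (P := p.sys η) k' i st (ContinuousLinearMap.adjoint (p.an T k) F)) : p.Om × ℝ × ℝ → p.Fb)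
      =ᵐ[p.rw] fun x => (p.fib x.1).br k' i (st.map (p.fst η x.1)) T k (fun ρ => (F : p.Om × ℝ × ℝ → p.Fb) (x.1, ρ)) x.2 := by
  induction st generalizing T k F with
  | nil => exact hy_an_adj p h T k (tmL k' i) k' F
  | cons σ l ih =>
    have hM : IsMask (σ.M (ancI k' σ.k i)) := hst σ List.mem_cons_self _
    have ih' := ih (fun σ' hσ' => hst σ' (List.mem_cons_of_mem _ hσ')) (tmL σ.k (ancI k' σ.k i)) σ.k
      ((p.sys η).mulR σ.k (σ.M (ancI k' σ.k i)) (p.an (tmL σ.k (ancI k' σ.k i)) σ.k (ContinuousLinearMap.adjoint (p.an T k) F)))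
    have hF₁ : (((p.sys η).mulR σ.k (σ.M (ancI k' σ.k i)) (p.an (tmL σ.k (ancI k' σ.k i)) σ.k (ContinuousLinearMap.adjoint (p.an T k) F)) :
        Lp p.Fb 2 p.rw) : p.Om × ℝ × ℝ → p.Fb) =ᵐ[p.rw] fun x => ((σ.M (ancI k' σ.k i) x : ℝ) : ℂ) •
          (p.fib x.1).tr T k (tmL σ.k (ancI k' σ.k i)) σ.k (fun ρ => (F : p.Om × ℝ × ℝ → p.Fb) (x.1, ρ)) x.2 := by
      filter_upwards [hy_i3_mulR p η σ.k hM (p.an (tmL σ.k (ancI k' σ.k i)) σ.k (ContinuousLinearMap.adjoint (p.an T k) F)),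
        hy_an_adj p h T k (tmL σ.k (ancI k' σ.k i)) σ.k F] with x h1 h2
      rw [h1, h2]
    have hlift := hy_i3_lift_ae p (hy_i3_fib_ae p h hF₁)
    filter_upwards [ih', hlift] with x h1 h2
    exact h1.trans (congrFun (hy_i3_br_congr (p.fib x.1) k' i _ _ _ h2) x.2)

/-- **(I4)** masses as `lintegral`s -/
theorem hy_en_lint (p : ChyPar) (h : p.Ok) (η : ℝ) (T : ℝ) (k b : ℕ) (θ : p.Om × ℝ × ℝ → ℝ) (hθ : Measurable θ) (h0 : ∀ x, 0 ≤ θ x) (h1 : ∀ x, θ x ≤ 1)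
    (v : (p.sys η).Kc) (R : p.Om × ℝ × ℝ → p.Fb) (hR : ((p.sys η).An T k b v : p.Om × ℝ × ℝ → p.Fb) =ᵐ[p.rw] R) :
    ENNReal.ofReal ((p.sys η).en T k b θ v) = ∫⁻ x, ENNReal.ofReal (θ x) * ‖R x‖ₑ ^ 2 ∂p.rw := by
  obtain ⟨W, hW⟩ : ∃ W : Lp p.Fb 2 p.rw, W = (p.sys η).An T k b v := ⟨_, rfl⟩
  have hR' : (W : p.Om × ℝ × ℝ → p.Fb) =ᵐ[p.rw] R := by
    rw [hW]
    exact hR
  have e : (p.sys η).en T k b θ v = ∫ x, θ x * ‖(W : p.Om × ℝ × ℝ → p.Fb) x‖ ^ 2 ∂p.rw := by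
    rw [hW]
    rfl
  rw [e]
  have hi0 : Integrable (fun x => ‖(W : p.Om × ℝ × ℝ → p.Fb) x‖ ^ 2) p.rw := (Lp.memLp W).integrable_norm_pow (p := 2) (by norm_num)
  have hi : Integrable (fun x => θ x * ‖(W : p.Om × ℝ × ℝ → p.Fb) x‖ ^ 2) p.rw := by
    refine hi0.bdd_mul (c := 1) hθ.aestronglyMeasurable (Filter.Eventually.of_forall fun x => ?_)
    rw [Real.norm_of_nonneg (h0 x)]
    exact h1 x
  rw [ofReal_integral_eq_lintegral_ofReal hi (Filter.Eventually.of_forall fun x => mul_nonneg (h0 x) (by positivity))]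
  refine lintegral_congr_ae ?_
  filter_upwards [hR'] with x hx
  rw [ENNReal.ofReal_mul (h0 x), ENNReal.ofReal_pow (norm_nonneg _), ofReal_norm, hx]

/-- **(I5)** multiplication by a function of the exact index commutes with analysis: the mass over a set of exact indices is conserved -/
theorem hy_an_ind (p : ChyPar) (h : p.Ok) (T : ℝ) (k : ℕ) (S : Set p.Om) (hS : MeasurableSet S) (G : Lp p.Fb 2 (p.m.prod (volume : Measure ℝ))) :
    ∫⁻ x in {x : p.Om × ℝ × ℝ | x.1 ∈ S}, ‖(p.an T k G : p.Om × ℝ × ℝ → p.Fb) x‖ₑ ^ 2 ∂p.rw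
      = ∫⁻ y in {y : p.Om × ℝ | y.1 ∈ S}, ‖(G : p.Om × ℝ → p.Fb) y‖ₑ ^ 2 ∂(p.m.prod (volume : Measure ℝ)) := by
  rw [← hy_row_ind p h T k S hS G]
  refine lintegral_congr_ae (ae_restrict_of_ae ?_)
  filter_upwards [hy_an_row p h T k G] with x hx
  rw [hx]

end Claimed.Agent.R256
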