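import Claimed.Agent.R256.Hyb.JitRow

/-!
# Row 256, unit HYB, JIT 5: JITTER CLOSURE OF THE HYBRID CYLINDER      (chief helper82; prefix `hj_`)      02 l.690-700

**EXIT** `hj_main (η) : CyJit (sfHy η)`   (= `cy_jit_hy` of `Cyl/Contract.lean`).      Twin of `Cyl/ClJit.lean`.
 (M) `hj_m` | (LAW) `hj_law` | (V) `hj_valid` | glue `hj_main`
-/

set_option autoImplicit false

namespace Claimed.Agent.R256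

open MeasureTheory
open scoped ENNReal

attribute [local implicit_reducible] ChyPar.sys cylHyb sfHy

/-- the five coordinates are measurable -/
theorem hj_vec_meas (p : ChyPar) (h : p.Ok) (T : ℝ) : Measurable fun x : p.Om × ℝ × ℝ => cyVec (p.co T x) := by
  have mX : Measurable fun x : p.Om × ℝ × ℝ => p.X x.1 := h.mX.comp measurable_fst
  have mB : Measurable fun x : p.Om × ℝ × ℝ => p.B x.1 := h.mB.comp measurable_fst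
  have mY : Measurable fun x : p.Om × ℝ × ℝ => p.Y x.1 := h.mY.comp measurable_fst
  unfold cyVec ChyPar.co
  fun_prop

theorem hj_cube_set (p : ChyPar) : MeasurableSet {x : (p.Om × (ℝ × ℝ × ℝ × ℝ × ℝ)) × ℝ × ℝ | x.1.2 ∈ cyCube} :=
  (measurable_snd.comp measurable_fst) cy_cj_cube_meas

/-- **(M)**   twin of `cy_cj_m`: `hj_en` with `G = th'` (a mask);  for `θ ∈ cyCube`: `th' (U_θ x) = E.th l x` (`hj_BU`);  `setIntegral_const`, `cy_cj_cube_vol`. -/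
theorem hj_m (η : ℝ) (p : ChyPar) (h : p.Ok) (Qs : CyT) (ζ : ℝ) (E : Xp (p.sys η)) (hE : E.Valid) (tsq : Fin E.L → CyT) (l : Fin E.L) :
    (hjE η p Qs ζ E tsq).m l = E.m l := by
  have hG : IsMask (fun x : (p.Om × (ℝ × ℝ × ℝ × ℝ × ℝ)) × ℝ × ℝ => {x : (p.Om × (ℝ × ℝ × ℝ × ℝ × ℝ)) × ℝ × ℝ | x.1.2 ∈ cyCube}.indicator
      (fun x => E.th l (hjB p Qs ((2 : ℝ)⁻¹ ^ E.k0) ζ (tmL E.k0 E.i0) (tmL E.kf (E.iv l)) x)) x) := by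
    refine ⟨((hE.th_meas l).comp (hj_B_meas p h Qs _ ζ _ _)).indicator (hj_cube_set p), fun x => ?_⟩
    beta_reduce
    by_cases hx : x ∈ {x : (p.Om × (ℝ × ℝ × ℝ × ℝ × ℝ)) × ℝ × ℝ | x.1.2 ∈ cyCube}
    · rw [Set.indicator_of_mem hx]
      exact (gn_th_mask E hE l).2 _
    · rw [Set.indicator_of_notMem hx]
      exact ⟨le_rfl, zero_le_one⟩
  have e2 := hj_en η p h Qs ((2 : ℝ)⁻¹ ^ E.k0) ζ (tmL E.k0 E.i0) E.k0 E.kf (E.iv l) E.bT E.st (gn_valid_stm E hE) E.v _ hG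
  refine Eq.trans ?_ (e2.trans ?_)
  · rfl
  have e4 : ∫ θ in cyCube, (p.sys η).en (tmL E.kf (E.iv l)) E.kf E.bT
      (fun x => {x : (p.Om × (ℝ × ℝ × ℝ × ℝ × ℝ)) × ℝ × ℝ | x.1.2 ∈ cyCube}.indicator
        (fun x => E.th l (hjB p Qs ((2 : ℝ)⁻¹ ^ E.k0) ζ (tmL E.k0 E.i0) (tmL E.kf (E.iv l)) x))
        (hjU p Qs ((2 : ℝ)⁻¹ ^ E.k0) ζ (tmL E.k0 E.i0) (tmL E.kf (E.iv l)) θ x)) (Xp.run (P := p.sys η) E.kf (E.iv l) E.st E.v)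
      = ∫ _θ in cyCube, E.m l := by
    refine setIntegral_congr_fun cy_cj_cube_meas fun θ hθ => ?_
    beta_reduce
    have e5 : (fun x : p.Om × ℝ × ℝ => {x : (p.Om × (ℝ × ℝ × ℝ × ℝ × ℝ)) × ℝ × ℝ | x.1.2 ∈ cyCube}.indicator
        (fun x => E.th l (hjB p Qs ((2 : ℝ)⁻¹ ^ E.k0) ζ (tmL E.k0 E.i0) (tmL E.kf (E.iv l)) x))
        (hjU p Qs ((2 : ℝ)⁻¹ ^ E.k0) ζ (tmL E.k0 E.i0) (tmL E.kf (E.iv l)) θ x)) = E.th l := by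
      funext x
      have hm : hjU p Qs ((2 : ℝ)⁻¹ ^ E.k0) ζ (tmL E.k0 E.i0) (tmL E.kf (E.iv l)) θ x ∈ {x : (p.Om × (ℝ × ℝ × ℝ × ℝ × ℝ)) × ℝ × ℝ | x.1.2 ∈ cyCube} := hθ
      rw [Set.indicator_of_mem hm, hj_BU]
    exact congrArg (fun f : p.Om × ℝ × ℝ → ℝ => (p.sys η).en (tmL E.kf (E.iv l)) E.kf E.bT f (Xp.run (P := p.sys η) E.kf (E.iv l) E.st E.v)) e5
  rw [e4, setIntegral_const, cy_cj_cube_vol, one_smul]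

/-- **(LAW)**   twin of `cy_cj_law`: `hj_en` with `k' = k0`, `i = i0`, `st = []`, `G` = indicator of the measurable set `{x | cyVec (co' T0 x) ∈ U}` (`hj_vec_meas` for `hjP`, `hj_ok`; `gn_mask_ind`);  `hj_co0`. -/
theorem hj_law (η : ℝ) (p : ChyPar) (h : p.Ok) (Qs : CyT) (L ζ : ℝ) (k0 i0 b : ℕ) (v : (p.sys η).Kc) (U : Set (ℝ × ℝ × ℝ × ℝ × ℝ)) (hU : MeasurableSet U) :
    ((hjP p Qs L ζ (tmL k0 i0)).sys η).ms (tmL k0 i0) k0 b {x | cyVec ((hjP p Qs L ζ (tmL k0 i0)).co (tmL k0 i0) x) ∈ U} (hjV p Qs L ζ (tmL k0 i0) k0 v)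
      = ∫ θ in cyCube, (p.sys η).ms (tmL k0 i0) k0 b {x | cyVec (cyJit Qs (cyJitPar Qs L ζ θ) (p.co (tmL k0 i0) x)) ∈ U} v := by
  have hS : MeasurableSet {x : (p.Om × (ℝ × ℝ × ℝ × ℝ × ℝ)) × ℝ × ℝ | cyVec ((hjP p Qs L ζ (tmL k0 i0)).co (tmL k0 i0) x) ∈ U} :=
    hj_vec_meas (hjP p Qs L ζ (tmL k0 i0)) (hj_ok p h Qs L ζ (tmL k0 i0)) (tmL k0 i0) hU
  have e2 := hj_en η p h Qs L ζ (tmL k0 i0) k0 k0 i0 b [] (fun σ hσ => absurd hσ (List.not_mem_nil)) v _ (gn_mask_ind hS)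
  unfold PkSys.ms
  refine Eq.trans ?_ (e2.trans ?_)
  · rfl
  congr 1
  funext θ
  have e5 : (fun x : p.Om × ℝ × ℝ => {x : (p.Om × (ℝ × ℝ × ℝ × ℝ × ℝ)) × ℝ × ℝ | cyVec ((hjP p Qs L ζ (tmL k0 i0)).co (tmL k0 i0) x) ∈ U}.indicator (fun _ => (1 : ℝ))
      (hjU p Qs L ζ (tmL k0 i0) (tmL k0 i0) θ x))
      = {x : p.Om × ℝ × ℝ | cyVec (cyJit Qs (cyJitPar Qs L ζ θ) (p.co (tmL k0 i0) x)) ∈ U}.indicator (fun _ => (1 : ℝ)) := by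
    funext x
    by_cases hx : cyVec (cyJit Qs (cyJitPar Qs L ζ θ) (p.co (tmL k0 i0) x)) ∈ U
    · have h1 : hjU p Qs L ζ (tmL k0 i0) (tmL k0 i0) θ x ∈ {x : (p.Om × (ℝ × ℝ × ℝ × ℝ × ℝ)) × ℝ × ℝ | cyVec ((hjP p Qs L ζ (tmL k0 i0)).co (tmL k0 i0) x) ∈ U} := by
        change cyVec ((hjP p Qs L ζ (tmL k0 i0)).co (tmL k0 i0) (hjU p Qs L ζ (tmL k0 i0) (tmL k0 i0) θ x)) ∈ U
        rw [hj_co0]
        exact hx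
      have h2 : x ∈ {x : p.Om × ℝ × ℝ | cyVec (cyJit Qs (cyJitPar Qs L ζ θ) (p.co (tmL k0 i0) x)) ∈ U} := hx
      rw [Set.indicator_of_mem h1, Set.indicator_of_mem h2]
    · have h1 : hjU p Qs L ζ (tmL k0 i0) (tmL k0 i0) θ x ∉ {x : (p.Om × (ℝ × ℝ × ℝ × ℝ × ℝ)) × ℝ × ℝ | cyVec ((hjP p Qs L ζ (tmL k0 i0)).co (tmL k0 i0) x) ∈ U} := by
        change ¬ cyVec ((hjP p Qs L ζ (tmL k0 i0)).co (tmL k0 i0) (hjU p Qs L ζ (tmL k0 i0) (tmL k0 i0) θ x)) ∈ U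
        rw [hj_co0]
        exact hx
      have h2 : x ∉ {x : p.Om × ℝ × ℝ | cyVec (cyJit Qs (cyJitPar Qs L ζ θ) (p.co (tmL k0 i0) x)) ∈ U} := hx
      rw [Set.indicator_of_notMem h1, Set.indicator_of_notMem h2]
  exact congrArg (fun f : p.Om × ℝ × ℝ → ℝ => (p.sys η).en (tmL k0 i0) k0 b f v) e5

/-- **(V)**   twin of `cy_cj_valid`, field by field.   `budget`: `hj_v_norm`;  `plat`: every state is in `Pl` (`hy_an_norm` for `hjP`);  `reg`: the hypothesis;  `st_*`: `List.mem_map`, `List.pairwise_map`, `hj_stg_mask`;  `ts_ok`, `w_pos`: `htq`;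
`th_meas`: `Measurable.indicator`, `hj_cube_set`, `hj_B_meas`;  `th_supp`: `th' l x ≠ 0` forces `x.1.2 ∈ cyCube`, `E.th l (hjB x) ≠ 0`, so `cyIn (E.ts l) .. (p.co T_l (hjB x))`; `hin`; `hj_co` at `hjB x`, `hj_UB`. -/
theorem hj_valid (η : ℝ) (p : ChyPar) (h : p.Ok) (Qs : CyT) (ζ : ℝ) (E : Xp (p.sys η)) (hE : E.Valid) (tsq : Fin E.L → CyT)
    (htq : ∀ l, 0 < (tsq l).r ∧ 0 < (tsq l).f ∧ p.dl E.kf ≤ (tsq l).f)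
    (hin : ∀ l, ∀ θ ∈ cyCube, ∀ z, cyIn (E.ts l) ((2 : ℝ)⁻¹ ^ E.kf) z →
      cyIn (tsq l) ((2 : ℝ)⁻¹ ^ E.kf) (cyJit (cyExt Qs (tmL E.kf (E.iv l) - tmL E.k0 E.i0))
        (cyFlow (tmL E.kf (E.iv l) - tmL E.k0 E.i0) (cyJitPar Qs ((2 : ℝ)⁻¹ ^ E.k0) ζ θ)) z))
    (κ' : ℝ) (hκ : 0 < κ')
    (hreg : ((hjP p Qs ((2 : ℝ)⁻¹ ^ E.k0) ζ (tmL E.k0 E.i0)).sys η).Reg (tmL E.k0 E.i0) E.k0 E.b0 κ' (hjV p Qs ((2 : ℝ)⁻¹ ^ E.k0) ζ (tmL E.k0 E.i0) E.k0 E.v)) :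
    Xp.Valid { hjE η p Qs ζ E tsq with ka := κ' } := by
  have hth : ∀ (l : Fin E.L) (x : (p.Om × (ℝ × ℝ × ℝ × ℝ × ℝ)) × ℝ × ℝ), x.1.2 ∈ cyCube →
      {x : (p.Om × (ℝ × ℝ × ℝ × ℝ × ℝ)) × ℝ × ℝ | x.1.2 ∈ cyCube}.indicator
        (fun x => E.th l (hjB p Qs ((2 : ℝ)⁻¹ ^ E.k0) ζ (tmL E.k0 E.i0) (tmL E.kf (E.iv l)) x)) x
      = E.th l (hjB p Qs ((2 : ℝ)⁻¹ ^ E.k0) ζ (tmL E.k0 E.i0) (tmL E.kf (E.iv l)) x) := fun l x hx =>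
    Set.indicator_of_mem (s := {x : (p.Om × (ℝ × ℝ × ℝ × ℝ × ℝ)) × ℝ × ℝ | x.1.2 ∈ cyCube}) hx _
  have hth0 : ∀ (l : Fin E.L) (x : (p.Om × (ℝ × ℝ × ℝ × ℝ × ℝ)) × ℝ × ℝ), x.1.2 ∉ cyCube →
      {x : (p.Om × (ℝ × ℝ × ℝ × ℝ × ℝ)) × ℝ × ℝ | x.1.2 ∈ cyCube}.indicator
        (fun x => E.th l (hjB p Qs ((2 : ℝ)⁻¹ ^ E.k0) ζ (tmL E.k0 E.i0) (tmL E.kf (E.iv l)) x)) x = 0 := fun l x hx =>
    Set.indicator_of_notMem (s := {x : (p.Om × (ℝ × ℝ × ℝ × ℝ × ℝ)) × ℝ × ℝ | x.1.2 ∈ cyCube}) hx _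
  have hmk := hj_stg_mask η p h Qs ((2 : ℝ)⁻¹ ^ E.k0) ζ (tmL E.k0 E.i0) E.st (gn_valid_stm E hE)
  refine ⟨hE.e_pos, hκ, ?_, ?_, hreg, ?_, ?_, ?_, ?_, hE.iv_in, fun l => htq l, ?_, ?_, ?_, ?_, ?_⟩
  · change ‖hjV p Qs ((2 : ℝ)⁻¹ ^ E.k0) ζ (tmL E.k0 E.i0) E.k0 E.v‖ ^ 2 ≤ E.e
    have h1 := hj_v_norm p h Qs ((2 : ℝ)⁻¹ ^ E.k0) ζ (tmL E.k0 E.i0) E.k0 E.v
    have h2 : ‖hjV p Qs ((2 : ℝ)⁻¹ ^ E.k0) ζ (tmL E.k0 E.i0) E.k0 E.v‖ ^ 2 ≤ ‖(E.v : Lp p.Fb 2 (p.m.prod (volume : Measure ℝ)))‖ ^ 2 :=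
      pow_le_pow_left₀ (norm_nonneg _) h1 2
    exact h2.trans hE.budget
  · intro T k
    exact hy_an_norm (hjP p Qs ((2 : ℝ)⁻¹ ^ E.k0) ζ (tmL E.k0 E.i0)) (hj_ok p h _ _ _ _) T k _
  · intro σ hσ
    obtain ⟨τ, hτ, rfl⟩ := List.mem_map.1 hσ
    exact hE.st_dep τ hτ
  · exact List.pairwise_map.2 hE.st_mono
  · intro σ hσ i
    exact (hmk σ hσ i).1
  · intro σ hσ i x
    exact (hmk σ hσ i).2 x
  · intro l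
    exact mul_pos (Real.rpow_pos_of_pos (htq l).1 _) (Real.rpow_pos_of_pos (htq l).2.1 _)
  · intro l
    exact ((hE.th_meas l).comp (hj_B_meas p h Qs _ ζ _ _)).indicator (hj_cube_set p)
  · intro l x
    change 0 ≤ {x : (p.Om × (ℝ × ℝ × ℝ × ℝ × ℝ)) × ℝ × ℝ | x.1.2 ∈ cyCube}.indicator
        (fun x => E.th l (hjB p Qs ((2 : ℝ)⁻¹ ^ E.k0) ζ (tmL E.k0 E.i0) (tmL E.kf (E.iv l)) x)) x
    by_cases hx : (x : (p.Om × (ℝ × ℝ × ℝ × ℝ × ℝ)) × ℝ × ℝ).1.2 ∈ cyCube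
    · rw [hth l x hx]
      exact hE.th_nn l _
    · rw [hth0 l x hx]
  · intro l x hx
    change {x : (p.Om × (ℝ × ℝ × ℝ × ℝ × ℝ)) × ℝ × ℝ | x.1.2 ∈ cyCube}.indicator
        (fun x => E.th l (hjB p Qs ((2 : ℝ)⁻¹ ^ E.k0) ζ (tmL E.k0 E.i0) (tmL E.kf (E.iv l)) x)) x ≠ 0 at hx
    have hx2 : (x : (p.Om × (ℝ × ℝ × ℝ × ℝ × ℝ)) × ℝ × ℝ).1.2 ∈ cyCube := by
      by_contra hc
      exact hx (hth0 l x hc)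
    rw [hth l x hx2] at hx
    have h1 : cyIn (E.ts l) ((2 : ℝ)⁻¹ ^ E.kf) (p.co (tmL E.kf (E.iv l)) (hjB p Qs ((2 : ℝ)⁻¹ ^ E.k0) ζ (tmL E.k0 E.i0) (tmL E.kf (E.iv l)) x)) :=
      hE.th_supp l _ hx
    have h2 := hin l _ hx2 _ h1
    have h3 := hj_co p Qs ((2 : ℝ)⁻¹ ^ E.k0) ζ (tmL E.k0 E.i0) (tmL E.kf (E.iv l)) (x : (p.Om × (ℝ × ℝ × ℝ × ℝ × ℝ)) × ℝ × ℝ).1.2
      (hjB p Qs ((2 : ℝ)⁻¹ ^ E.k0) ζ (tmL E.k0 E.i0) (tmL E.kf (E.iv l)) x)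
    rw [hj_UB] at h3
    change cyIn (tsq l) ((2 : ℝ)⁻¹ ^ E.kf) ((hjP p Qs ((2 : ℝ)⁻¹ ^ E.k0) ζ (tmL E.k0 E.i0)).co (tmL E.kf (E.iv l)) x)
    exact h3 ▸ h2
  · intro i x
    change ∑ l, (if E.iv l = i then {x : (p.Om × (ℝ × ℝ × ℝ × ℝ × ℝ)) × ℝ × ℝ | x.1.2 ∈ cyCube}.indicator
        (fun x => E.th l (hjB p Qs ((2 : ℝ)⁻¹ ^ E.k0) ζ (tmL E.k0 E.i0) (tmL E.kf (E.iv l)) x)) x else 0) ≤ 1
    by_cases hx : (x : (p.Om × (ℝ × ℝ × ℝ × ℝ × ℝ)) × ℝ × ℝ).1.2 ∈ cyCube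
    · simp only [hth _ x hx]
      have h5 : ∀ l : Fin E.L, (if E.iv l = i then E.th l (hjB p Qs ((2 : ℝ)⁻¹ ^ E.k0) ζ (tmL E.k0 E.i0) (tmL E.kf (E.iv l)) x) else 0)
          = (if E.iv l = i then E.th l (hjB p Qs ((2 : ℝ)⁻¹ ^ E.k0) ζ (tmL E.k0 E.i0) (tmL E.kf i) x) else 0) := fun l => by
        by_cases hl : E.iv l = i
        · rw [if_pos hl, if_pos hl, hl]
        · rw [if_neg hl, if_neg hl]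
      simp only [h5]
      exact hE.th_sum i _
    · simp only [hth0 _ x hx]
      simp

/-! ## EXIT -/

theorem hj_main (η : ℝ) : CyJit (sfHy η) := by
  intro p hp E hE Qs ζ _ _ _ tsq htq hin
  refine ⟨hjP p Qs ((2 : ℝ)⁻¹ ^ E.k0) ζ (tmL E.k0 E.i0), hjE η p Qs ζ E tsq, hj_ok p hp _ _ _ _, rfl, fun _ => rfl, rfl, rfl, rfl, rfl, rfl, rfl, ?_, ?_, ⟨rfl, ?_⟩, ?_, ?_⟩
  · exact List.length_map _
  · intro bm hb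
    refine ⟨hb.1, hb.2.1, ?_⟩
    intro σ hσ
    obtain ⟨τ, hτ, rfl⟩ := List.mem_map.1 hσ
    exact hb.2.2 τ hτ
  · intro l
    exact ⟨rfl, hj_m η p hp Qs ζ E hE tsq l⟩
  · intro κ' hκ hreg
    exact hj_valid η p hp Qs ζ E hE tsq htq hin κ' hκ hreg
  · intro U hU
    exact hj_law η p hp Qs _ ζ E.k0 E.i0 E.b0 E.v U hU

end Claimed.Agent.R256
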