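import Claimed.Agent.R256.Base.Cyl

/-!
# Row 256 (S0496), unit HYB = the hybrid cylinder instance, file 1: FIBRE DEFINITIONS      (chief helper82; prefix `hy_`)

The hybrid system `ChyPar.sys` of `Base/Cyl.lean` acts FIBRE BY FIBRE over the exact index `ω`.   A fibre is `φ : HyF = (H, σ)`; its rows are `ρ = (D, N) : ℝ × ℝ`  (`ρ.1 = D`, `ρ.2 = N`, as in `Base/Cyl`).
* `φ.q k = q_ℓ`, `φ.d k = d_ℓ` (`ℓ = 2^-k`);   `q d = H`, `q = ℓ d`.
* `φ.pk T k ρ u`   `= e^{-iTHu²/(2σ)} conj Φ_ρ(u)`  (the packet of `ChyPar.pk`)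
* `φ.nu`           the fibre row measure `σ/(2πH) dD dN`
* `φ.row T k g`    analysis of a fibre state `g : ℝ → E` (momentum representation)
* `φ.kr T k T' k' ρ' ρ = ∫ pk' conj pk`     the kernel of `V' U(T'-T) V^*` : from the frame `(T,k)` to the frame `(T',k')`
* `φ.tr T k T' k' f`  the transfer of a row function
* `HyStg`, `φ.br`  fibre stages and the rows of a branch as explicit iterated integrals
* `φ.aa, φ.bb, φ.nc`  the three quantities of the exact modulus of `kr`.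
-/

set_option autoImplicit false

namespace Claimed.Agent.R256

open MeasureTheory
open scoped ENNReal ComplexConjugate

/-- the parameters of a fibre of the hybrid cylinder -/
structure HyF where
  H : ℝ
  sg : ℝ

namespace HyF

variable (φ : HyF)

/-- ranges -/
structure Ok : Prop where
  H_pos : 0 < φ.H
  sg_lo : 1 ≤ φ.sg
  sg_hi : φ.sg ≤ 2

/-- `q_ℓ = (Hℓ)^{1/2}` -/
noncomputable def q (k : ℕ) : ℝ := Real.sqrt (φ.H / 2 ^ k)

/-- `d_ℓ = (H/ℓ)^{1/2}` -/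
noncomputable def d (k : ℕ) : ℝ := Real.sqrt (φ.H * 2 ^ k)

/-- `e^{-iTHu²/(2σ)} conj Φ_{D,N}(u)` -/
noncomputable def pk (T : ℝ) (k : ℕ) (ρ : ℝ × ℝ) (u : ℝ) : ℂ :=
  ((φ.q k ^ 2 / Real.pi) ^ (1 / 4 : ℝ) * Real.exp (-(φ.q k ^ 2 * (u - φ.sg * ρ.2 / φ.H) ^ 2 / 2)) : ℝ)
    * Complex.exp (Complex.I * (((u - φ.sg * ρ.2 / φ.H) * ρ.1 - T * φ.H * u ^ 2 / (2 * φ.sg) : ℝ) : ℂ))

/-- the fibre row measure `σ/(2πH) dD dN` -/
noncomputable def nu : Measure (ℝ × ℝ) := ENNReal.ofReal (φ.sg / (2 * Real.pi * φ.H)) • (volume : Measure (ℝ × ℝ))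

/-- the kernel from the frame `(T,k)` to the frame `(T',k')` -/
noncomputable def kr (T : ℝ) (k : ℕ) (T' : ℝ) (k' : ℕ) (ρ' ρ : ℝ × ℝ) : ℂ :=
  ∫ u, φ.pk T' k' ρ' u * conj (φ.pk T k ρ u)

/-- `(q² + q'²)/2` -/
noncomputable def aa (k k' : ℕ) : ℝ := (φ.q k ^ 2 + φ.q k' ^ 2) / 2

/-- `tH/(2σ)` -/
noncomputable def bb (t : ℝ) : ℝ := t * φ.H / (2 * φ.sg)

/-- the weighted mean velocity `(q² N + q'² N')/(q² + q'²)` -/
noncomputable def nc (k k' : ℕ) (N N' : ℝ) : ℝ := (φ.q k ^ 2 * N + φ.q k' ^ 2 * N') / (φ.q k ^ 2 + φ.q k' ^ 2)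

section vec

variable {E : Type} [NormedAddCommGroup E] [NormedSpace ℂ E]

/-- analysis of a fibre state -/
noncomputable def row (T : ℝ) (k : ℕ) (g : ℝ → E) (ρ : ℝ × ℝ) : E := ∫ u, φ.pk T k ρ u • g u

/-- transfer of a row function from the frame `(T,k)` to the frame `(T',k')` -/
noncomputable def tr (T : ℝ) (k : ℕ) (T' : ℝ) (k' : ℕ) (f : ℝ × ℝ → E) (ρ' : ℝ × ℝ) : E :=
  ∫ ρ, φ.kr T k T' k' ρ' ρ • f ρ ∂φ.nu

end vec

end HyF

/-- a fibre stage: depth and one scalar mask for every interval of that depth -/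
structure HyStg where
  k : ℕ
  M : ℕ → ℝ × ℝ → ℝ

/-- masks are measurable with values in `[0,1]` -/
def HyStg.Ok (σ : HyStg) : Prop := ∀ i, Measurable (σ.M i) ∧ ∀ ρ, 0 ≤ σ.M i ρ ∧ σ.M i ρ ≤ 1

/-- the rows at the frame `(tmL k' i, k')` of the branch of the interval `i` of depth `k'` through the stages, starting from the (already masked) rows `f` at the frame `(T,k)` -/
noncomputable def HyF.br (φ : HyF) {E : Type} [NormedAddCommGroup E] [NormedSpace ℂ E] (k' i : ℕ) :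
    List HyStg → ℝ → ℕ → (ℝ × ℝ → E) → ℝ × ℝ → E
  | [], T, k, f => φ.tr T k (tmL k' i) k' f
  | σ :: l, T, k, f => HyF.br φ k' i l (tmL σ.k (ancI k' σ.k i)) σ.k
      (fun ρ => ((σ.M (ancI k' σ.k i) ρ : ℝ) : ℂ) • φ.tr T k (tmL σ.k (ancI k' σ.k i)) σ.k f ρ)

/-- the fibre of a hybrid system at the exact index `ω` -/
def ChyPar.fib (p : ChyPar) (ω : p.Om) : HyF := ⟨p.H, p.sg ω⟩

/-- the fibre of a stage -/
def ChyPar.fst (p : ChyPar) (η : ℝ) (ω : p.Om) (σ : Stg (p.sys η)) : HyStg := ⟨σ.k, fun i ρ => σ.M i (ω, ρ)⟩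

theorem hy_pk_fib (p : ChyPar) (T : ℝ) (k : ℕ) (x : p.Om × ℝ × ℝ) (u : ℝ) : p.pk T k x u = (p.fib x.1).pk T k x.2 u := rfl

theorem hy_fib_ok (p : ChyPar) (h : p.Ok) (ω : p.Om) : (p.fib ω).Ok := ⟨h.H_pos, (h.sg_rg ω).1, (h.sg_rg ω).2⟩

theorem hy_defs_eqns_cite : True := by
  have := @HyF.q.eq_1
  have := @HyF.d.eq_1
  have := @HyF.pk.eq_1
  have := @HyF.nu.eq_1
  have := @HyF.kr.eq_1
  have := @HyF.aa.eq_1
  have := @HyF.bb.eq_1
  have := @HyF.nc.eq_1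
  have := @HyF.row.eq_1
  have := @HyF.tr.eq_1
  have := @HyStg.Ok.eq_1
  have := @HyF.br.eq_1
  have := @HyF.br.eq_2
  have := @ChyPar.fib.eq_1
  have := @ChyPar.fst.eq_1
  trivial

end Claimed.Agent.R256
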