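import Mathlib

/-!
# Row 256, unit HYB, file 3: GENERIC TOOLS      (chief helper82; prefix `hy_`)      Mathlib only.

* `hy_cs`       pointwise Cauchy-Schwarz for an integral operator with a scalar kernel
* `hy_schur`    Schur test in `lintegral` form (no integrability side conditions)
* `hy_bessel`   BESSEL FROM GRAM-SCHUR, vector valued: if the Gram kernel `g(z,z') = ∫ k(z,y) conj k(z',y) dμ` has Schur bound `L`, then `∫ ‖∫ k(z,y) a(y) dμ‖² dζ ≤ L ∫ ‖a‖²`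
* `HyT`, `hyTen` the Hilbert tensor square `Completion (E ⊗ E)` and the bounded bilinear map `u, v ↦ u ⊗ v`
-/

set_option autoImplicit false

namespace Claimed.Agent.R256

open MeasureTheory
open scoped ENNReal ComplexConjugate TensorProduct

/-- Cauchy-Schwarz for `lintegral`, squared form -/
theorem hy_lcs {X : Type*} [MeasurableSpace X] (μ : Measure X) {f g : X → ℝ≥0∞} (hf : AEMeasurable f μ) (hg : AEMeasurable g μ) :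
    (∫⁻ x, f x * g x ∂μ) ^ 2 ≤ (∫⁻ x, f x ^ 2 ∂μ) * ∫⁻ x, g x ^ 2 ∂μ := by
  have h := ENNReal.lintegral_mul_le_Lp_mul_Lq μ Real.HolderConjugate.two_two hf hg
  simp only [Pi.mul_apply, ENNReal.rpow_two] at h
  calc (∫⁻ x, f x * g x ∂μ) ^ 2 ≤ ((∫⁻ x, f x ^ 2 ∂μ) ^ (1 / (2 : ℝ)) * (∫⁻ x, g x ^ 2 ∂μ) ^ (1 / (2 : ℝ))) ^ 2 := by gcongr
    _ = (∫⁻ x, f x ^ 2 ∂μ) * ∫⁻ x, g x ^ 2 ∂μ := by
        rw [mul_pow, ← ENNReal.rpow_natCast, ← ENNReal.rpow_natCast, ← ENNReal.rpow_mul, ← ENNReal.rpow_mul]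
        norm_num

/-- **(S1)** pointwise Cauchy-Schwarz.   `‖∫ K f‖ ≤ ∫⁻ ‖K‖ ‖f‖ = ∫⁻ ‖K‖^(1/2) (‖K‖^(1/2) ‖f‖)`, `ENNReal.lintegral_mul_le_Lp_mul_Lq` with `p = q = 2`.  ~80 l. -/
theorem hy_cs {X : Type*} [MeasurableSpace X] (μ : Measure X) {E : Type*} [NormedAddCommGroup E] [NormedSpace ℂ E]
    (K : X → ℂ) (hK : AEMeasurable K μ) (f : X → E) (hf : AEStronglyMeasurable f μ) :
    ‖∫ x, K x • f x ∂μ‖ₑ ^ 2 ≤ (∫⁻ x, ‖K x‖ₑ ∂μ) * ∫⁻ x, ‖K x‖ₑ * ‖f x‖ₑ ^ 2 ∂μ := by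
  have hK' : AEMeasurable (fun x => ‖K x‖ₑ) μ := hK.enorm
  have hf' : AEMeasurable (fun x => ‖f x‖ₑ) μ := hf.enorm
  have h1 : ‖∫ x, K x • f x ∂μ‖ₑ ≤ ∫⁻ x, ‖K x‖ₑ ^ (1 / (2 : ℝ)) * (‖K x‖ₑ ^ (1 / (2 : ℝ)) * ‖f x‖ₑ) ∂μ := by
    refine (enorm_integral_le_lintegral_enorm _).trans (le_of_eq (lintegral_congr fun x => ?_))
    rw [enorm_smul, ← mul_assoc, ← ENNReal.rpow_add_of_nonneg _ _ (by norm_num) (by norm_num)]
    norm_num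
  have h2 := hy_lcs μ (hK'.pow_const (1 / (2 : ℝ))) ((hK'.pow_const (1 / (2 : ℝ))).mul hf')
  have e1 : ∀ x, (‖K x‖ₑ ^ (1 / (2 : ℝ))) ^ 2 = ‖K x‖ₑ := fun x => by
    rw [← ENNReal.rpow_natCast, ← ENNReal.rpow_mul]
    norm_num
  simp only [Pi.mul_apply, mul_pow, e1] at h2
  calc ‖∫ x, K x • f x ∂μ‖ₑ ^ 2 ≤ (∫⁻ x, ‖K x‖ₑ ^ (1 / (2 : ℝ)) * (‖K x‖ₑ ^ (1 / (2 : ℝ)) * ‖f x‖ₑ) ∂μ) ^ 2 := by gcongr
    _ ≤ _ := h2

/-- **(S2)** Schur test.   `hy_cs` + Tonelli.  ~100 l. -/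
theorem hy_schur {X Y : Type*} [MeasurableSpace X] [MeasurableSpace Y] (μ : Measure X) (ν : Measure Y) [SFinite μ] [SFinite ν]
    {E : Type*} [NormedAddCommGroup E] [NormedSpace ℂ E] (K : Y → X → ℂ) (hK : Measurable (Function.uncurry K))
    (f : X → E) (hf : AEStronglyMeasurable f μ) (a b : ℝ≥0∞) (h1 : ∀ y, ∫⁻ x, ‖K y x‖ₑ ∂μ ≤ a) (h2 : ∀ x, ∫⁻ y, ‖K y x‖ₑ ∂ν ≤ b) :
    ∫⁻ y, ‖∫ x, K y x • f x ∂μ‖ₑ ^ 2 ∂ν ≤ a * b * ∫⁻ x, ‖f x‖ₑ ^ 2 ∂μ := by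
  have hKy : ∀ y, Measurable (K y) := fun y => hK.comp measurable_prodMk_left
  have hm : AEMeasurable (Function.uncurry fun y x => ‖K y x‖ₑ * ‖f x‖ₑ ^ 2) (ν.prod μ) :=
    hK.enorm.aemeasurable.mul ((hf.enorm.pow_const 2).comp_snd)
  calc ∫⁻ y, ‖∫ x, K y x • f x ∂μ‖ₑ ^ 2 ∂ν
      ≤ ∫⁻ y, a * ∫⁻ x, ‖K y x‖ₑ * ‖f x‖ₑ ^ 2 ∂μ ∂ν := lintegral_mono fun y =>
        (hy_cs μ (K y) (hKy y).aemeasurable f hf).trans (mul_le_mul_left (h1 y) _)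
    _ = a * ∫⁻ y, ∫⁻ x, ‖K y x‖ₑ * ‖f x‖ₑ ^ 2 ∂μ ∂ν := lintegral_const_mul'' _ hm.lintegral_prod_right'
    _ = a * ∫⁻ x, ∫⁻ y, ‖K y x‖ₑ * ‖f x‖ₑ ^ 2 ∂ν ∂μ := by rw [lintegral_lintegral_swap hm]
    _ = a * ∫⁻ x, (∫⁻ y, ‖K y x‖ₑ ∂ν) * ‖f x‖ₑ ^ 2 ∂μ := by
        congr 1
        refine lintegral_congr fun x => ?_
        exact lintegral_mul_const _ (hK.comp measurable_prodMk_right).enorm
    _ ≤ a * ∫⁻ x, b * ‖f x‖ₑ ^ 2 ∂μ := by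
        gcongr with x
        exact h2 x
    _ = a * b * ∫⁻ x, ‖f x‖ₑ ^ 2 ∂μ := by
        rw [lintegral_const_mul'' _ (hf.enorm.pow_const 2), mul_assoc]

theorem hy_mul_le_sq (x y : ℝ≥0∞) : x * y ≤ x ^ 2 + y ^ 2 := by
  rcases le_total x y with h | h
  · calc x * y ≤ y * y := by gcongr
      _ = y ^ 2 := (sq y).symm
      _ ≤ x ^ 2 + y ^ 2 := le_add_self
  · calc x * y ≤ x * x := by gcongr
      _ = x ^ 2 := (sq x).symm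
      _ ≤ x ^ 2 + y ^ 2 := le_self_add

theorem hy_enorm_inner {E : Type*} [NormedAddCommGroup E] [InnerProductSpace ℂ E] (u v : E) : ‖inner ℂ u v‖ₑ ≤ ‖u‖ₑ * ‖v‖ₑ := by
  rw [← ofReal_norm, ← ofReal_norm, ← ofReal_norm, ← ENNReal.ofReal_mul (norm_nonneg _)]
  exact ENNReal.ofReal_le_ofReal (norm_inner_le_norm u v)

theorem hy_pair_cs {X : Type*} [MeasurableSpace X] (ν : Measure X) {E : Type*} [NormedAddCommGroup E] [InnerProductSpace ℂ E]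
    (u w : X → E) (hu : AEStronglyMeasurable u ν) (hw : AEStronglyMeasurable w ν) :
    ‖∫ x, inner ℂ (u x) (w x) ∂ν‖ₑ ^ 2 ≤ (∫⁻ x, ‖u x‖ₑ ^ 2 ∂ν) * ∫⁻ x, ‖w x‖ₑ ^ 2 ∂ν := by
  have h1 : ‖∫ x, inner ℂ (u x) (w x) ∂ν‖ₑ ≤ ∫⁻ x, ‖u x‖ₑ * ‖w x‖ₑ ∂ν :=
    (enorm_integral_le_lintegral_enorm _).trans (lintegral_mono fun x => hy_enorm_inner _ _)
  calc ‖∫ x, inner ℂ (u x) (w x) ∂ν‖ₑ ^ 2 ≤ (∫⁻ x, ‖u x‖ₑ * ‖w x‖ₑ ∂ν) ^ 2 := by gcongr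
    _ ≤ _ := hy_lcs ν hu.enorm hw.enorm

theorem hy_enorm_self {X : Type*} [MeasurableSpace X] (ν : Measure X) {E : Type*} [NormedAddCommGroup E] [InnerProductSpace ℂ E]
    (w : X → E) (hw : MemLp w 2 ν) : ‖∫ x, inner ℂ (w x) (w x) ∂ν‖ₑ = ∫⁻ x, ‖w x‖ₑ ^ 2 ∂ν := by
  have e : ∀ x, inner ℂ (w x) (w x) = ((‖w x‖ ^ 2 : ℝ) : ℂ) := fun x => by
    rw [inner_self_eq_norm_sq_to_K]
    norm_cast
  simp_rw [e]
  rw [integral_complex_ofReal]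
  have hint : Integrable (fun x => ‖w x‖ ^ 2) ν := (memLp_two_iff_integrable_sq_norm hw.1).1 hw
  have hnn : 0 ≤ ∫ x, ‖w x‖ ^ 2 ∂ν := integral_nonneg fun x => sq_nonneg _
  rw [← ofReal_norm, Complex.norm_real, Real.norm_of_nonneg hnn,
    ofReal_integral_eq_lintegral_ofReal hint (ae_of_all _ fun x => sq_nonneg _)]
  refine lintegral_congr fun x => ?_
  rw [ENNReal.ofReal_pow (norm_nonneg _), ofReal_norm]

theorem hy_integrable_smul {X : Type*} [MeasurableSpace X] (ν : Measure X) {E : Type*} [NormedAddCommGroup E] [NormedSpace ℂ E]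
    (κ : X → ℂ) (w : X → E) (hκ : MemLp κ 2 ν) (hw : MemLp w 2 ν) : Integrable (fun x => κ x • w x) ν :=
  memLp_one_iff_integrable.1 (hw.smul hκ)

theorem hy_memLp_two {X : Type*} [MeasurableSpace X] (ν : Measure X) {E : Type*} [NormedAddCommGroup E]
    (w : X → E) (hw : AEStronglyMeasurable w ν) (h : ∫⁻ x, ‖w x‖ₑ ^ 2 ∂ν ≠ ⊤) : MemLp w 2 ν := by
  refine ⟨hw, ?_⟩
  rw [eLpNorm_lt_top_iff_lintegral_rpow_enorm_lt_top (by norm_num) (by norm_num)]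
  simpa using h.lt_top

theorem hy_lint_of_memLp {X : Type*} [MeasurableSpace X] (ν : Measure X) {E : Type*} [NormedAddCommGroup E]
    (w : X → E) (hw : MemLp w 2 ν) : ∫⁻ x, ‖w x‖ₑ ^ 2 ∂ν ≠ ⊤ := by
  have := (eLpNorm_lt_top_iff_lintegral_rpow_enorm_lt_top (μ := ν) (f := w) (p := 2) (by norm_num) (by norm_num)).1 hw.2
  simpa using this.ne


section Bessel

variable {Y Z : Type*} [MeasurableSpace Y] [MeasurableSpace Z] (μ : Measure Y) (ζ : Measure Z) [SigmaFinite μ] [SigmaFinite ζ]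
  {E : Type*} [NormedAddCommGroup E] [InnerProductSpace ℂ E] [CompleteSpace E]

/-- Tonelli for `‖k‖²` -/
theorem hy_kk_swap (k : Z → Y → ℂ) (hk : Measurable (Function.uncurry k)) :
    ∫⁻ y, ∫⁻ z, ‖k z y‖ₑ ^ 2 ∂ζ ∂μ = ∫⁻ z, ∫⁻ y, ‖k z y‖ₑ ^ 2 ∂μ ∂ζ :=
  (lintegral_lintegral_swap (f := fun z y => ‖k z y‖ₑ ^ 2) (hk.enorm.pow_const 2).aemeasurable).symm

/-- the adjoint integrand is integrable for almost every `y` -/
theorem hy_b_int (k : Z → Y → ℂ) (hk : Measurable (Function.uncurry k)) (c : Z → E) (hcm : StronglyMeasurable c)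
    (hI : ∫⁻ z, ‖c z‖ₑ ^ 2 ∂ζ ≠ ⊤) (hKK : ∫⁻ z, ∫⁻ y, ‖k z y‖ₑ ^ 2 ∂μ ∂ζ ≠ ⊤) :
    ∀ᵐ y ∂μ, Integrable (fun z => conj (k z y) • c z) ζ := by
  have hm : Measurable fun y => ∫⁻ z, ‖k z y‖ₑ ^ 2 ∂ζ :=
    Measurable.lintegral_prod_left (f := fun z y => ‖k z y‖ₑ ^ 2) (hk.enorm.pow_const 2)
  have h1 : ∀ᵐ y ∂μ, ∫⁻ z, ‖k z y‖ₑ ^ 2 ∂ζ < ⊤ := ae_lt_top hm (by rw [hy_kk_swap μ ζ k hk]; exact hKK)
  filter_upwards [h1] with y hy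
  have hky : Measurable fun z => k z y := hk.comp measurable_prodMk_right
  refine ⟨((RCLike.continuous_conj.measurable.comp hky).stronglyMeasurable.smul hcm).aestronglyMeasurable, ?_⟩
  calc ∫⁻ z, ‖conj (k z y) • c z‖ₑ ∂ζ ≤ ∫⁻ z, (‖k z y‖ₑ ^ 2 + ‖c z‖ₑ ^ 2) ∂ζ := lintegral_mono fun z => by
        rw [enorm_smul, RCLike.enorm_conj]
        exact hy_mul_le_sq _ _
    _ = ∫⁻ z, ‖k z y‖ₑ ^ 2 ∂ζ + ∫⁻ z, ‖c z‖ₑ ^ 2 ∂ζ := lintegral_add_left (hky.enorm.pow_const 2) _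
    _ < ⊤ := ENNReal.add_lt_top.2 ⟨hy, hI.lt_top⟩

/-- **the pairing identity** (Fubini) -/
theorem hy_pair (k : Z → Y → ℂ) (hk : Measurable (Function.uncurry k)) (hk2 : ∀ z, MemLp (k z) 2 μ) (c : Z → E)
    (hcm : StronglyMeasurable c) (hI : ∫⁻ z, ‖c z‖ₑ ^ 2 ∂ζ ≠ ⊤) (hKK : ∫⁻ z, ∫⁻ y, ‖k z y‖ₑ ^ 2 ∂μ ∂ζ ≠ ⊤)
    (a : Y → E) (ham : StronglyMeasurable a) (ha : MemLp a 2 μ) :
    ∫ z, inner ℂ (c z) (∫ y, k z y • a y ∂μ) ∂ζ = ∫ y, inner ℂ (∫ z, conj (k z y) • c z ∂ζ) (a y) ∂μ := by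
  have hA := hy_lint_of_memLp μ a ha
  have hFm : StronglyMeasurable (Function.uncurry fun z y => k z y * inner ℂ (c z) (a y)) :=
    hk.stronglyMeasurable.mul ((hcm.comp_measurable measurable_fst).inner (ham.comp_measurable measurable_snd))
  have hFint : Integrable (Function.uncurry fun z y => k z y * inner ℂ (c z) (a y)) (ζ.prod μ) := by
    refine ⟨hFm.aestronglyMeasurable, ?_⟩
    rw [HasFiniteIntegral, lintegral_prod _ hFm.enorm.aemeasurable]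
    calc ∫⁻ z, ∫⁻ y, ‖k z y * inner ℂ (c z) (a y)‖ₑ ∂μ ∂ζ
        ≤ ∫⁻ z, (∫⁻ y, ‖k z y‖ₑ ^ 2 ∂μ + ‖c z‖ₑ ^ 2 * ∫⁻ y, ‖a y‖ₑ ^ 2 ∂μ) ∂ζ := lintegral_mono fun z => by
          have hkz : Measurable (k z) := hk.comp measurable_prodMk_left
          calc ∫⁻ y, ‖k z y * inner ℂ (c z) (a y)‖ₑ ∂μ ≤ ∫⁻ y, (‖k z y‖ₑ ^ 2 + ‖c z‖ₑ ^ 2 * ‖a y‖ₑ ^ 2) ∂μ :=
                lintegral_mono fun y => by
                  rw [enorm_mul, ← mul_pow]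
                  exact (mul_le_mul_right (hy_enorm_inner _ _) _).trans (hy_mul_le_sq _ _)
            _ = _ := by
                rw [lintegral_add_left (hkz.enorm.pow_const 2), lintegral_const_mul _ (ham.enorm.pow_const 2)]
      _ = ∫⁻ z, ∫⁻ y, ‖k z y‖ₑ ^ 2 ∂μ ∂ζ + (∫⁻ z, ‖c z‖ₑ ^ 2 ∂ζ) * ∫⁻ y, ‖a y‖ₑ ^ 2 ∂μ := by
          rw [lintegral_add_right _ ((hcm.enorm.pow_const 2).mul_const _), lintegral_mul_const _ (hcm.enorm.pow_const 2)]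
      _ < ⊤ := ENNReal.add_lt_top.2 ⟨hKK.lt_top, ENNReal.mul_lt_top hI.lt_top hA.lt_top⟩
  calc ∫ z, inner ℂ (c z) (∫ y, k z y • a y ∂μ) ∂ζ = ∫ z, ∫ y, k z y * inner ℂ (c z) (a y) ∂μ ∂ζ := by
        refine integral_congr_ae (ae_of_all _ fun z => ?_)
        show inner ℂ (c z) (∫ y, k z y • a y ∂μ) = _
        rw [← integral_inner (hy_integrable_smul μ (k z) a (hk2 z) ha) (c z)]
        simp only [inner_smul_right]
    _ = ∫ y, ∫ z, k z y * inner ℂ (c z) (a y) ∂ζ ∂μ := integral_integral_swap hFint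
    _ = ∫ y, inner ℂ (∫ z, conj (k z y) • c z ∂ζ) (a y) ∂μ := by
        refine integral_congr_ae ?_
        filter_upwards [hy_b_int μ ζ k hk c hcm hI hKK] with y hy
        rw [← inner_conj_symm, ← integral_inner hy, ← integral_conj]
        refine integral_congr_ae (ae_of_all _ fun z => ?_)
        show _ = conj (inner ℂ (a y) (conj (k z y) • c z))
        rw [inner_conj_symm, inner_smul_left, RCLike.conj_conj]


/-- the adjoint function is strongly measurable -/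
theorem hy_b_meas (k : Z → Y → ℂ) (hk : Measurable (Function.uncurry k)) (c : Z → E) (hcm : StronglyMeasurable c) :
    StronglyMeasurable fun y => ∫ z, conj (k z y) • c z ∂ζ := by
  refine StronglyMeasurable.integral_prod_left (f := fun z y => conj (k z y) • c z) ?_
  exact (RCLike.continuous_conj.measurable.comp hk).stronglyMeasurable.smul (hcm.comp_measurable measurable_fst)

/-- the adjoint function is square integrable -/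
theorem hy_b_sq (k : Z → Y → ℂ) (hk : Measurable (Function.uncurry k)) (c : Z → E) (hcm : StronglyMeasurable c) :
    ∫⁻ y, ‖∫ z, conj (k z y) • c z ∂ζ‖ₑ ^ 2 ∂μ ≤ (∫⁻ z, ∫⁻ y, ‖k z y‖ₑ ^ 2 ∂μ ∂ζ) * ∫⁻ z, ‖c z‖ₑ ^ 2 ∂ζ := by
  have hm : Measurable fun y => ∫⁻ z, ‖k z y‖ₑ ^ 2 ∂ζ :=
    Measurable.lintegral_prod_left (f := fun z y => ‖k z y‖ₑ ^ 2) (hk.enorm.pow_const 2)
  calc ∫⁻ y, ‖∫ z, conj (k z y) • c z ∂ζ‖ₑ ^ 2 ∂μ ≤ ∫⁻ y, (∫⁻ z, ‖k z y‖ₑ ^ 2 ∂ζ) * ∫⁻ z, ‖c z‖ₑ ^ 2 ∂ζ ∂μ :=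
        lintegral_mono fun y => by
          have hky : Measurable fun z => k z y := hk.comp measurable_prodMk_right
          have h1 : ‖∫ z, conj (k z y) • c z ∂ζ‖ₑ ≤ ∫⁻ z, ‖k z y‖ₑ * ‖c z‖ₑ ∂ζ :=
            (enorm_integral_le_lintegral_enorm _).trans (le_of_eq (lintegral_congr fun z => by
              rw [enorm_smul, RCLike.enorm_conj]))
          calc ‖∫ z, conj (k z y) • c z ∂ζ‖ₑ ^ 2 ≤ (∫⁻ z, ‖k z y‖ₑ * ‖c z‖ₑ ∂ζ) ^ 2 := by gcongr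
            _ ≤ _ := hy_lcs ζ hky.enorm.aemeasurable hcm.enorm.aemeasurable
    _ = (∫⁻ y, ∫⁻ z, ‖k z y‖ₑ ^ 2 ∂ζ ∂μ) * ∫⁻ z, ‖c z‖ₑ ^ 2 ∂ζ := lintegral_mul_const _ hm
    _ = _ := by rw [hy_kk_swap μ ζ k hk]

/-- `T T*` is the integral operator with the Gram kernel (Fubini) -/
theorem hy_Tb (k : Z → Y → ℂ) (hk : Measurable (Function.uncurry k)) (hk2 : ∀ z, MemLp (k z) 2 μ) (c : Z → E)
    (hcm : StronglyMeasurable c) (hI : ∫⁻ z, ‖c z‖ₑ ^ 2 ∂ζ ≠ ⊤) (hKK : ∫⁻ z, ∫⁻ y, ‖k z y‖ₑ ^ 2 ∂μ ∂ζ ≠ ⊤) (z : Z) :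
    ∫ y, k z y • ∫ z', conj (k z' y) • c z' ∂ζ ∂μ = ∫ z', (∫ y, k z y * conj (k z' y) ∂μ) • c z' ∂ζ := by
  have hkz : Measurable (k z) := hk.comp measurable_prodMk_left
  have hK := hy_lint_of_memLp μ (k z) (hk2 z)
  have hHm : StronglyMeasurable (Function.uncurry fun y z' => (k z y * conj (k z' y)) • c z') :=
    ((hkz.comp measurable_fst).mul (RCLike.continuous_conj.measurable.comp (hk.comp measurable_swap))).stronglyMeasurable.smul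
      (hcm.comp_measurable measurable_snd)
  have hHint : Integrable (Function.uncurry fun y z' => (k z y * conj (k z' y)) • c z') (μ.prod ζ) := by
    refine ⟨hHm.aestronglyMeasurable, ?_⟩
    rw [HasFiniteIntegral, lintegral_prod _ hHm.enorm.aemeasurable]
    have hm : Measurable fun y => ∫⁻ z, ‖k z y‖ₑ ^ 2 ∂ζ :=
      Measurable.lintegral_prod_left (f := fun z y => ‖k z y‖ₑ ^ 2) (hk.enorm.pow_const 2)
    calc ∫⁻ y, ∫⁻ z', ‖(k z y * conj (k z' y)) • c z'‖ₑ ∂ζ ∂μ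
        ≤ ∫⁻ y, (∫⁻ z', ‖k z' y‖ₑ ^ 2 ∂ζ + ‖k z y‖ₑ ^ 2 * ∫⁻ z', ‖c z'‖ₑ ^ 2 ∂ζ) ∂μ := lintegral_mono fun y => by
          have hky : Measurable fun z => k z y := hk.comp measurable_prodMk_right
          calc ∫⁻ z', ‖(k z y * conj (k z' y)) • c z'‖ₑ ∂ζ ≤ ∫⁻ z', (‖k z' y‖ₑ ^ 2 + ‖k z y‖ₑ ^ 2 * ‖c z'‖ₑ ^ 2) ∂ζ :=
                lintegral_mono fun z' => by
                  rw [enorm_smul, enorm_mul, RCLike.enorm_conj, ← mul_pow, mul_comm ‖k z y‖ₑ, mul_assoc]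
                  exact hy_mul_le_sq _ _
            _ = _ := by
                rw [lintegral_add_left (hky.enorm.pow_const 2), lintegral_const_mul _ (hcm.enorm.pow_const 2)]
      _ = ∫⁻ y, ∫⁻ z', ‖k z' y‖ₑ ^ 2 ∂ζ ∂μ + (∫⁻ y, ‖k z y‖ₑ ^ 2 ∂μ) * ∫⁻ z', ‖c z'‖ₑ ^ 2 ∂ζ := by
          rw [lintegral_add_left hm, lintegral_mul_const _ (hkz.enorm.pow_const 2)]
      _ < ⊤ := by
          rw [hy_kk_swap μ ζ k hk]
          exact ENNReal.add_lt_top.2 ⟨hKK.lt_top, ENNReal.mul_lt_top hK.lt_top hI.lt_top⟩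
  calc ∫ y, k z y • ∫ z', conj (k z' y) • c z' ∂ζ ∂μ = ∫ y, ∫ z', (k z y * conj (k z' y)) • c z' ∂ζ ∂μ := by
        refine integral_congr_ae (ae_of_all _ fun y => ?_)
        show k z y • ∫ z', conj (k z' y) • c z' ∂ζ = _
        rw [← integral_smul]
        simp only [smul_smul]
    _ = ∫ z', ∫ y, (k z y * conj (k z' y)) • c z' ∂μ ∂ζ := integral_integral_swap hHint
    _ = ∫ z', (∫ y, k z y * conj (k z' y) ∂μ) • c z' ∂ζ := by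
        refine integral_congr_ae (ae_of_all _ fun z' => ?_)
        exact integral_smul_const _ _

omit [SigmaFinite ζ] in
theorem hy_gram_meas (k : Z → Y → ℂ) (hk : Measurable (Function.uncurry k)) :
    Measurable (Function.uncurry fun z z' => ∫ y, k z y * conj (k z' y) ∂μ) := by
  have h : StronglyMeasurable fun q : (Z × Z) × Y => k q.1.1 q.2 * conj (k q.1.2 q.2) :=
    ((hk.comp (measurable_fst.fst.prodMk measurable_snd)).mul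
      (RCLike.continuous_conj.measurable.comp (hk.comp (measurable_fst.snd.prodMk measurable_snd)))).stronglyMeasurable
  exact h.integral_prod_right'.measurable

omit [SigmaFinite μ] [SigmaFinite ζ] in
theorem hy_gram_symm (k : Z → Y → ℂ) (z z' : Z) :
    ‖∫ y, k z y * conj (k z' y) ∂μ‖ₑ = ‖∫ y, k z' y * conj (k z y) ∂μ‖ₑ := by
  rw [← RCLike.enorm_conj, ← integral_conj]
  congr 2
  funext y
  rw [map_mul, RCLike.conj_conj, mul_comm]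

/-- **the core**: Bessel when everything is finite -/
theorem hy_bessel_core (k : Z → Y → ℂ) (hk : Measurable (Function.uncurry k)) (hk2 : ∀ z, MemLp (k z) 2 μ) (L : ℝ≥0∞)
    (hG : ∀ z, ∫⁻ z', ‖∫ y, k z y * conj (k z' y) ∂μ‖ₑ ∂ζ ≤ L) (a : Y → E) (ham : StronglyMeasurable a) (ha : MemLp a 2 μ)
    (hI : ∫⁻ z, ‖∫ y, k z y • a y ∂μ‖ₑ ^ 2 ∂ζ ≠ ⊤) (hKK : ∫⁻ z, ∫⁻ y, ‖k z y‖ₑ ^ 2 ∂μ ∂ζ ≠ ⊤) :
    ∫⁻ z, ‖∫ y, k z y • a y ∂μ‖ₑ ^ 2 ∂ζ ≤ L * ∫⁻ y, ‖a y‖ₑ ^ 2 ∂μ := by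
  have hcm : StronglyMeasurable fun z => ∫ y, k z y • a y ∂μ :=
    StronglyMeasurable.integral_prod_right (f := fun z y => k z y • a y)
      (hk.stronglyMeasurable.smul (ham.comp_measurable measurable_snd))
  generalize hc : (fun z => ∫ y, k z y • a y ∂μ) = c at hcm
  have hc' : ∀ z, ∫ y, k z y • a y ∂μ = c z := fun z => congrFun hc z
  simp only [hc'] at hI ⊢
  have hcL : MemLp c 2 ζ := hy_memLp_two ζ c hcm.aestronglyMeasurable hI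
  have hbm := hy_b_meas ζ k hk c hcm
  have hbsq := hy_b_sq μ ζ k hk c hcm
  have hB : ∫⁻ y, ‖∫ z, conj (k z y) • c z ∂ζ‖ₑ ^ 2 ∂μ ≠ ⊤ :=
    (hbsq.trans_lt (ENNReal.mul_lt_top hKK.lt_top hI.lt_top)).ne
  have hbL : MemLp (fun y => ∫ z, conj (k z y) • c z ∂ζ) 2 μ := hy_memLp_two μ _ hbm.aestronglyMeasurable hB
  have p1 := hy_pair μ ζ k hk hk2 c hcm hI hKK a ham ha
  have p2 := hy_pair μ ζ k hk hk2 c hcm hI hKK _ hbm hbL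
  simp only [hc'] at p1
  -- first inequality
  have h1 : (∫⁻ z, ‖c z‖ₑ ^ 2 ∂ζ) ^ 2 ≤ (∫⁻ y, ‖∫ z, conj (k z y) • c z ∂ζ‖ₑ ^ 2 ∂μ) * ∫⁻ y, ‖a y‖ₑ ^ 2 ∂μ := by
    rw [← hy_enorm_self ζ c hcL, p1]
    exact hy_pair_cs μ _ a hbm.aestronglyMeasurable ham.aestronglyMeasurable
  -- second inequality
  have hTb : ∀ z, ∫ y, k z y • ∫ z', conj (k z' y) • c z' ∂ζ ∂μ = ∫ z', (∫ y, k z y * conj (k z' y) ∂μ) • c z' ∂ζ :=
    hy_Tb μ ζ k hk hk2 c hcm hI hKK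
  have hsch := hy_schur ζ ζ (fun z z' => ∫ y, k z y * conj (k z' y) ∂μ) (hy_gram_meas μ k hk) c hcm.aestronglyMeasurable L L hG
    (fun z' => by
      simp only [hy_gram_symm μ k _ z']
      exact hG z')
  have hTm : AEStronglyMeasurable (fun z => ∫ y, k z y • ∫ z', conj (k z' y) • c z' ∂ζ ∂μ) ζ :=
    (StronglyMeasurable.integral_prod_right (f := fun z y => k z y • ∫ z', conj (k z' y) • c z' ∂ζ)
      (hk.stronglyMeasurable.smul (hbm.comp_measurable measurable_snd))).aestronglyMeasurable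
  have h2 : (∫⁻ y, ‖∫ z, conj (k z y) • c z ∂ζ‖ₑ ^ 2 ∂μ) ^ 2 ≤ (L * ∫⁻ z, ‖c z‖ₑ ^ 2 ∂ζ) ^ 2 := by
    rw [← hy_enorm_self μ _ hbL, ← p2]
    refine (hy_pair_cs ζ c _ hcm.aestronglyMeasurable hTm).trans ?_
    simp only [hTb]
    calc (∫⁻ z, ‖c z‖ₑ ^ 2 ∂ζ) * ∫⁻ z, ‖∫ z', (∫ y, k z y * conj (k z' y) ∂μ) • c z' ∂ζ‖ₑ ^ 2 ∂ζ
        ≤ (∫⁻ z, ‖c z‖ₑ ^ 2 ∂ζ) * (L * L * ∫⁻ z, ‖c z‖ₑ ^ 2 ∂ζ) := by gcongr
      _ = (L * ∫⁻ z, ‖c z‖ₑ ^ 2 ∂ζ) ^ 2 := by ring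
  have h3 := (ENNReal.pow_le_pow_left_iff two_ne_zero).1 h2
  generalize (∫⁻ z, ‖c z‖ₑ ^ 2 ∂ζ) = I at *
  generalize (∫⁻ y, ‖∫ z, conj (k z y) • c z ∂ζ‖ₑ ^ 2 ∂μ) = B at *
  generalize (∫⁻ y, ‖a y‖ₑ ^ 2 ∂μ) = A at *
  by_cases hI0 : I = 0
  · rw [hI0]; exact zero_le
  · have h4 : I * I ≤ I * (L * A) := by
      calc I * I = I ^ 2 := (sq I).symm
        _ ≤ B * A := h1
        _ ≤ L * I * A := by gcongr
        _ = I * (L * A) := by ring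
    exact (ENNReal.mul_le_mul_iff_right hI0 hI).1 h4

end Bessel


/-- **(S3) BESSEL FROM GRAM-SCHUR.**
PLAN.  `c z := ∫ k z y • a y`.  Exhaust `Z` by measurable sets `Z_n` of finite measure on which `‖c‖ ≤ n` and `‖k z‖_{L²} ≤ n`; `c_n = 1_{Z_n} c`; `b y := ∫ conj (k z y) • c_n z dζ`.
(i) `∫ ‖c_n‖² = ∫_z ⟪c_n z, c z⟫ = ∫_y ⟪b y, a y⟫ ≤ ‖b‖ ‖a‖` (Fubini: `∫_{Z_n} ∫ |k| ‖c_n‖ ‖a‖ ≤ n² ζ(Z_n) ‖a‖`);
(ii) `‖b‖² = ∫∫ g(z,z') ⟪..⟫ ≤ ∫∫ |g| (‖c_n z‖² + ‖c_n z'‖²)/2 ≤ L ∫ ‖c_n‖²` (`|g(z,z')| = |g(z',z)|`; Fubini: `∫_y (∫_{Z_n} |k| n)² ≤ n⁴ ζ(Z_n)²`);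
(iii) hence `∫ ‖c_n‖² ≤ L ‖a‖²`; monotone convergence.   ~400 l. -/
theorem hy_bessel {Y Z : Type*} [MeasurableSpace Y] [MeasurableSpace Z] (μ : Measure Y) (ζ : Measure Z) [SigmaFinite μ] [SigmaFinite ζ]
    {E : Type*} [NormedAddCommGroup E] [InnerProductSpace ℂ E] [CompleteSpace E]
    (k : Z → Y → ℂ) (hk : Measurable (Function.uncurry k)) (hk2 : ∀ z, MemLp (k z) 2 μ) (L : ℝ≥0∞)
    (hG : ∀ z, ∫⁻ z', ‖∫ y, k z y * conj (k z' y) ∂μ‖ₑ ∂ζ ≤ L) (a : Y → E) (ha : MemLp a 2 μ) :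
    ∫⁻ z, ‖∫ y, k z y • a y ∂μ‖ₑ ^ 2 ∂ζ ≤ L * ∫⁻ y, ‖a y‖ₑ ^ 2 ∂μ := by
  -- a strongly measurable representative
  have hae : a =ᵐ[μ] ha.1.mk a := ha.1.ae_eq_mk
  have ham : StronglyMeasurable (ha.1.mk a) := ha.1.stronglyMeasurable_mk
  have ha' : MemLp (ha.1.mk a) 2 μ := (memLp_congr_ae hae).1 ha
  have e1 : ∀ z, ∫ y, k z y • a y ∂μ = ∫ y, k z y • ha.1.mk a y ∂μ := fun z =>
    integral_congr_ae (hae.mono fun y hy => by simp only [hy])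
  have e2 : ∫⁻ y, ‖a y‖ₑ ^ 2 ∂μ = ∫⁻ y, ‖ha.1.mk a y‖ₑ ^ 2 ∂μ :=
    lintegral_congr_ae (hae.mono fun y hy => by simp only [hy])
  simp only [e1]
  rw [e2]
  generalize ha.1.mk a = a' at ham ha'
  have hcm : StronglyMeasurable fun z => ∫ y, k z y • a' y ∂μ :=
    StronglyMeasurable.integral_prod_right (f := fun z y => k z y • a' y)
      (hk.stronglyMeasurable.smul (ham.comp_measurable measurable_snd))
  have hkm : Measurable fun z => ∫⁻ y, ‖k z y‖ₑ ^ 2 ∂μ :=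
    Measurable.lintegral_prod_right (f := fun z y => ‖k z y‖ₑ ^ 2) (hk.enorm.pow_const 2)
  let S : ℕ → Set Z := fun n => spanningSets ζ n ∩ ({z | ‖∫ y, k z y • a' y ∂μ‖ₑ ≤ n} ∩ {z | ∫⁻ y, ‖k z y‖ₑ ^ 2 ∂μ ≤ n})
  have hSm : ∀ n, MeasurableSet (S n) := fun n =>
    (measurableSet_spanningSets ζ n).inter ((measurableSet_le hcm.enorm measurable_const).inter (measurableSet_le hkm measurable_const))
  have hSmono : Monotone S := by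
    intro n m hnm z hz
    have hc : (n : ℝ≥0∞) ≤ m := by exact_mod_cast hnm
    exact ⟨monotone_spanningSets ζ hnm hz.1, hz.2.1.trans hc, hz.2.2.trans hc⟩
  have hSU : ⋃ n, S n = Set.univ := by
    refine Set.eq_univ_of_forall fun z => ?_
    obtain ⟨n1, h1⟩ := Set.mem_iUnion.1 ((iUnion_spanningSets ζ).symm ▸ Set.mem_univ z : z ∈ ⋃ n, spanningSets ζ n)
    obtain ⟨n2, h2⟩ := ENNReal.exists_nat_gt (enorm_ne_top (x := ∫ y, k z y • a' y ∂μ))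
    obtain ⟨n3, h3⟩ := ENNReal.exists_nat_gt (hy_lint_of_memLp μ (k z) (hk2 z))
    refine Set.mem_iUnion.2 ⟨max n1 (max n2 n3), monotone_spanningSets ζ (le_max_left _ _) h1, ?_, ?_⟩
    · exact h2.le.trans (by exact_mod_cast (le_max_left n2 n3).trans (le_max_right n1 _))
    · exact h3.le.trans (by exact_mod_cast (le_max_right n2 n3).trans (le_max_right n1 _))
  have hfin : ∀ n, ζ (S n) < ⊤ := fun n => (measure_mono Set.inter_subset_left).trans_lt (measure_spanningSets_lt_top ζ n)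
  have key : ∀ n, ∫⁻ z in S n, ‖∫ y, k z y • a' y ∂μ‖ₑ ^ 2 ∂ζ ≤ L * ∫⁻ y, ‖a' y‖ₑ ^ 2 ∂μ := by
    intro n
    refine hy_bessel_core μ (ζ.restrict (S n)) k hk hk2 L (fun z => (setLIntegral_le_lintegral _ _).trans (hG z)) a' ham ha' ?_ ?_
    · refine ne_of_lt ?_
      calc ∫⁻ z in S n, ‖∫ y, k z y • a' y ∂μ‖ₑ ^ 2 ∂ζ ≤ ∫⁻ _z in S n, (n : ℝ≥0∞) ^ 2 ∂ζ :=
            setLIntegral_mono' (hSm n) fun z hz => by
              have h5 : ‖∫ y, k z y • a' y ∂μ‖ₑ ≤ (n : ℝ≥0∞) := hz.2.1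
              gcongr
        _ = (n : ℝ≥0∞) ^ 2 * ζ (S n) := setLIntegral_const _ _
        _ < ⊤ := ENNReal.mul_lt_top (ENNReal.pow_lt_top (ENNReal.natCast_lt_top n)) (hfin n)
    · refine ne_of_lt ?_
      calc ∫⁻ z in S n, ∫⁻ y, ‖k z y‖ₑ ^ 2 ∂μ ∂ζ ≤ ∫⁻ _z in S n, (n : ℝ≥0∞) ∂ζ :=
            setLIntegral_mono' (hSm n) fun z hz => hz.2.2
        _ = (n : ℝ≥0∞) * ζ (S n) := setLIntegral_const _ _
        _ < ⊤ := ENNReal.mul_lt_top (ENNReal.natCast_lt_top n) (hfin n)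
  calc ∫⁻ z, ‖∫ y, k z y • a' y ∂μ‖ₑ ^ 2 ∂ζ = ∫⁻ z in ⋃ n, S n, ‖∫ y, k z y • a' y ∂μ‖ₑ ^ 2 ∂ζ := by
        rw [hSU, setLIntegral_univ]
    _ = ⨆ n, ∫⁻ z in S n, ‖∫ y, k z y • a' y ∂μ‖ₑ ^ 2 ∂ζ :=
        setLIntegral_iUnion_of_directed _ (directed_of_isDirected_le hSmono)
    _ ≤ L * ∫⁻ y, ‖a' y‖ₑ ^ 2 ∂μ := iSup_le key

/-- the Hilbert tensor square -/
abbrev HyT (E : Type) [NormedAddCommGroup E] [InnerProductSpace ℂ E] : Type := UniformSpace.Completion (E ⊗[ℂ] E)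

/-- **(S4)** the bounded bilinear map `u, v ↦ u ⊗ v` with `‖u ⊗ v‖ = ‖u‖ ‖v‖`.   `TensorProduct.mk` + `LinearMap.mkContinuous₂` + `UniformSpace.Completion.toComplL`; `TensorProduct.norm_tmul`.  ~80 l. -/
theorem hy_ten_exists (E : Type) [NormedAddCommGroup E] [InnerProductSpace ℂ E] :
    ∃ B : E →L[ℂ] E →L[ℂ] HyT E, ∀ u v, ‖B u v‖ = ‖u‖ * ‖v‖ := by
  refine ⟨((ContinuousLinearMap.compL ℂ E (E ⊗[ℂ] E) (HyT E)) UniformSpace.Completion.toComplL).comp (TensorProduct.mkL ℂ E E), fun u v => ?_⟩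
  show ‖((u ⊗ₜ[ℂ] v : E ⊗[ℂ] E) : HyT E)‖ = ‖u‖ * ‖v‖
  rw [UniformSpace.Completion.norm_coe, TensorProduct.norm_tmul]

/-- the tensor map -/
noncomputable def hyTen (E : Type) [NormedAddCommGroup E] [InnerProductSpace ℂ E] : E →L[ℂ] E →L[ℂ] HyT E :=
  (hy_ten_exists E).choose

theorem hy_ten_norm {E : Type} [NormedAddCommGroup E] [InnerProductSpace ℂ E] (u v : E) : ‖hyTen E u v‖ = ‖u‖ * ‖v‖ :=
  (hy_ten_exists E).choose_spec u v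

theorem hy_tool_eqns_cite : True := by
  have := @hyTen.eq_1
  trivial

end Claimed.Agent.R256
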