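import Claimed.Agent.R256.Hyb.Ker
import Claimed.Agent.R256.Hyb.Tool

/-!
# Row 256, unit HYB, file 3b: PLANCHEREL AND THE FIBRE ISOMETRY (leaf L-256-HYB-K6)      (helper298; prefix `hy_k6_`)      no sorry
* `hy_k6_plancherel`   Plancherel for `L¹ ∩ L²`, Hilbert space valued, `lintegral` form (from `Lp.fourier_toTemperedDistribution_eq`, `Lp.norm_fourier_eq`)
* `hy_k6_row_four`     the rows are a Fourier transform in `D` of `pk T k (0,N) • g`
* `hy_k6_gauss`        `∫ ‖pk T k (0,N) u‖² dN = H/σ`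
* `hy_k6_row_meas`, `hy_k6_row_iso`    = `hy_row_meas`, `hy_row_iso` of `Hyb/Iso.lean`
-/

set_option autoImplicit false

namespace Claimed.Agent.R256

open MeasureTheory
open scoped ENNReal ComplexConjugate FourierTransform SchwartzMap ContDiff

variable {E : Type} [NormedAddCommGroup E] [InnerProductSpace ℂ E] [CompleteSpace E]

theorem hy_k6_flip {g : ℝ → E} (h1 : Integrable g) (φ : 𝓢(ℝ, ℂ)) :
    ∫ ξ, (𝓕 φ) ξ • g ξ = ∫ x, φ x • 𝓕 g x := by
  simpa using! VectorFourier.integral_bilin_fourierIntegral_eq_flip (ContinuousLinearMap.lsmul ℂ ℂ : ℂ →L[ℂ] E →L[ℂ] E) (L := innerₗ ℝ)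
    Real.continuous_fourierChar continuous_inner φ.integrable h1

theorem hy_k6_fcont {g : ℝ → E} (h1 : Integrable g) : Continuous (𝓕 g) :=
  VectorFourier.fourierIntegral_continuous Real.continuous_fourierChar (L := innerₗ ℝ) continuous_inner h1

theorem hy_k6_ae {g : ℝ → E} (h1 : Integrable g) (h2 : MemLp g 2 volume) :
    ((𝓕 (h2.toLp g) : Lp E 2 (volume : Measure ℝ)) : ℝ → E) =ᵐ[volume] 𝓕 g := by
  set G := h2.toLp g with hG
  set H : Lp E 2 (volume : Measure ℝ) := 𝓕 G with hH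
  have hcont : Continuous (𝓕 g) := hy_k6_fcont h1
  have hHl : LocallyIntegrable (H : ℝ → E) volume := (Lp.memLp H).locallyIntegrable (by norm_num)
  have key : ∀ φ : 𝓢(ℝ, ℂ), ∫ x, φ x • (H : ℝ → E) x = ∫ x, φ x • 𝓕 g x := by
    intro φ
    have e1 := congrArg (fun T : 𝓢'(ℝ, E) => T φ) (Lp.fourier_toTemperedDistribution_eq G)
    simp only [TemperedDistribution.fourier_apply, Lp.toTemperedDistribution_apply] at e1
    rw [← hH] at e1
    rw [← e1, ← hy_k6_flip h1 φ]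
    refine integral_congr_ae ?_
    filter_upwards [h2.coeFn_toLp] with x hx
    rw [hx]
  have hz : ∀ᵐ x ∂(volume : Measure ℝ), (H : ℝ → E) x - 𝓕 g x = 0 := by
    apply ae_eq_zero_of_integral_contDiff_smul_eq_zero
    · exact hHl.sub hcont.locallyIntegrable
    · intro u u_smooth u_cpt
      have hg₁ : HasCompactSupport (Complex.ofRealCLM ∘ u) := u_cpt.comp_left rfl
      have hg₂ : ContDiff ℝ ∞ (Complex.ofRealCLM ∘ u) := by fun_prop
      have hk := key (hg₁.toSchwartzMap hg₂)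
      have i1 : Integrable (fun x => u x • (H : ℝ → E) x) :=
        hHl.integrable_smul_left_of_hasCompactSupport u_smooth.continuous u_cpt
      have i2 : Integrable (fun x => u x • 𝓕 g x) :=
        hcont.locallyIntegrable.integrable_smul_left_of_hasCompactSupport u_smooth.continuous u_cpt
      simp only [smul_sub]
      rw [integral_sub i1 i2, sub_eq_zero]
      simpa using hk
  filter_upwards [hz] with x hx
  exact sub_eq_zero.1 hx

/-- **Plancherel for `L¹ ∩ L²`, Hilbert space valued, `lintegral` form** -/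
theorem hy_k6_plancherel {g : ℝ → E} (h1 : Integrable g) (h2 : MemLp g 2 volume) :
    ∫⁻ ξ, ‖𝓕 g ξ‖ₑ ^ 2 = ∫⁻ x, ‖g x‖ₑ ^ 2 := by
  have hae := hy_k6_ae h1 h2
  have hn := Lp.norm_fourier_eq (h2.toLp g)
  have a1 : eLpNorm (𝓕 g) 2 volume = eLpNorm g 2 volume := by
    rw [← eLpNorm_congr_ae hae, ← eLpNorm_congr_ae h2.coeFn_toLp, ← Lp.enorm_def, ← Lp.enorm_def, ← ofReal_norm, ← ofReal_norm, hn]
  rw [eLpNorm_eq_lintegral_rpow_enorm_toReal (by norm_num) (by norm_num), eLpNorm_eq_lintegral_rpow_enorm_toReal (by norm_num) (by norm_num)] at a1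
  have a2 := ENNReal.rpow_left_injective (by norm_num : (1 / (2 : ℝ≥0∞).toReal) ≠ 0) a1
  simpa using a2

theorem hy_k6_split (φ : HyF) (T : ℝ) (k : ℕ) (D N u : ℝ) :
    φ.pk T k (D, N) u = Complex.exp (Complex.I * (((u - φ.sg * N / φ.H) * D : ℝ) : ℂ)) * φ.pk T k (0, N) u := by
  unfold HyF.pk
  simp only
  rw [mul_left_comm, ← Complex.exp_add]
  congr 2
  push_cast
  ring

theorem hy_k6_row_meas (φ : HyF) (T : ℝ) (k : ℕ) (g : ℝ → E) (hg : AEStronglyMeasurable g volume) : StronglyMeasurable (φ.row T k g) := by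
  have e : φ.row T k g = fun ρ => ∫ u, φ.pk T k ρ u • hg.mk g u := by
    funext ρ
    unfold HyF.row
    refine integral_congr_ae ?_
    filter_upwards [hg.ae_eq_mk] with u hu
    rw [hu]
  rw [e]
  refine StronglyMeasurable.integral_prod_right (f := fun ρ u => φ.pk T k ρ u • hg.mk g u) ?_
  exact (hy_pk_cont φ T k).stronglyMeasurable.smul (hg.stronglyMeasurable_mk.comp_measurable measurable_snd)

/-- the rows are a Fourier transform in `D` -/
theorem hy_k6_row_four (φ : HyF) (T : ℝ) (k : ℕ) (g : ℝ → E) (D N : ℝ) :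
    ‖φ.row T k g (D, N)‖ₑ = ‖𝓕 (fun u => φ.pk T k (0, N) u • g u) (-(2 * Real.pi)⁻¹ * D)‖ₑ := by
  have e : φ.row T k g (D, N) = Complex.exp (Complex.I * ((-(φ.sg * N / φ.H * D) : ℝ) : ℂ)) •
      𝓕 (fun u => φ.pk T k (0, N) u • g u) (-(2 * Real.pi)⁻¹ * D) := by
    unfold HyF.row
    rw [Real.fourier_real_eq_integral_exp_smul, ← integral_smul]
    refine integral_congr_ae (Filter.Eventually.of_forall fun u => ?_)
    simp only
    rw [hy_k6_split, smul_smul, smul_smul, ← mul_assoc, ← Complex.exp_add]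
    congr 3
    push_cast
    have hpi : (Real.pi : ℂ) ≠ 0 := by exact_mod_cast Real.pi_ne_zero
    field_simp
    ring
  rw [e, enorm_smul]
  have h1 : ‖Complex.exp (Complex.I * ((-(φ.sg * N / φ.H * D) : ℝ) : ℂ))‖ₑ = 1 := by
    rw [← ofReal_norm, mul_comm, Complex.norm_exp_ofReal_mul_I, ENNReal.ofReal_one]
  rw [h1, one_mul]

theorem hy_k6_scale (F : ℝ → ℝ≥0∞) : ∫⁻ D : ℝ, F (-(2 * Real.pi)⁻¹ * D) = ENNReal.ofReal (2 * Real.pi) * ∫⁻ ξ, F ξ := by
  have ha : -(2 * Real.pi)⁻¹ ≠ 0 := by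
    have := Real.pi_pos
    exact neg_ne_zero.2 (inv_ne_zero (by positivity))
  have h1 := (Homeomorph.mulLeft₀ _ ha).measurableEmbedding.lintegral_map (μ := (volume : Measure ℝ)) F
  have h2 : Measure.map (⇑(Homeomorph.mulLeft₀ _ ha)) (volume : Measure ℝ) = ENNReal.ofReal (2 * Real.pi) • volume := by
    have := Real.map_volume_mul_left ha
    rw [inv_neg, inv_inv, abs_neg, abs_of_pos (by have := Real.pi_pos; positivity)] at this
    exact this
  rw [h2, lintegral_smul_measure, smul_eq_mul] at h1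
  rw [h1]
  rfl

theorem hy_k6_pk_cont2 (φ : HyF) (T : ℝ) (k : ℕ) : Continuous fun z : ℝ × ℝ => φ.pk T k (0, z.1) z.2 := by
  unfold HyF.pk
  fun_prop

theorem hy_k6_inner (φ : HyF) (h : φ.Ok) (T : ℝ) (k : ℕ) (g : ℝ → E) (hg : MemLp g 2 volume) (N : ℝ) :
    ∫⁻ D, ‖φ.row T k g (D, N)‖ₑ ^ 2 = ENNReal.ofReal (2 * Real.pi) * ∫⁻ u, ‖φ.pk T k (0, N) u‖ₑ ^ 2 * ‖g u‖ₑ ^ 2 := by
  have h1 : Integrable (fun u => φ.pk T k (0, N) u • g u) volume :=
    hy_integrable_smul volume (φ.pk T k (0, N)) g (hy_pk_memLp φ h T k (0, N)).1 hg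
  have h2 : MemLp (fun u => φ.pk T k (0, N) u • g u) 2 volume := by
    refine MemLp.of_le_mul (c := (φ.q k ^ 2 / Real.pi) ^ (1 / 4 : ℝ)) hg h1.aestronglyMeasurable (Filter.Eventually.of_forall fun u => ?_)
    rw [norm_smul, hy_pk_norm]
    refine mul_le_mul_of_nonneg_right ?_ (norm_nonneg _)
    refine mul_le_of_le_one_right (by positivity) (Real.exp_le_one_iff.2 ?_)
    have : 0 ≤ φ.q k ^ 2 * (u - φ.sg * ((0 : ℝ), N).2 / φ.H) ^ 2 / 2 := by positivity
    linarith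
  simp_rw [hy_k6_row_four]
  rw [hy_k6_scale (fun ξ => ‖𝓕 (fun u => φ.pk T k (0, N) u • g u) ξ‖ₑ ^ 2), hy_k6_plancherel h1 h2]
  simp_rw [enorm_smul, mul_pow]

theorem hy_k6_gauss (φ : HyF) (h : φ.Ok) (T : ℝ) (k : ℕ) (u : ℝ) :
    ∫⁻ N, ‖φ.pk T k (0, N) u‖ₑ ^ 2 = ENNReal.ofReal (φ.H / φ.sg) := by
  have hq := (hy_qd φ h k).1
  have hH := h.H_pos
  have hσ : 0 < φ.sg := by linarith [h.sg_lo]
  have hpi := Real.pi_pos
  have hq2 : 0 < φ.q k ^ 2 := by positivity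
  have e : ∀ N : ℝ, ‖φ.pk T k (0, N) u‖ₑ ^ 2
      = ENNReal.ofReal (Real.sqrt (φ.q k ^ 2 / Real.pi) * Real.exp (-(φ.q k ^ 2) * (u - φ.sg / φ.H * N) ^ 2)) := by
    intro N
    rw [← ofReal_norm, hy_pk_norm, ← ENNReal.ofReal_pow (by positivity), mul_pow, ← Real.exp_nat_mul, ← Real.rpow_natCast,
      ← Real.rpow_mul (by positivity), Real.sqrt_eq_rpow]
    congr 3
    · norm_num
    · push_cast
      field_simp
  simp_rw [e]
  have hi0 : Integrable (fun v : ℝ => Real.exp (-(φ.q k ^ 2) * (u - v) ^ 2)) volume :=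
    (integrable_exp_neg_mul_sq hq2).comp_sub_left u
  have hne : φ.sg / φ.H ≠ 0 := by positivity
  have hi : Integrable (fun N : ℝ => Real.sqrt (φ.q k ^ 2 / Real.pi) * Real.exp (-(φ.q k ^ 2) * (u - φ.sg / φ.H * N) ^ 2)) volume :=
    (hi0.comp_mul_left' hne).const_mul _
  rw [← ofReal_integral_eq_lintegral_ofReal hi (Filter.Eventually.of_forall fun N => by positivity)]
  congr 1
  rw [integral_const_mul, Measure.integral_comp_mul_left (fun v : ℝ => Real.exp (-(φ.q k ^ 2) * (u - v) ^ 2)) (φ.sg / φ.H),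
    integral_sub_left_eq_self (fun v : ℝ => Real.exp (-(φ.q k ^ 2) * v ^ 2)) volume u, integral_gaussian, smul_eq_mul,
    abs_of_pos (by positivity), mul_left_comm, ← Real.sqrt_mul (by positivity)]
  have e1 : φ.q k ^ 2 / Real.pi * (Real.pi / φ.q k ^ 2) = 1 := by field_simp
  rw [e1, Real.sqrt_one, mul_one, inv_div]

theorem hy_k6_iso_sm (φ : HyF) (h : φ.Ok) (T : ℝ) (k : ℕ) (g : ℝ → E) (hg : MemLp g 2 volume) (hgs : StronglyMeasurable g) :
    ∫⁻ ρ, ‖φ.row T k g ρ‖ₑ ^ 2 ∂φ.nu = ∫⁻ u, ‖g u‖ₑ ^ 2 := by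
  have hH := h.H_pos
  have hσ : 0 < φ.sg := by linarith [h.sg_lo]
  have hpi := Real.pi_pos
  have hm : Measurable fun ρ : ℝ × ℝ => ‖φ.row T k g ρ‖ₑ ^ 2 := (hy_k6_row_meas φ T k g hg.1).enorm.pow_const 2
  have hm2 : Measurable (Function.uncurry fun N u : ℝ => ‖φ.pk T k (0, N) u‖ₑ ^ 2 * ‖g u‖ₑ ^ 2) :=
    ((hy_k6_pk_cont2 φ T k).measurable.enorm.pow_const 2).mul ((hgs.enorm.comp measurable_snd).pow_const 2)
  have hm3 : ∀ u : ℝ, Measurable fun N : ℝ => ‖φ.pk T k (0, N) u‖ₑ ^ 2 := fun u =>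
    (((hy_k6_pk_cont2 φ T k).measurable.comp (measurable_id.prodMk measurable_const)).enorm.pow_const 2 :)
  unfold HyF.nu
  rw [lintegral_smul_measure, smul_eq_mul, Measure.volume_eq_prod, lintegral_prod_symm _ hm.aemeasurable]
  simp_rw [hy_k6_inner φ h T k g hg]
  rw [lintegral_const_mul' _ _ ENNReal.ofReal_ne_top, lintegral_lintegral_swap hm2.aemeasurable]
  simp_rw [lintegral_mul_const _ (hm3 _), hy_k6_gauss φ h T k]
  rw [lintegral_const_mul' _ _ ENNReal.ofReal_ne_top, ← mul_assoc, ← mul_assoc, ← ENNReal.ofReal_mul (by positivity),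
    ← ENNReal.ofReal_mul (by positivity)]
  have e : φ.sg / (2 * Real.pi * φ.H) * (2 * Real.pi) * (φ.H / φ.sg) = 1 := by field_simp
  rw [e, ENNReal.ofReal_one, one_mul]

theorem hy_k6_row_iso (φ : HyF) (h : φ.Ok) (T : ℝ) (k : ℕ) (g : ℝ → E) (hg : MemLp g 2 volume) :
    ∫⁻ ρ, ‖φ.row T k g ρ‖ₑ ^ 2 ∂φ.nu = ∫⁻ u, ‖g u‖ₑ ^ 2 := by
  have hae := hg.1.ae_eq_mk
  have e : φ.row T k g = φ.row T k (hg.1.mk g) := by
    funext ρ
    unfold HyF.row
    refine integral_congr_ae ?_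
    filter_upwards [hae] with u hu
    rw [hu]
  have e2 : ∫⁻ u, ‖g u‖ₑ ^ 2 = ∫⁻ u, ‖hg.1.mk g u‖ₑ ^ 2 := by
    refine lintegral_congr_ae ?_
    filter_upwards [hae] with u hu
    rw [hu]
  rw [e, e2]
  exact hy_k6_iso_sm φ h T k _ ((memLp_congr_ae hae).1 hg) hg.1.stronglyMeasurable_mk

end Claimed.Agent.R256
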