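import Claimed.Agent.R256.Hyb.Ker
import Claimed.Agent.R256.Hyb.Tool
import Claimed.Agent.R256.Hyb.Planch
import Claimed.Agent.R256.Hyb.Gau

/-!
# Row 256, unit HYB, file 4: FIBRE ISOMETRY, COMPOSITION LAW, CONTRACTION      (chief helper82; prefix `hy_`)      Base-free.

All statements in FUNCTION FORM (`lintegral`s of `‖·‖ₑ²`, honest functions, no `Lp` quotient): they are integrated over the exact index in `Hyb/Inst.lean`.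
-/

set_option autoImplicit false

namespace Claimed.Agent.R256

open MeasureTheory
open scoped ENNReal ComplexConjugate

variable {E : Type} [NormedAddCommGroup E] [InnerProductSpace ℂ E] [CompleteSpace E]

/-- **(K6) FIBRE ISOMETRY** `V^* V = 1` (02 l.59-68).
PLAN.  Fix `N`, `p0 = σN/H`, `h_N u = (q²/π)^(1/4) e^{-q²(u-p0)²/2} e^{-iTHu²/(2σ)} g u ∈ L¹ ∩ L²`.   `row ρ = e^{-i p0 D} ∫ e^{iuD} h_N u du`.   Plancherel in `D` (Mathlib: `MeasureTheory.Lp` Fourier transform on `L²`,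
`Real.fourierIntegral`, `norm_fourier_eq`-type statements for `L¹ ∩ L²`; or mollify by a Gaussian and use `integral_cexp_quadratic` + Fubini + dominated convergence): `∫ ‖row‖² dD = 2π ∫ ‖h_N‖² du`.
Then `∫ dN σ/(2πH) 2π (q²/π)^(1/2) e^{-q²(u-σN/H)²} = 1` and Tonelli.   ~500 l.  HARD. -/
theorem hy_row_iso (φ : HyF) (h : φ.Ok) (T : ℝ) (k : ℕ) (g : ℝ → E) (hg : MemLp g 2 volume) :
    ∫⁻ ρ, ‖φ.row T k g ρ‖ₑ ^ 2 ∂φ.nu = ∫⁻ u, ‖g u‖ₑ ^ 2 :=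
  hy_k6_row_iso φ h T k g hg

/-- measurability of the rows -/
theorem hy_row_meas (φ : HyF) (T : ℝ) (k : ℕ) (g : ℝ → E) (hg : AEStronglyMeasurable g volume) : StronglyMeasurable (φ.row T k g) :=
  hy_k6_row_meas φ T k g hg

/-! ### K8' : the polarised isometry -/

/-- `∫ ‖w‖² = (∫⁻ ‖w‖ₑ²).toReal` -/
theorem hy_int_sq {X : Type*} [MeasurableSpace X] (μ : Measure X) {E' : Type*} [NormedAddCommGroup E'] (w : X → E')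
    (hw : AEStronglyMeasurable w μ) : ∫ x, ‖w x‖ ^ 2 ∂μ = (∫⁻ x, ‖w x‖ₑ ^ 2 ∂μ).toReal := by
  rw [integral_eq_lintegral_of_nonneg_ae (Filter.Eventually.of_forall fun x => sq_nonneg _) (hw.norm.pow 2)]
  congr 1
  refine lintegral_congr fun x => ?_
  rw [ENNReal.ofReal_pow (norm_nonneg _), ofReal_norm]

/-- polarisation of `∫ ⟪w₁, w₂⟫` -/
theorem hy_polar {X : Type*} [MeasurableSpace X] (μ : Measure X) {E' : Type*} [NormedAddCommGroup E'] [InnerProductSpace ℂ E']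
    (w1 w2 : X → E') (h1 : MemLp w1 2 μ) (h2 : MemLp w2 2 μ) :
    ∫ x, inner ℂ (w1 x) (w2 x) ∂μ =
      ((((∫ x, ‖w1 x + (1 : ℂ) • w2 x‖ ^ 2 ∂μ : ℝ) : ℂ) - ((∫ x, ‖w1 x + (-1 : ℂ) • w2 x‖ ^ 2 ∂μ : ℝ) : ℂ)) +
        (((∫ x, ‖w1 x + (-Complex.I) • w2 x‖ ^ 2 ∂μ : ℝ) : ℂ) - ((∫ x, ‖w1 x + Complex.I • w2 x‖ ^ 2 ∂μ : ℝ) : ℂ)) * Complex.I) / 4 := by
  have hi : ∀ c : ℂ, Integrable (fun x => ((‖w1 x + c • w2 x‖ ^ 2 : ℝ) : ℂ)) μ := by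
    intro c
    have hm : MemLp (fun x => w1 x + c • w2 x) 2 μ := h1.add (h2.const_smul c)
    exact ((memLp_two_iff_integrable_sq_norm hm.1).1 hm).ofReal
  have hpt : ∀ x, inner ℂ (w1 x) (w2 x) =
      ((((‖w1 x + (1 : ℂ) • w2 x‖ ^ 2 : ℝ) : ℂ) - ((‖w1 x + (-1 : ℂ) • w2 x‖ ^ 2 : ℝ) : ℂ)) +
        (((‖w1 x + (-Complex.I) • w2 x‖ ^ 2 : ℝ) : ℂ) - ((‖w1 x + Complex.I • w2 x‖ ^ 2 : ℝ) : ℂ)) * Complex.I) / 4 := by
    intro x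
    rw [inner_eq_sum_norm_sq_div_four (𝕜 := ℂ) (w1 x) (w2 x)]
    simp only [one_smul, neg_smul, ← sub_eq_add_neg, RCLike.I_to_complex]
    push_cast
    rfl
  simp only [hpt]
  have a1 : Integrable (fun x => ((‖w1 x + (1 : ℂ) • w2 x‖ ^ 2 : ℝ) : ℂ) - ((‖w1 x + (-1 : ℂ) • w2 x‖ ^ 2 : ℝ) : ℂ)) μ :=
    (hi 1).sub (hi (-1))
  have a2 : Integrable (fun x => ((‖w1 x + (-Complex.I) • w2 x‖ ^ 2 : ℝ) : ℂ) - ((‖w1 x + Complex.I • w2 x‖ ^ 2 : ℝ) : ℂ)) μ :=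
    (hi (-Complex.I)).sub (hi Complex.I)
  rw [integral_div, integral_add a1 (a2.mul_const _), integral_sub (hi 1) (hi (-1)), integral_mul_const,
    integral_sub (hi (-Complex.I)) (hi Complex.I)]
  simp only [integral_complex_ofReal]

theorem hy_row_int (φ : HyF) (h : φ.Ok) (T : ℝ) (k : ℕ) (g : ℝ → E) (hg : MemLp g 2 volume) (ρ : ℝ × ℝ) :
    Integrable (fun u => φ.pk T k ρ u • g u) volume :=
  hy_integrable_smul _ _ _ (hy_pk_memLp φ h T k ρ).1 hg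

theorem hy_row_lin (φ : HyF) (h : φ.Ok) (T : ℝ) (k : ℕ) (g1 g2 : ℝ → E) (h1 : MemLp g1 2 volume) (h2 : MemLp g2 2 volume) (c : ℂ)
    (ρ : ℝ × ℝ) : φ.row T k (fun u => g1 u + c • g2 u) ρ = φ.row T k g1 ρ + c • φ.row T k g2 ρ := by
  unfold HyF.row
  have a2 : Integrable (fun u => c • φ.pk T k ρ u • g2 u) volume := (hy_row_int φ h T k g2 h2 ρ).smul c
  rw [← integral_smul, ← integral_add (hy_row_int φ h T k g1 h1 ρ) a2]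
  refine integral_congr_ae (Filter.Eventually.of_forall fun u => ?_)
  show φ.pk T k ρ u • (g1 u + c • g2 u) = φ.pk T k ρ u • g1 u + c • φ.pk T k ρ u • g2 u
  rw [smul_add, smul_comm]

theorem hy_row_memLp (φ : HyF) (h : φ.Ok) (T : ℝ) (k : ℕ) (g : ℝ → E) (hg : MemLp g 2 volume) : MemLp (φ.row T k g) 2 φ.nu := by
  refine hy_memLp_two _ _ (hy_row_meas φ T k g hg.1).aestronglyMeasurable ?_
  rw [hy_row_iso φ h T k g hg]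
  exact hy_lint_of_memLp _ _ hg

/-- **the polarised fibre isometry** -/
theorem hy_row_inner (φ : HyF) (h : φ.Ok) (T : ℝ) (k : ℕ) (g1 g2 : ℝ → E) (h1 : MemLp g1 2 volume) (h2 : MemLp g2 2 volume) :
    ∫ ρ, inner ℂ (φ.row T k g1 ρ) (φ.row T k g2 ρ) ∂φ.nu = ∫ u, inner ℂ (g1 u) (g2 u) := by
  have key : ∀ c : ℂ, ∫ ρ, ‖φ.row T k g1 ρ + c • φ.row T k g2 ρ‖ ^ 2 ∂φ.nu = ∫ u, ‖g1 u + c • g2 u‖ ^ 2 := by
    intro c
    have hm : MemLp (fun u => g1 u + c • g2 u) 2 volume := h1.add (h2.const_smul c)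
    simp only [← hy_row_lin φ h T k g1 g2 h1 h2 c]
    rw [hy_int_sq _ _ (hy_row_memLp φ h T k _ hm).1, hy_int_sq _ _ hm.1, hy_row_iso φ h T k _ hm]
  rw [hy_polar _ _ _ (hy_row_memLp φ h T k g1 h1) (hy_row_memLp φ h T k g2 h2), hy_polar _ _ _ h1 h2]
  simp only [key]

theorem hy_pk_conj_memLp (φ : HyF) (h : φ.Ok) (T : ℝ) (k : ℕ) (ρ : ℝ × ℝ) : MemLp (fun u => conj (φ.pk T k ρ u)) 2 volume := by
  have h1 := (hy_pk_memLp φ h T k ρ).1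
  refine (memLp_congr_norm (f := φ.pk T k ρ) h1.1 ?_ (Filter.Eventually.of_forall fun u => ?_)).1 h1
  · exact (Complex.continuous_conj.measurable.comp_aemeasurable h1.1.aemeasurable).aestronglyMeasurable
  · exact (RCLike.norm_conj _).symm

/-- the kernel as a row of the conjugate packet -/
theorem hy_kr_row (φ : HyF) (T : ℝ) (k : ℕ) (T' : ℝ) (k' : ℕ) (ρ' ρ : ℝ × ℝ) :
    φ.kr T k T' k' ρ' ρ = conj (φ.row T k (fun u => conj (φ.pk T' k' ρ' u)) ρ) := by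
  unfold HyF.kr HyF.row
  rw [← integral_conj]
  refine integral_congr_ae (Filter.Eventually.of_forall fun u => ?_)
  simp only [smul_eq_mul, map_mul, Complex.conj_conj]
  ring

theorem hy_kr_comp' (φ : HyF) (h : φ.Ok) (T0 : ℝ) (k0 : ℕ) (T1 : ℝ) (k1 : ℕ) (T2 : ℝ) (k2 : ℕ) (ρ'' ρ : ℝ × ℝ) :
    ∫ ρ', φ.kr T1 k1 T2 k2 ρ'' ρ' * φ.kr T0 k0 T1 k1 ρ' ρ ∂φ.nu = φ.kr T0 k0 T2 k2 ρ'' ρ := by
  have e1 : ∀ ρ', φ.kr T0 k0 T1 k1 ρ' ρ = φ.row T1 k1 (fun u => conj (φ.pk T0 k0 ρ u)) ρ' := fun ρ' => rfl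
  calc ∫ ρ', φ.kr T1 k1 T2 k2 ρ'' ρ' * φ.kr T0 k0 T1 k1 ρ' ρ ∂φ.nu
      = ∫ ρ', inner ℂ (φ.row T1 k1 (fun u => conj (φ.pk T2 k2 ρ'' u)) ρ') (φ.row T1 k1 (fun u => conj (φ.pk T0 k0 ρ u)) ρ') ∂φ.nu := by
        refine integral_congr_ae (Filter.Eventually.of_forall fun ρ' => ?_)
        show φ.kr T1 k1 T2 k2 ρ'' ρ' * φ.kr T0 k0 T1 k1 ρ' ρ =
          inner ℂ (φ.row T1 k1 (fun u => conj (φ.pk T2 k2 ρ'' u)) ρ') (φ.row T1 k1 (fun u => conj (φ.pk T0 k0 ρ u)) ρ')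
        rw [hy_kr_row, e1, RCLike.inner_apply, mul_comm]
    _ = ∫ u, inner ℂ (conj (φ.pk T2 k2 ρ'' u)) (conj (φ.pk T0 k0 ρ u)) :=
        hy_row_inner φ h T1 k1 _ _ (hy_pk_conj_memLp φ h T2 k2 ρ'') (hy_pk_conj_memLp φ h T0 k0 ρ)
    _ = φ.kr T0 k0 T2 k2 ρ'' ρ := by
        unfold HyF.kr
        refine integral_congr_ae (Filter.Eventually.of_forall fun u => ?_)
        show inner ℂ (conj (φ.pk T2 k2 ρ'' u)) (conj (φ.pk T0 k0 ρ u)) = φ.pk T2 k2 ρ'' u * conj (φ.pk T0 k0 ρ u)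
        rw [RCLike.inner_apply, Complex.conj_conj, mul_comm]

/-- **(K5) COMPOSITION LAW** (reproducing property).   `kr T0 k0 T1 k1 ρ' ρ = row T1 k1 (conj pk T0 k0 ρ) ρ'`, `kr T1 k1 T2 k2 ρ'' ρ' = conj (row T1 k1 (conj pk T2 k2 ρ'') ρ')`;
polarise `hy_row_iso` for `E = ℂ` (4 applications, all functions are in `L²`).  ~200 l. -/
theorem hy_kr_comp (φ : HyF) (h : φ.Ok) (T0 : ℝ) (k0 : ℕ) (T1 : ℝ) (k1 : ℕ) (T2 : ℝ) (k2 : ℕ) (ρ'' ρ : ℝ × ℝ) :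
    ∫ ρ', φ.kr T1 k1 T2 k2 ρ'' ρ' * φ.kr T0 k0 T1 k1 ρ' ρ ∂φ.nu = φ.kr T0 k0 T2 k2 ρ'' ρ :=
  hy_kr_comp' φ h T0 k0 T1 k1 T2 k2 ρ'' ρ

/-! ### K7, K8 : tools -/

theorem hy_nu_sfinite (φ : HyF) : SFinite φ.nu := by
  unfold HyF.nu
  infer_instance

theorem hy_kr_meas (φ : HyF) (h : φ.Ok) (T : ℝ) (k : ℕ) (T' : ℝ) (k' : ℕ) : Measurable (Function.uncurry (φ.kr T k T' k')) :=
  (hy_kr_cont φ h T k T' k').measurable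

/-- Schur test for nonnegative functions -/
theorem hy_schur_l {X Y : Type*} [MeasurableSpace X] [MeasurableSpace Y] (μ : Measure X) (ν : Measure Y) [SFinite μ] [SFinite ν]
    (K : Y → X → ℝ≥0∞) (hK : Measurable (Function.uncurry K)) (g : X → ℝ≥0∞) (hg : AEMeasurable g μ) (a b : ℝ≥0∞)
    (h1 : ∀ y, ∫⁻ x, K y x ∂μ ≤ a) (h2 : ∀ x, ∫⁻ y, K y x ∂ν ≤ b) :
    ∫⁻ y, (∫⁻ x, K y x * g x ∂μ) ^ 2 ∂ν ≤ a * b * ∫⁻ x, g x ^ 2 ∂μ := by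
  have hKy : ∀ y, Measurable (K y) := fun y => hK.comp measurable_prodMk_left
  have hm : AEMeasurable (Function.uncurry fun y x => K y x * g x ^ 2) (ν.prod μ) :=
    hK.aemeasurable.mul ((hg.pow_const 2).comp_snd)
  have e1 : ∀ t : ℝ≥0∞, (t ^ (1 / (2 : ℝ))) ^ 2 = t := fun t => by
    rw [← ENNReal.rpow_natCast, ← ENNReal.rpow_mul]
    norm_num
  have hpt : ∀ y, (∫⁻ x, K y x * g x ∂μ) ^ 2 ≤ a * ∫⁻ x, K y x * g x ^ 2 ∂μ := by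
    intro y
    have h3 := hy_lcs μ ((hKy y).aemeasurable.pow_const (1 / (2 : ℝ))) (((hKy y).aemeasurable.pow_const (1 / (2 : ℝ))).mul hg)
    simp only [Pi.mul_apply, mul_pow, e1] at h3
    have e2 : ∀ x, K y x ^ (1 / (2 : ℝ)) * (K y x ^ (1 / (2 : ℝ)) * g x) = K y x * g x := fun x => by
      rw [← mul_assoc, ← sq, e1]
    simp only [e2] at h3
    exact h3.trans (mul_le_mul_left (h1 y) _)
  calc ∫⁻ y, (∫⁻ x, K y x * g x ∂μ) ^ 2 ∂ν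
      ≤ ∫⁻ y, a * ∫⁻ x, K y x * g x ^ 2 ∂μ ∂ν := lintegral_mono hpt
    _ = a * ∫⁻ y, ∫⁻ x, K y x * g x ^ 2 ∂μ ∂ν := lintegral_const_mul'' _ hm.lintegral_prod_right'
    _ = a * ∫⁻ x, ∫⁻ y, K y x * g x ^ 2 ∂ν ∂μ := by rw [lintegral_lintegral_swap hm]
    _ = a * ∫⁻ x, (∫⁻ y, K y x ∂ν) * g x ^ 2 ∂μ := by
        congr 1
        refine lintegral_congr fun x => ?_
        exact lintegral_mul_const _ (hK.comp measurable_prodMk_right)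
    _ ≤ a * ∫⁻ x, b * g x ^ 2 ∂μ := by
        gcongr with x
        exact h2 x
    _ = a * b * ∫⁻ x, g x ^ 2 ∂μ := by
        rw [lintegral_const_mul'' _ (hg.pow_const 2), mul_assoc]

/-- absolute convergence of the double integrals -/
theorem hy_dbl_fin (φ : HyF) (h : φ.Ok) (T : ℝ) (k : ℕ) (T' : ℝ) (k' : ℕ) {E1 E2 : Type*} [NormedAddCommGroup E1] [NormedAddCommGroup E2]
    (f : ℝ × ℝ → E1) (g : ℝ × ℝ → E2) (hf : MemLp f 2 φ.nu) (hg : MemLp g 2 φ.nu) :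
    ∫⁻ ρ', ‖g ρ'‖ₑ * ∫⁻ ρ, ‖φ.kr T k T' k' ρ' ρ‖ₑ * ‖f ρ‖ₑ ∂φ.nu ∂φ.nu ≠ ⊤ := by
  have := hy_nu_sfinite φ
  obtain ⟨C, hC1, hC2⟩ := hy_kr_schur_fin φ h T k T' k'
  have hK : Measurable (Function.uncurry fun ρ' ρ => ‖φ.kr T k T' k' ρ' ρ‖ₑ) := (hy_kr_meas φ h T k T' k').enorm
  have h1 := hy_schur_l φ.nu φ.nu (fun ρ' ρ => ‖φ.kr T k T' k' ρ' ρ‖ₑ) hK (fun ρ => ‖f ρ‖ₑ) hf.1.enorm _ _ hC1 hC2
  have hm : AEMeasurable (fun ρ' => ∫⁻ ρ, ‖φ.kr T k T' k' ρ' ρ‖ₑ * ‖f ρ‖ₑ ∂φ.nu) φ.nu :=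
    AEMeasurable.lintegral_prod_right' (f := fun z : (ℝ × ℝ) × (ℝ × ℝ) => ‖φ.kr T k T' k' z.1 z.2‖ₑ * ‖f z.2‖ₑ)
      (hK.aemeasurable.mul hf.1.enorm.comp_snd)
  have h2 := hy_lcs φ.nu hg.1.enorm hm
  have h3 : (∫⁻ ρ', ‖g ρ'‖ₑ * ∫⁻ ρ, ‖φ.kr T k T' k' ρ' ρ‖ₑ * ‖f ρ‖ₑ ∂φ.nu ∂φ.nu) ^ 2 ≠ ⊤ := by
    refine ne_top_of_le_ne_top ?_ h2
    refine ENNReal.mul_ne_top (hy_lint_of_memLp _ _ hg) (ne_top_of_le_ne_top ?_ h1)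
    exact ENNReal.mul_ne_top (ENNReal.mul_ne_top ENNReal.ofReal_ne_top ENNReal.ofReal_ne_top) (hy_lint_of_memLp _ _ hf)
  intro hc
  rw [hc] at h3
  exact h3 (by simp)

theorem hy_tr_int (φ : HyF) (h : φ.Ok) (T : ℝ) (k : ℕ) (T' : ℝ) (k' : ℕ) (f : ℝ × ℝ → E) (hf : MemLp f 2 φ.nu) (ρ' : ℝ × ℝ) :
    Integrable (fun ρ => φ.kr T k T' k' ρ' ρ • f ρ) φ.nu :=
  hy_integrable_smul _ _ _ (hy_kr_memLp φ h T k T' k' ρ').1 hf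

theorem hy_tr_meas' (φ : HyF) (h : φ.Ok) (T : ℝ) (k : ℕ) (T' : ℝ) (k' : ℕ) (f : ℝ × ℝ → E) (hf : AEStronglyMeasurable f φ.nu) :
    StronglyMeasurable (φ.tr T k T' k' f) := by
  have := hy_nu_sfinite φ
  have e : φ.tr T k T' k' f = fun ρ' => ∫ ρ, φ.kr T k T' k' ρ' ρ • hf.mk f ρ ∂φ.nu := by
    funext ρ'
    exact integral_congr_ae (hf.ae_eq_mk.mono fun ρ hρ => by simp only [hρ])
  rw [e]
  exact StronglyMeasurable.integral_prod_right (f := fun ρ' ρ => φ.kr T k T' k' ρ' ρ • hf.mk f ρ)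
    ((hy_kr_meas φ h T k T' k').stronglyMeasurable.smul (hf.stronglyMeasurable_mk.comp_measurable measurable_snd))

theorem hy_tr_memLp' (φ : HyF) (h : φ.Ok) (T : ℝ) (k : ℕ) (T' : ℝ) (k' : ℕ) (f : ℝ × ℝ → E) (hf : MemLp f 2 φ.nu) :
    MemLp (φ.tr T k T' k' f) 2 φ.nu := by
  have := hy_nu_sfinite φ
  obtain ⟨C, hC1, hC2⟩ := hy_kr_schur_fin φ h T k T' k'
  have h1 := hy_schur φ.nu φ.nu (φ.kr T k T' k') (hy_kr_meas φ h T k T' k') f hf.1 _ _ hC1 hC2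
  refine hy_memLp_two _ _ (hy_tr_meas' φ h T k T' k' f hf.1).aestronglyMeasurable (ne_top_of_le_ne_top ?_ h1)
  exact ENNReal.mul_ne_top (ENNReal.mul_ne_top ENNReal.ofReal_ne_top ENNReal.ofReal_ne_top) (hy_lint_of_memLp _ _ hf)

theorem hy_tr_add' (φ : HyF) (h : φ.Ok) (T : ℝ) (k : ℕ) (T' : ℝ) (k' : ℕ) (f g : ℝ × ℝ → E) (hf : MemLp f 2 φ.nu) (hg : MemLp g 2 φ.nu) (ρ' : ℝ × ℝ) :
    φ.tr T k T' k' (fun ρ => f ρ + g ρ) ρ' = φ.tr T k T' k' f ρ' + φ.tr T k T' k' g ρ' := by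
  unfold HyF.tr
  simp only [smul_add]
  exact integral_add (hy_tr_int φ h T k T' k' f hf ρ') (hy_tr_int φ h T k T' k' g hg ρ')

theorem hy_tr_sub' (φ : HyF) (h : φ.Ok) (T : ℝ) (k : ℕ) (T' : ℝ) (k' : ℕ) (f g : ℝ × ℝ → E) (hf : MemLp f 2 φ.nu) (hg : MemLp g 2 φ.nu) (ρ' : ℝ × ℝ) :
    φ.tr T k T' k' (fun ρ => f ρ - g ρ) ρ' = φ.tr T k T' k' f ρ' - φ.tr T k T' k' g ρ' := by
  unfold HyF.tr
  simp only [smul_sub]
  exact integral_sub (hy_tr_int φ h T k T' k' f hf ρ') (hy_tr_int φ h T k T' k' g hg ρ')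

theorem hy_tr_comp' (φ : HyF) (h : φ.Ok) (T0 : ℝ) (k0 : ℕ) (T1 : ℝ) (k1 : ℕ) (T2 : ℝ) (k2 : ℕ) (f : ℝ × ℝ → E) (hf : MemLp f 2 φ.nu) (ρ'' : ℝ × ℝ) :
    φ.tr T1 k1 T2 k2 (φ.tr T0 k0 T1 k1 f) ρ'' = φ.tr T0 k0 T2 k2 f ρ'' := by
  have := hy_nu_sfinite φ
  have hm12 : Measurable (φ.kr T1 k1 T2 k2 ρ'') := (hy_kr_meas φ h T1 k1 T2 k2).of_uncurry_left
  have hint : Integrable (Function.uncurry fun ρ' ρ => φ.kr T1 k1 T2 k2 ρ'' ρ' • φ.kr T0 k0 T1 k1 ρ' ρ • f ρ) (φ.nu.prod φ.nu) := by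
    have hsm : AEStronglyMeasurable (Function.uncurry fun ρ' ρ => φ.kr T1 k1 T2 k2 ρ'' ρ' • φ.kr T0 k0 T1 k1 ρ' ρ • f ρ)
        (φ.nu.prod φ.nu) :=
      (hm12.comp measurable_fst).aestronglyMeasurable.smul
        ((hy_kr_meas φ h T0 k0 T1 k1).aestronglyMeasurable.smul hf.1.comp_snd)
    refine ⟨hsm, ?_⟩
    rw [hasFiniteIntegral_iff_enorm, lintegral_prod _ hsm.enorm]
    refine lt_of_le_of_lt (le_of_eq ?_) (hy_dbl_fin φ h T0 k0 T1 k1 f (φ.kr T1 k1 T2 k2 ρ'') hf (hy_kr_memLp φ h T1 k1 T2 k2 ρ'').1).lt_top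
    refine lintegral_congr fun ρ' => ?_
    simp only [Function.uncurry_apply_pair, enorm_smul]
    rw [lintegral_const_mul' _ _ enorm_ne_top]
  unfold HyF.tr
  calc ∫ ρ', φ.kr T1 k1 T2 k2 ρ'' ρ' • ∫ ρ, φ.kr T0 k0 T1 k1 ρ' ρ • f ρ ∂φ.nu ∂φ.nu
      = ∫ ρ', ∫ ρ, φ.kr T1 k1 T2 k2 ρ'' ρ' • φ.kr T0 k0 T1 k1 ρ' ρ • f ρ ∂φ.nu ∂φ.nu := by
        refine integral_congr_ae (Filter.Eventually.of_forall fun ρ' => ?_)
        exact (integral_smul _ _).symm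
    _ = ∫ ρ, ∫ ρ', φ.kr T1 k1 T2 k2 ρ'' ρ' • φ.kr T0 k0 T1 k1 ρ' ρ • f ρ ∂φ.nu ∂φ.nu := integral_integral_swap hint
    _ = ∫ ρ, φ.kr T0 k0 T2 k2 ρ'' ρ • f ρ ∂φ.nu := by
        refine integral_congr_ae (Filter.Eventually.of_forall fun ρ => ?_)
        show ∫ ρ', φ.kr T1 k1 T2 k2 ρ'' ρ' • φ.kr T0 k0 T1 k1 ρ' ρ • f ρ ∂φ.nu = _
        simp only [smul_smul]
        rw [integral_smul_const, hy_kr_comp φ h]

/-- `∫ ⟪F x, c⟫ = ⟪∫ F, c⟫` -/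
theorem hy_inner_integral {X : Type*} [MeasurableSpace X] (μ : Measure X) {F : X → E} (hF : Integrable F μ) (c : E) :
    ∫ x, inner ℂ (F x) c ∂μ = inner ℂ (∫ x, F x ∂μ) c := by
  rw [← inner_conj_symm, ← integral_inner hF c, ← integral_conj]
  simp only [inner_conj_symm]

/-- the adjoint of a transfer is the reverse transfer -/
theorem hy_tr_adj (φ : HyF) (h : φ.Ok) (T : ℝ) (k : ℕ) (T' : ℝ) (k' : ℕ) (f g : ℝ × ℝ → E) (hf : MemLp f 2 φ.nu) (hg : MemLp g 2 φ.nu) :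
    ∫ ρ', inner ℂ (g ρ') (φ.tr T k T' k' f ρ') ∂φ.nu = ∫ ρ, inner ℂ (φ.tr T' k' T k g ρ) (f ρ) ∂φ.nu := by
  have := hy_nu_sfinite φ
  have hint : Integrable (Function.uncurry fun ρ' ρ => inner ℂ (g ρ') (φ.kr T k T' k' ρ' ρ • f ρ)) (φ.nu.prod φ.nu) := by
    have hsm : AEStronglyMeasurable (Function.uncurry fun ρ' ρ => inner ℂ (g ρ') (φ.kr T k T' k' ρ' ρ • f ρ)) (φ.nu.prod φ.nu) :=
      hg.1.comp_fst.inner ((hy_kr_meas φ h T k T' k').aestronglyMeasurable.smul hf.1.comp_snd)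
    refine ⟨hsm, ?_⟩
    rw [hasFiniteIntegral_iff_enorm, lintegral_prod _ hsm.enorm]
    refine lt_of_le_of_lt ?_ (hy_dbl_fin φ h T k T' k' f g hf hg).lt_top
    refine lintegral_mono fun ρ' => ?_
    rw [← lintegral_const_mul' _ _ enorm_ne_top]
    refine lintegral_mono fun ρ => ?_
    simp only [Function.uncurry_apply_pair]
    refine (hy_enorm_inner _ _).trans (le_of_eq ?_)
    rw [enorm_smul]
  calc ∫ ρ', inner ℂ (g ρ') (φ.tr T k T' k' f ρ') ∂φ.nu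
      = ∫ ρ', ∫ ρ, inner ℂ (g ρ') (φ.kr T k T' k' ρ' ρ • f ρ) ∂φ.nu ∂φ.nu := by
        refine integral_congr_ae (Filter.Eventually.of_forall fun ρ' => ?_)
        exact (integral_inner (hy_tr_int φ h T k T' k' f hf ρ') (g ρ')).symm
    _ = ∫ ρ, ∫ ρ', inner ℂ (g ρ') (φ.kr T k T' k' ρ' ρ • f ρ) ∂φ.nu ∂φ.nu := integral_integral_swap hint
    _ = ∫ ρ, inner ℂ (φ.tr T' k' T k g ρ) (f ρ) ∂φ.nu := by
        refine integral_congr_ae (Filter.Eventually.of_forall fun ρ => ?_)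
        show ∫ ρ', inner ℂ (g ρ') (φ.kr T k T' k' ρ' ρ • f ρ) ∂φ.nu = inner ℂ (∫ ρ', φ.kr T' k' T k ρ ρ' • g ρ' ∂φ.nu) (f ρ)
        rw [← hy_inner_integral _ (hy_tr_int φ h T' k' T k g hg ρ)]
        refine integral_congr_ae (Filter.Eventually.of_forall fun ρ' => ?_)
        show inner ℂ (g ρ') (φ.kr T k T' k' ρ' ρ • f ρ) = inner ℂ (φ.kr T' k' T k ρ ρ' • g ρ') (f ρ)
        rw [hy_kr_conj, inner_smul_left, inner_smul_right]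

theorem hy_tr_key (φ : HyF) (h : φ.Ok) (T : ℝ) (k : ℕ) (T' : ℝ) (k' : ℕ) (f : ℝ × ℝ → E) (hf : MemLp f 2 φ.nu) :
    (∫⁻ ρ', ‖φ.tr T k T' k' f ρ'‖ₑ ^ 2 ∂φ.nu) ^ 2 ≤ (∫⁻ ρ, ‖φ.tr T k T k f ρ‖ₑ ^ 2 ∂φ.nu) * ∫⁻ ρ, ‖f ρ‖ₑ ^ 2 ∂φ.nu := by
  have hA := hy_tr_memLp' φ h T k T' k' f hf
  have hP := hy_tr_memLp' φ h T k T k f hf
  rw [← hy_enorm_self _ _ hA, hy_tr_adj φ h T k T' k' f _ hf hA]
  simp only [hy_tr_comp' φ h T k T' k' T k f hf]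
  exact hy_pair_cs _ _ _ hP.1 hf.1

theorem hy_tr_contr' (φ : HyF) (h : φ.Ok) (T : ℝ) (k : ℕ) (T' : ℝ) (k' : ℕ) (f : ℝ × ℝ → E) (hf : MemLp f 2 φ.nu) :
    ∫⁻ ρ', ‖φ.tr T k T' k' f ρ'‖ₑ ^ 2 ∂φ.nu ≤ ∫⁻ ρ, ‖f ρ‖ₑ ^ 2 ∂φ.nu := by
  have h1 := hy_tr_key φ h T k T' k' f hf
  have h2 := hy_tr_key φ h T k T k f hf
  have hp := hy_lint_of_memLp _ _ (hy_tr_memLp' φ h T k T k f hf)
  generalize (∫⁻ ρ', ‖φ.tr T k T' k' f ρ'‖ₑ ^ 2 ∂φ.nu) = a at h1 ⊢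
  generalize (∫⁻ ρ, ‖φ.tr T k T k f ρ‖ₑ ^ 2 ∂φ.nu) = p at h1 h2 hp
  generalize (∫⁻ ρ, ‖f ρ‖ₑ ^ 2 ∂φ.nu) = b at h1 h2 ⊢
  have h3 : p ≤ b := by
    rcases eq_or_ne p 0 with h0 | h0
    · rw [h0]
      exact bot_le
    · rw [sq] at h2
      exact (ENNReal.mul_le_mul_iff_right h0 hp).1 h2
  have h4 : a ^ 2 ≤ b ^ 2 := h1.trans (by rw [sq b]; gcongr)
  exact (ENNReal.pow_le_pow_left_iff (by norm_num)).1 h4

/-- measurability of a transferred row function -/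
theorem hy_tr_meas (φ : HyF) (h : φ.Ok) (T : ℝ) (k : ℕ) (T' : ℝ) (k' : ℕ) (f : ℝ × ℝ → E) (hf : AEStronglyMeasurable f φ.nu) :
    StronglyMeasurable (φ.tr T k T' k' f) := hy_tr_meas' φ h T k T' k' f hf

/-- **(K7) CONTRACTION** `‖V' U V^*‖ ≤ 1`.
PROVED (helper270) WITHOUT `hy_row_iso`: `A = tr`, `P = tr` to the same frame; `A^* A = P` (`hy_tr_adj`, `hy_tr_comp'`), all in `L²` by Schur (`hy_kr_schur_fin`): `‖Af‖⁴ ≤ ‖Pf‖² ‖f‖²`, `‖Pf‖⁴ ≤ ‖Pf‖² ‖f‖²`.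
OLD PLAN.  (a) `f` bounded with bounded support: `w u := ∫ conj (pk T k ρ u) • f ρ dν ∈ L²`, `tr f = row T' k' w` (Fubini), `∫‖w‖² = ∫ ⟪f, row T k w⟫ dν ≤ ‖f‖ ‖row T k w‖ = ‖f‖ ‖w‖` (`hy_row_iso`), hence
`‖tr f‖ = ‖w‖ ≤ ‖f‖`.   (b) general `f`: truncations `f_n → f` in `L²(ν)`; `tr f_n ρ' → tr f ρ'` for every `ρ'` (`hy_kr_memLp`, Cauchy-Schwarz); Fatou.   ~400 l. -/
theorem hy_tr_contr (φ : HyF) (h : φ.Ok) (T : ℝ) (k : ℕ) (T' : ℝ) (k' : ℕ) (f : ℝ × ℝ → E) (hf : MemLp f 2 φ.nu) :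
    ∫⁻ ρ', ‖φ.tr T k T' k' f ρ'‖ₑ ^ 2 ∂φ.nu ≤ ∫⁻ ρ, ‖f ρ‖ₑ ^ 2 ∂φ.nu := hy_tr_contr' φ h T k T' k' f hf

theorem hy_tr_memLp (φ : HyF) (h : φ.Ok) (T : ℝ) (k : ℕ) (T' : ℝ) (k' : ℕ) (f : ℝ × ℝ → E) (hf : MemLp f 2 φ.nu) :
    MemLp (φ.tr T k T' k' f) 2 φ.nu := hy_tr_memLp' φ h T k T' k' f hf

/-- **(K8)** transfers compose (Fubini + `hy_kr_comp`; absolute convergence: `ρ ↦ ∫ |kr ρ'' ρ'| |kr ρ' ρ| dν ρ'` is in `L²(ν)` by `hy_schur`/Minkowski applied to `|kr ρ'' ·| ∈ L²`).  ~250 l. -/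
theorem hy_tr_comp (φ : HyF) (h : φ.Ok) (T0 : ℝ) (k0 : ℕ) (T1 : ℝ) (k1 : ℕ) (T2 : ℝ) (k2 : ℕ) (f : ℝ × ℝ → E) (hf : MemLp f 2 φ.nu) (ρ'' : ℝ × ℝ) :
    φ.tr T1 k1 T2 k2 (φ.tr T0 k0 T1 k1 f) ρ'' = φ.tr T0 k0 T2 k2 f ρ'' := hy_tr_comp' φ h T0 k0 T1 k1 T2 k2 f hf ρ''

theorem hy_tr_row' (φ : HyF) (h : φ.Ok) (T : ℝ) (k : ℕ) (T' : ℝ) (k' : ℕ) (g : ℝ → E) (hg : MemLp g 2 volume) (ρ' : ℝ × ℝ) :
    φ.tr T k T' k' (φ.row T k g) ρ' = φ.row T' k' g ρ' := by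
  refine ext_inner_left ℂ fun e => ?_
  have hh := hy_pk_conj_memLp φ h T' k' ρ'
  have hhe : MemLp (fun u => conj (φ.pk T' k' ρ' u) • e) 2 volume :=
    hh.of_le_mul (c := ‖e‖) (hh.1.smul_const e) (Filter.Eventually.of_forall fun u => by rw [norm_smul, mul_comm])
  have hrow : ∀ ρ, φ.row T k (fun u => conj (φ.pk T' k' ρ' u) • e) ρ = φ.row T k (fun u => conj (φ.pk T' k' ρ' u)) ρ • e := by
    intro ρ
    unfold HyF.row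
    rw [← integral_smul_const]
    refine integral_congr_ae (Filter.Eventually.of_forall fun u => ?_)
    simp only [smul_smul, smul_eq_mul]
  calc inner ℂ e (φ.tr T k T' k' (φ.row T k g) ρ')
      = ∫ ρ, inner ℂ e (φ.kr T k T' k' ρ' ρ • φ.row T k g ρ) ∂φ.nu :=
        (integral_inner (hy_tr_int φ h T k T' k' _ (hy_row_memLp φ h T k g hg) ρ') e).symm
    _ = ∫ ρ, inner ℂ (φ.row T k (fun u => conj (φ.pk T' k' ρ' u) • e) ρ) (φ.row T k g ρ) ∂φ.nu := by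
        refine integral_congr_ae (Filter.Eventually.of_forall fun ρ => ?_)
        show inner ℂ e (φ.kr T k T' k' ρ' ρ • φ.row T k g ρ) =
          inner ℂ (φ.row T k (fun u => conj (φ.pk T' k' ρ' u) • e) ρ) (φ.row T k g ρ)
        rw [hrow, inner_smul_left, inner_smul_right, hy_kr_row]
    _ = ∫ u, inner ℂ (conj (φ.pk T' k' ρ' u) • e) (g u) := hy_row_inner φ h T k _ g hhe hg
    _ = ∫ u, inner ℂ e (φ.pk T' k' ρ' u • g u) := by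
        refine integral_congr_ae (Filter.Eventually.of_forall fun u => ?_)
        show inner ℂ (conj (φ.pk T' k' ρ' u) • e) (g u) = inner ℂ e (φ.pk T' k' ρ' u • g u)
        rw [inner_smul_left, inner_smul_right, Complex.conj_conj]
    _ = inner ℂ e (φ.row T' k' g ρ') := integral_inner (hy_row_int φ h T' k' g hg ρ') e

/-- **(K8')** the transfer of the rows of a state = the rows of the state at the new frame (`V^* V = 1`).   Polarised `hy_row_iso` between `g` and the scalar packet times a vector; or Fubini after truncation.  ~250 l. -/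
theorem hy_tr_row (φ : HyF) (h : φ.Ok) (T : ℝ) (k : ℕ) (T' : ℝ) (k' : ℕ) (g : ℝ → E) (hg : MemLp g 2 volume) (ρ' : ℝ × ℝ) :
    φ.tr T k T' k' (φ.row T k g) ρ' = φ.row T' k' g ρ' := hy_tr_row' φ h T k T' k' g hg ρ'

/-- linearity of the transfer on `L²` -/
theorem hy_tr_add (φ : HyF) (h : φ.Ok) (T : ℝ) (k : ℕ) (T' : ℝ) (k' : ℕ) (f g : ℝ × ℝ → E) (hf : MemLp f 2 φ.nu) (hg : MemLp g 2 φ.nu) (ρ' : ℝ × ℝ) :
    φ.tr T k T' k' (fun ρ => f ρ + g ρ) ρ' = φ.tr T k T' k' f ρ' + φ.tr T k T' k' g ρ' := hy_tr_add' φ h T k T' k' f g hf hg ρ'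

theorem hy_tr_sub (φ : HyF) (h : φ.Ok) (T : ℝ) (k : ℕ) (T' : ℝ) (k' : ℕ) (f g : ℝ × ℝ → E) (hf : MemLp f 2 φ.nu) (hg : MemLp g 2 φ.nu) (ρ' : ℝ × ℝ) :
    φ.tr T k T' k' (fun ρ => f ρ - g ρ) ρ' = φ.tr T k T' k' f ρ' - φ.tr T k T' k' g ρ' := hy_tr_sub' φ h T k T' k' f g hf hg ρ'

end Claimed.Agent.R256
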