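import Claimed.Agent.R256.Hyb.JitFib
import Claimed.Agent.R256.Hyb.Contract
import Claimed.Agent.R256.Cyl.ClJit

/-!
# Row 256, unit HYB, JIT 2: THE JITTERED HYBRID SYSTEM, definitions + algebra      (chief helper82; prefix `hj_`)      02 l.690-700

Twin of `Cyl/ClJit.lean` (classical).   Exact index `Ω' = Ω × ℝ⁵`, `m' = m × π` (`π = cyPi`), same `σ`, `H`, `Fb`.
`hjZ y` = the jittered coordinates at the root time `T0` of the row `(ω, D = 0, N = 0)`, `y = (ω, θ)`:   its base part is the new base ray, its normal part `(hjZ.N, hjZ.D)` is THE TRANSLATION of the rows at `T0` (the normal part of `cyJit` is a translation which depends only on the base point).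
* `hjDl y = δ`, `hjC y = c` (translation pulled back to the time `0`), `hjT .. T y = τ_T = (c + Tδ, δ)`
* `hjP`     the jittered parameter            * `hjStg`   stage with the translated masks
* `hjRow T F`   the Weyl shift at the time `T` of a row function `F` of `p`, as a row function of `hjP`
* `hjLf F`      the same in `L²` at `T = T0`      * `hjV k0 v = an'† (hjLf (an v))`   the jittered state      * `hjE`  the jittered experiment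
-/

set_option autoImplicit false

namespace Claimed.Agent.R256

open MeasureTheory
open scoped ENNReal

/-- the jittered coordinates at the root time of the row `(ω, 0, 0)` -/
def hjZ (p : ChyPar) (Qs : CyT) (L ζ T0 : ℝ) (y : p.Om × (ℝ × ℝ × ℝ × ℝ × ℝ)) : Cy5 :=
  cyJit Qs (cyJitPar Qs L ζ y.2) (p.co T0 (y.1, (0, 0)))

/-- the velocity shift -/
def hjDl (p : ChyPar) (Qs : CyT) (L ζ T0 : ℝ) (y : p.Om × (ℝ × ℝ × ℝ × ℝ × ℝ)) : ℝ := (hjZ p Qs L ζ T0 y).N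

/-- the position shift at the time `0` -/
def hjC (p : ChyPar) (Qs : CyT) (L ζ T0 : ℝ) (y : p.Om × (ℝ × ℝ × ℝ × ℝ × ℝ)) : ℝ := (hjZ p Qs L ζ T0 y).D - T0 * (hjZ p Qs L ζ T0 y).N

/-- the translation of the rows over `y` at the time `T` -/
def hjT (p : ChyPar) (Qs : CyT) (L ζ T0 T : ℝ) (y : p.Om × (ℝ × ℝ × ℝ × ℝ × ℝ)) : ℝ × ℝ := hyTau (hjC p Qs L ζ T0 y) (hjDl p Qs L ζ T0 y) T

/-- the jittered parameter -/
@[reducible] noncomputable def hjP (p : ChyPar) (Qs : CyT) (L ζ T0 : ℝ) : ChyPar where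
  Om := p.Om × (ℝ × ℝ × ℝ × ℝ × ℝ)
  m := p.m.prod cyPi
  Fb := p.Fb
  X := fun y => (hjZ p Qs L ζ T0 y).X
  B := fun y => (hjZ p Qs L ζ T0 y).B - T0 * (hjZ p Qs L ζ T0 y).X
  Y := fun y => (hjZ p Qs L ζ T0 y).Y - T0 * (hjZ p Qs L ζ T0 y).X ^ 2
  sg := fun y => p.sg y.1
  H := p.H

/-- the old row under a new row at the time `T` -/
def hjB (p : ChyPar) (Qs : CyT) (L ζ T0 T : ℝ) (x : (p.Om × (ℝ × ℝ × ℝ × ℝ × ℝ)) × ℝ × ℝ) : p.Om × ℝ × ℝ := (x.1.1, x.2 - hjT p Qs L ζ T0 T x.1)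

/-- the new row over an old row at the time `T` -/
def hjU (p : ChyPar) (Qs : CyT) (L ζ T0 T : ℝ) (θ : ℝ × ℝ × ℝ × ℝ × ℝ) (x : p.Om × ℝ × ℝ) : (p.Om × (ℝ × ℝ × ℝ × ℝ × ℝ)) × ℝ × ℝ :=
  ((x.1, θ), x.2 + hjT p Qs L ζ T0 T (x.1, θ))

/-- the stage with the translated masks -/
noncomputable def hjStg (η : ℝ) (p : ChyPar) (Qs : CyT) (L ζ T0 : ℝ) (σ : Stg (p.sys η)) : Stg ((hjP p Qs L ζ T0).sys η) :=
  ⟨σ.k, σ.b, fun i x => σ.M i (hjB p Qs L ζ T0 (tmL σ.k i) x)⟩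

/-- the Weyl shift at the time `T` of a row function -/
noncomputable def hjRow (p : ChyPar) (Qs : CyT) (L ζ T0 T : ℝ) (F : p.Om × ℝ × ℝ → p.Fb) (x : (p.Om × (ℝ × ℝ × ℝ × ℝ × ℝ)) × ℝ × ℝ) : p.Fb :=
  (p.fib x.1.1).shF (hjC p Qs L ζ T0 x.1) (hjDl p Qs L ζ T0 x.1) T (fun ρ => F (x.1.1, ρ)) x.2

/-- the Weyl shift of the root rows, in `L²` -/
noncomputable def hjLf (p : ChyPar) (Qs : CyT) (L ζ T0 : ℝ) (F : Lp p.Fb 2 p.rw) : Lp p.Fb 2 (hjP p Qs L ζ T0).rw :=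
  open Classical in
  if h : MemLp (hjRow p Qs L ζ T0 T0 (F : p.Om × ℝ × ℝ → p.Fb)) 2 (hjP p Qs L ζ T0).rw then h.toLp _ else 0

/-- the jittered state -/
noncomputable def hjV (p : ChyPar) (Qs : CyT) (L ζ T0 : ℝ) (k0 : ℕ) (v : Lp p.Fb 2 (p.m.prod (volume : Measure ℝ))) :
    Lp p.Fb 2 ((hjP p Qs L ζ T0).m.prod (volume : Measure ℝ)) :=
  ContinuousLinearMap.adjoint ((hjP p Qs L ζ T0).an T0 k0) (hjLf p Qs L ζ T0 (p.an T0 k0 v))

/-- the jittered experiment -/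
noncomputable def hjE (η : ℝ) (p : ChyPar) (Qs : CyT) (ζ : ℝ) (E : Xp (p.sys η)) (tsq : Fin E.L → CyT) :
    Xp ((hjP p Qs ((2 : ℝ)⁻¹ ^ E.k0) ζ (tmL E.k0 E.i0)).sys η) where
  k0 := E.k0
  i0 := E.i0
  n := E.n
  v := hjV p Qs ((2 : ℝ)⁻¹ ^ E.k0) ζ (tmL E.k0 E.i0) E.k0 E.v
  e := E.e
  ka := E.ka
  b0 := E.b0
  st := E.st.map (hjStg η p Qs ((2 : ℝ)⁻¹ ^ E.k0) ζ (tmL E.k0 E.i0))
  bT := E.bT
  L := E.L
  iv := E.iv
  ts := tsq
  th := fun l x => {x : (p.Om × (ℝ × ℝ × ℝ × ℝ × ℝ)) × ℝ × ℝ | x.1.2 ∈ cyCube}.indicator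
    (fun x => E.th l (hjB p Qs ((2 : ℝ)⁻¹ ^ E.k0) ζ (tmL E.k0 E.i0) (tmL E.kf (E.iv l)) x)) x

theorem hj_defs_eqns_cite : True := by
  have := @hjZ.eq_1
  have := @hjDl.eq_1
  have := @hjC.eq_1
  have := @hjT.eq_1
  have := @hjP.eq_1
  have := @hjB.eq_1
  have := @hjU.eq_1
  have := @hjStg.eq_1
  have := @hjRow.eq_1
  have := @hjLf.eq_1
  have := @hjV.eq_1
  have := @hjE.eq_1
  trivial

/-! ## algebra -/

theorem hj_BU (p : ChyPar) (Qs : CyT) (L ζ T0 T : ℝ) (θ : ℝ × ℝ × ℝ × ℝ × ℝ) (x : p.Om × ℝ × ℝ) : hjB p Qs L ζ T0 T (hjU p Qs L ζ T0 T θ x) = x := by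
  unfold hjB hjU
  simp

theorem hj_UB (p : ChyPar) (Qs : CyT) (L ζ T0 T : ℝ) (x : (p.Om × (ℝ × ℝ × ℝ × ℝ × ℝ)) × ℝ × ℝ) : hjU p Qs L ζ T0 T x.1.2 (hjB p Qs L ζ T0 T x) = x := by
  unfold hjB hjU
  simp

/-- **(CO)** the coordinates of the new row over an old row = the jitter of the docstring of `CyJit` applied to the old coordinates -/
theorem hj_co (p : ChyPar) (Qs : CyT) (L ζ T0 T : ℝ) (θ : ℝ × ℝ × ℝ × ℝ × ℝ) (x : p.Om × ℝ × ℝ) :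
    (hjP p Qs L ζ T0).co T (hjU p Qs L ζ T0 T θ x) = cyJit (cyExt Qs (T - T0)) (cyFlow (T - T0) (cyJitPar Qs L ζ θ)) (p.co T x) := by
  simp only [ChyPar.co, hjP, hjU, hjT, hyTau, hjC, hjDl, hjZ, cyJit, cyJitB, cyExt, cyFlow, cyVel, cyPos, Cy5.mk.injEq, Prod.fst_add, Prod.snd_add]
  refine ⟨trivial, ?_, ?_, ?_, ?_⟩ <;> ring

/-- at the root time -/
theorem hj_co0 (p : ChyPar) (Qs : CyT) (L ζ T0 : ℝ) (θ : ℝ × ℝ × ℝ × ℝ × ℝ) (x : p.Om × ℝ × ℝ) :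
    (hjP p Qs L ζ T0).co T0 (hjU p Qs L ζ T0 T0 θ x) = cyJit Qs (cyJitPar Qs L ζ θ) (p.co T0 x) := by
  rw [hj_co]
  simp [cyExt, cyFlow]

/-! ## measurability -/

theorem hj_C_meas (p : ChyPar) (h : p.Ok) (Qs : CyT) (L ζ T0 : ℝ) : Measurable (hjC p Qs L ζ T0) := by
  have mX := h.mX.comp (measurable_fst : Measurable (Prod.fst : p.Om × (ℝ × ℝ × ℝ × ℝ × ℝ) → p.Om))
  have mB := h.mB.comp (measurable_fst : Measurable (Prod.fst : p.Om × (ℝ × ℝ × ℝ × ℝ × ℝ) → p.Om))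
  have mY := h.mY.comp (measurable_fst : Measurable (Prod.fst : p.Om × (ℝ × ℝ × ℝ × ℝ × ℝ) → p.Om))
  simp only [Function.comp_def] at mX mB mY
  unfold hjC
  simp only [hjZ, cyJit, cyJitB, cyJitPar, cyVel, cyPos, ChyPar.co]
  fun_prop

theorem hj_Dl_meas (p : ChyPar) (h : p.Ok) (Qs : CyT) (L ζ T0 : ℝ) : Measurable (hjDl p Qs L ζ T0) := by
  have mX := h.mX.comp (measurable_fst : Measurable (Prod.fst : p.Om × (ℝ × ℝ × ℝ × ℝ × ℝ) → p.Om))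
  have mB := h.mB.comp (measurable_fst : Measurable (Prod.fst : p.Om × (ℝ × ℝ × ℝ × ℝ × ℝ) → p.Om))
  have mY := h.mY.comp (measurable_fst : Measurable (Prod.fst : p.Om × (ℝ × ℝ × ℝ × ℝ × ℝ) → p.Om))
  simp only [Function.comp_def] at mX mB mY
  unfold hjDl
  simp only [hjZ, cyJit, cyJitB, cyJitPar, cyVel, cyPos, ChyPar.co]
  fun_prop

theorem hj_T_meas (p : ChyPar) (h : p.Ok) (Qs : CyT) (L ζ T0 T : ℝ) : Measurable (hjT p Qs L ζ T0 T) := by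
  have h1 := hj_C_meas p h Qs L ζ T0
  have h2 := hj_Dl_meas p h Qs L ζ T0
  unfold hjT hyTau
  fun_prop

theorem hj_B_meas (p : ChyPar) (h : p.Ok) (Qs : CyT) (L ζ T0 T : ℝ) : Measurable (hjB p Qs L ζ T0 T) := by
  have := hj_T_meas p h Qs L ζ T0 T
  unfold hjB
  fun_prop

/-- jointly in `(θ, x)` -/
theorem hj_U_meas (p : ChyPar) (h : p.Ok) (Qs : CyT) (L ζ T0 T : ℝ) :
    Measurable fun z : (ℝ × ℝ × ℝ × ℝ × ℝ) × (p.Om × ℝ × ℝ) => hjU p Qs L ζ T0 T z.1 z.2 := by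
  have := hj_T_meas p h Qs L ζ T0 T
  unfold hjU
  fun_prop

/-- **(OK)**   twin of `cy_cj_ok` -/
theorem hj_ok (p : ChyPar) (h : p.Ok) (Qs : CyT) (L ζ T0 : ℝ) : (hjP p Qs L ζ T0).Ok := by
  have := h.sf
  have mX := h.mX.comp (measurable_fst : Measurable (Prod.fst : p.Om × (ℝ × ℝ × ℝ × ℝ × ℝ) → p.Om))
  have mB := h.mB.comp (measurable_fst : Measurable (Prod.fst : p.Om × (ℝ × ℝ × ℝ × ℝ × ℝ) → p.Om))
  have mY := h.mY.comp (measurable_fst : Measurable (Prod.fst : p.Om × (ℝ × ℝ × ℝ × ℝ × ℝ) → p.Om))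
  simp only [Function.comp_def] at mX mB mY
  refine ⟨?_, ?_, ?_, ?_, ?_, fun y => h.sg_rg y.1, h.H_pos⟩
  · change SigmaFinite (p.m.prod cyPi)
    infer_instance
  · change Measurable fun y : p.Om × (ℝ × ℝ × ℝ × ℝ × ℝ) => (hjZ p Qs L ζ T0 y).X
    simp only [hjZ, cyJit, cyJitB, cyJitPar, cyVel, cyPos, ChyPar.co]
    fun_prop
  · change Measurable fun y : p.Om × (ℝ × ℝ × ℝ × ℝ × ℝ) => (hjZ p Qs L ζ T0 y).B - T0 * (hjZ p Qs L ζ T0 y).X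
    simp only [hjZ, cyJit, cyJitB, cyJitPar, cyVel, cyPos, ChyPar.co]
    fun_prop
  · change Measurable fun y : p.Om × (ℝ × ℝ × ℝ × ℝ × ℝ) => (hjZ p Qs L ζ T0 y).Y - T0 * (hjZ p Qs L ζ T0 y).X ^ 2
    simp only [hjZ, cyJit, cyJitB, cyJitPar, cyVel, cyPos, ChyPar.co]
    fun_prop
  · exact h.mS.comp measurable_fst

end Claimed.Agent.R256
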