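import Claimed.Agent.R256.Hyb.Inst
import Claimed.Agent.R256.Cyl.HyJitF

/-!
# Row 256, unit HYB, JIT 1: WEYL SHIFTS ON A FIBRE      (chief helper82; prefix `hj_`)      02 l.690-700 (jitter closure, hybrid model)

THE FIBRE HALF (F1-F4) IS `Cyl/HyJitF.lean` (helper86, 0 sorry):   `hyTau c δ T = τ_T = (c + Tδ, δ)`, `φ.chi`, `φ.shF c δ T f ρ = e^{-iχ_T(ρ - τ_T)} f(ρ - τ_T)`, `HyStg.sh c δ σ`;
`cy_hjf_pk`, `cy_hjf_kr`, `cy_hjf_tr : tr (shF_T f) = shF_T' (tr f)`, `cy_hjf_br : br (l.map sh) (shF_T f) = shF_(tmL k' i) (br l f)`, `cy_hjf_sh_norm`.      Here: only the `enorm` form.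
-/

set_option autoImplicit false

namespace Claimed.Agent.R256

open MeasureTheory
open scoped ENNReal

theorem hj_ws_enorm (φ : HyF) {E : Type} [NormedAddCommGroup E] [NormedSpace ℂ E] (c δ T : ℝ) (f : ℝ × ℝ → E) (ρ : ℝ × ℝ) :
    ‖φ.shF c δ T f ρ‖ₑ = ‖f (ρ - hyTau c δ T)‖ₑ := by
  rw [← ofReal_norm, ← ofReal_norm, cy_hjf_sh_norm]

end Claimed.Agent.R256
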