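import Claimed.Agent.R256.Hyb.JitDefs

/-!
# Row 256, unit HYB, JIT 3: THE ROW MEASURE OF THE JITTERED SYSTEM      (chief helper82; prefix `hj_`)

 (DIS) `hj_dis`      `∫ K d rw' = ∫_{θ ∈ cube} ∫ K(U_θ x) d rw(x) dθ`,   `U_θ = hjU .. T θ` (for EVERY time `T`)
 (AE)  `hj_ae`       null sets of `rw` pull back to null sets of `rw'` under `hjB .. T`
 (MEM) `hj_row_sm`, `hj_row_enorm`, `hj_row_congr`, `hj_row_lint`, `hj_row_mem`, `hj_lf_coe`, `hj_lf_norm`, `hj_v_norm`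
-/

set_option autoImplicit false

namespace Claimed.Agent.R256

open MeasureTheory
open scoped ENNReal

/-- **(DIS)**   `hy_rw_lint (hjP ..) (hj_ok ..) K hK`: `∫⁻ y, ∫⁻ ρ, K (y, ρ) ∂((hjP ..).fib y).nu ∂(p.m.prod cyPi)`;   `((hjP ..).fib y).nu = (p.fib y.1).nu` by `rfl`;   `HyF.nu` = constant • volume: `lintegral_smul_measure`,
`← lintegral_add_right_eq_self _ (hjT .. T y)`;   `lintegral_prod_symm` (`SFinite p.m` from `h.sf`; measurability: `Measurable.lintegral_prod_right'`, `hj_T_meas`);   `cyPi = volume.restrict cyCube`;   for fixed `θ`: `hy_rw_lint p h` backwards (`hj_U_meas`). -/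
theorem hj_dis (p : ChyPar) (h : p.Ok) (Qs : CyT) (L ζ T0 T : ℝ) (K : (p.Om × (ℝ × ℝ × ℝ × ℝ × ℝ)) × ℝ × ℝ → ℝ≥0∞) (hK : Measurable K) :
    ∫⁻ x, K x ∂(hjP p Qs L ζ T0).rw = ∫⁻ θ in cyCube, ∫⁻ x, K (hjU p Qs L ζ T0 T θ x) ∂p.rw := by
  have hsf := h.sf
  have hT := hj_T_meas p h Qs L ζ T0 T
  have hU := hj_U_meas p h Qs L ζ T0 T
  rw [hy_rw_lint (hjP p Qs L ζ T0) (hj_ok p h Qs L ζ T0) K hK]
  have e1 : ∀ y : p.Om × (ℝ × ℝ × ℝ × ℝ × ℝ), ∫⁻ ρ, K (y, ρ) ∂((hjP p Qs L ζ T0).fib y).nu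
      = ENNReal.ofReal (p.sg y.1 / (2 * Real.pi * p.H)) * ∫⁻ ρ : ℝ × ℝ, K (y, ρ + hjT p Qs L ζ T0 T y) := by
    intro y
    change ∫⁻ ρ, K (y, ρ) ∂(p.fib y.1).nu = _
    unfold HyF.nu
    rw [lintegral_smul_measure, lintegral_add_right_eq_self (fun ρ => K (y, ρ)) (hjT p Qs L ζ T0 T y), smul_eq_mul]
    rfl
  have hm : Measurable fun y : p.Om × (ℝ × ℝ × ℝ × ℝ × ℝ) =>
      ENNReal.ofReal (p.sg y.1 / (2 * Real.pi * p.H)) * ∫⁻ ρ : ℝ × ℝ, K (y, ρ + hjT p Qs L ζ T0 T y) := by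
    refine Measurable.mul ((h.mS.comp measurable_fst).div_const _).ennreal_ofReal ?_
    have h2 : Measurable fun z : (p.Om × (ℝ × ℝ × ℝ × ℝ × ℝ)) × (ℝ × ℝ) => K (z.1, z.2 + hjT p Qs L ζ T0 T z.1) :=
      hK.comp (measurable_fst.prodMk (measurable_snd.add (hT.comp measurable_fst)))
    exact h2.lintegral_prod_right'
  rw [lintegral_congr e1]
  change ∫⁻ y, _ ∂(p.m.prod cyPi) = _
  rw [lintegral_prod_symm _ hm.aemeasurable]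
  unfold cyPi
  refine lintegral_congr fun θ => ?_
  have hKθ : Measurable fun x : p.Om × ℝ × ℝ => K (hjU p Qs L ζ T0 T θ x) := hK.comp (hU.comp measurable_prodMk_left)
  rw [hy_rw_lint p h _ hKθ]
  refine lintegral_congr fun ω => ?_
  unfold HyF.nu
  rw [lintegral_smul_measure, smul_eq_mul]
  rfl

/-- **(AE)**   `N` = a measurable null set containing `{x | ¬ P x}` (`toMeasurable`);   `hj_dis` with `K` = indicator of `hjB ⁻¹' N` (`hj_B_meas`), `hj_BU`: the inner integral is `rw N = 0`. -/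
theorem hj_ae (p : ChyPar) (h : p.Ok) (Qs : CyT) (L ζ T0 T : ℝ) {P : p.Om × ℝ × ℝ → Prop} (hP : ∀ᵐ x ∂p.rw, P x) :
    ∀ᵐ x ∂(hjP p Qs L ζ T0).rw, P (hjB p Qs L ζ T0 T x) := by
  have hB := hj_B_meas p h Qs L ζ T0 T
  set N : Set (p.Om × ℝ × ℝ) := toMeasurable p.rw {x | ¬ P x} with hN
  have hNm : MeasurableSet N := measurableSet_toMeasurable _ _
  have hN0 : p.rw N = 0 := by rw [hN, measure_toMeasurable]; exact hP
  have hsub : {x | ¬ P x} ⊆ N := subset_toMeasurable _ _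
  have hz : (hjP p Qs L ζ T0).rw (hjB p Qs L ζ T0 T ⁻¹' N) = 0 := by
    rw [← lintegral_indicator_one (hB hNm),
      hj_dis p h Qs L ζ T0 T _ (measurable_one.indicator (hB hNm))]
    have e : ∀ θ : ℝ × ℝ × ℝ × ℝ × ℝ,
        ∫⁻ x, (hjB p Qs L ζ T0 T ⁻¹' N).indicator 1 (hjU p Qs L ζ T0 T θ x) ∂p.rw = 0 := by
      intro θ
      have e2 : (fun x => (hjB p Qs L ζ T0 T ⁻¹' N).indicator (1 : (p.Om × (ℝ × ℝ × ℝ × ℝ × ℝ)) × ℝ × ℝ → ℝ≥0∞) (hjU p Qs L ζ T0 T θ x)) = N.indicator 1 := by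
        funext x
        by_cases hx : x ∈ N
        · rw [Set.indicator_of_mem hx, Set.indicator_of_mem (by rw [Set.mem_preimage, hj_BU]; exact hx)]
          rfl
        · rw [Set.indicator_of_notMem hx, Set.indicator_of_notMem (by rw [Set.mem_preimage, hj_BU]; exact hx)]
      rw [e2, lintegral_indicator_one hNm, hN0]
    simp only [e, lintegral_zero]
  refine measure_mono_null (fun x hx => ?_) hz
  exact hsub hx

theorem hj_row_enorm (p : ChyPar) (Qs : CyT) (L ζ T0 T : ℝ) (F : p.Om × ℝ × ℝ → p.Fb) (x : (p.Om × (ℝ × ℝ × ℝ × ℝ × ℝ)) × ℝ × ℝ) :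
    ‖hjRow p Qs L ζ T0 T F x‖ₑ = ‖F (hjB p Qs L ζ T0 T x)‖ₑ :=
  hj_ws_enorm _ _ _ _ _ _

/-- (`hjRow`, `HyF.shF`, `HyF.chi`, `ChyPar.fib`: a measurable scalar (`hj_C_meas`, `hj_Dl_meas`, `h.mS`, `Complex.measurable_exp`, `Complex.measurable_ofReal`) times `F ∘ hjB` (`hF.comp_measurable (hj_B_meas ..)`);  `StronglyMeasurable.smul`) -/
theorem hj_row_sm (p : ChyPar) (h : p.Ok) (Qs : CyT) (L ζ T0 T : ℝ) (F : p.Om × ℝ × ℝ → p.Fb) (hF : StronglyMeasurable F) :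
    StronglyMeasurable (hjRow p Qs L ζ T0 T F) := by
  have hC := (hj_C_meas p h Qs L ζ T0).comp (measurable_fst : Measurable (Prod.fst : (p.Om × (ℝ × ℝ × ℝ × ℝ × ℝ)) × ℝ × ℝ → p.Om × (ℝ × ℝ × ℝ × ℝ × ℝ)))
  have hD := (hj_Dl_meas p h Qs L ζ T0).comp (measurable_fst : Measurable (Prod.fst : (p.Om × (ℝ × ℝ × ℝ × ℝ × ℝ)) × ℝ × ℝ → p.Om × (ℝ × ℝ × ℝ × ℝ × ℝ)))
  have hS : Measurable fun x : (p.Om × (ℝ × ℝ × ℝ × ℝ × ℝ)) × ℝ × ℝ => p.sg x.1.1 := h.mS.comp (measurable_fst.comp measurable_fst)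
  simp only [Function.comp_def] at hC hD
  have hsc : Measurable fun x : (p.Om × (ℝ × ℝ × ℝ × ℝ × ℝ)) × ℝ × ℝ =>
      Complex.exp (-(Complex.I * (((p.fib x.1.1).chi (hjC p Qs L ζ T0 x.1) (hjDl p Qs L ζ T0 x.1) T
        (x.2 - hyTau (hjC p Qs L ζ T0 x.1) (hjDl p Qs L ζ T0 x.1) T) : ℝ) : ℂ))) := by
    apply Complex.measurable_exp.comp
    apply Measurable.neg
    apply Measurable.const_mul
    apply Complex.measurable_ofReal.comp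
    unfold HyF.chi ChyPar.fib hyTau
    simp only [Prod.snd_sub]
    fun_prop
  exact hsc.stronglyMeasurable.smul (hF.comp_measurable (hj_B_meas p h Qs L ζ T0 T))

/-- (`hj_ae`; `hjRow .. F x` only depends on `F (hjB x)`) -/
theorem hj_row_congr (p : ChyPar) (h : p.Ok) (Qs : CyT) (L ζ T0 T : ℝ) {F F' : p.Om × ℝ × ℝ → p.Fb} (hF : F =ᵐ[p.rw] F') :
    hjRow p Qs L ζ T0 T F =ᵐ[(hjP p Qs L ζ T0).rw] hjRow p Qs L ζ T0 T F' := by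
  filter_upwards [hj_ae p h Qs L ζ T0 T hF] with x hx
  unfold hjRow HyF.shF
  exact congrArg _ hx

/-- (`hj_row_enorm`, `hj_dis`, `hj_BU`, `lintegral_const`, the cube has volume one: `cy_cj_pi_prob`) -/
theorem hj_row_lint (p : ChyPar) (h : p.Ok) (Qs : CyT) (L ζ T0 T : ℝ) (F : p.Om × ℝ × ℝ → p.Fb) (hF : StronglyMeasurable F) :
    ∫⁻ x, ‖hjRow p Qs L ζ T0 T F x‖ₑ ^ 2 ∂(hjP p Qs L ζ T0).rw = ∫⁻ x, ‖F x‖ₑ ^ 2 ∂p.rw := by
  have hK : Measurable fun x : (p.Om × (ℝ × ℝ × ℝ × ℝ × ℝ)) × ℝ × ℝ => ‖F (hjB p Qs L ζ T0 T x)‖ₑ ^ 2 :=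
    ((hF.comp_measurable (hj_B_meas p h Qs L ζ T0 T)).enorm).pow_const 2
  simp only [hj_row_enorm]
  rw [hj_dis p h Qs L ζ T0 T _ hK]
  simp only [hj_BU]
  rw [lintegral_const]
  have : (volume.restrict cyCube) Set.univ = 1 := cy_cj_pi_prob.measure_univ
  rw [this, mul_one]

/-- (`hy_memLp_two` / `hy_elp_two`, `hj_row_sm` with `Lp.stronglyMeasurable F`, `hj_row_lint`, `hy_lint_of_memLp`) -/
theorem hj_row_mem (p : ChyPar) (h : p.Ok) (Qs : CyT) (L ζ T0 T : ℝ) (F : Lp p.Fb 2 p.rw) :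
    MemLp (hjRow p Qs L ζ T0 T (F : p.Om × ℝ × ℝ → p.Fb)) 2 (hjP p Qs L ζ T0).rw := by
  refine hy_memLp_two _ _ (hj_row_sm p h Qs L ζ T0 T _ (Lp.stronglyMeasurable F)).aestronglyMeasurable ?_
  rw [hj_row_lint p h Qs L ζ T0 T _ (Lp.stronglyMeasurable F)]
  exact hy_lint_of_memLp _ _ (Lp.memLp F)

theorem hj_lf_coe (p : ChyPar) (h : p.Ok) (Qs : CyT) (L ζ T0 : ℝ) (F : Lp p.Fb 2 p.rw) :
    (hjLf p Qs L ζ T0 F : (p.Om × (ℝ × ℝ × ℝ × ℝ × ℝ)) × ℝ × ℝ → p.Fb) =ᵐ[(hjP p Qs L ζ T0).rw] hjRow p Qs L ζ T0 T0 (F : p.Om × ℝ × ℝ → p.Fb) := by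
  unfold hjLf
  rw [dif_pos (hj_row_mem p h Qs L ζ T0 T0 F)]
  exact MemLp.coeFn_toLp _

/-- (`hy_lk_normsq` on both sides, `hj_lf_coe`, `hj_row_lint`) -/
theorem hj_lf_norm (p : ChyPar) (h : p.Ok) (Qs : CyT) (L ζ T0 : ℝ) (F : Lp p.Fb 2 p.rw) : ‖hjLf p Qs L ζ T0 F‖ = ‖F‖ := by
  have e1 : ENNReal.ofReal (‖hjLf p Qs L ζ T0 F‖ ^ 2) = ENNReal.ofReal (‖F‖ ^ 2) := by
    rw [← hy_lk_normsq, ← hy_lk_normsq, ← hj_row_lint p h Qs L ζ T0 T0 _ (Lp.stronglyMeasurable F)]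
    refine lintegral_congr_ae ?_
    filter_upwards [hj_lf_coe p h Qs L ζ T0 F] with x hx
    rw [hx]
  have e2 : ‖hjLf p Qs L ζ T0 F‖ ^ 2 = ‖F‖ ^ 2 := (ENNReal.ofReal_eq_ofReal_iff (by positivity) (by positivity)).1 e1
  exact (pow_left_inj₀ (norm_nonneg _) (norm_nonneg _) two_ne_zero).1 e2

/-- (`gn_adj_norm_le (hy_tight η _ (hj_ok ..))`, `hj_lf_norm`, `hy_an_norm`) -/
theorem hj_v_norm (p : ChyPar) (h : p.Ok) (Qs : CyT) (L ζ T0 : ℝ) (k0 : ℕ) (v : Lp p.Fb 2 (p.m.prod (volume : Measure ℝ))) :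
    ‖hjV p Qs L ζ T0 k0 v‖ ≤ ‖v‖ := by
  unfold hjV
  have h1 : ‖ContinuousLinearMap.adjoint ((hjP p Qs L ζ T0).an T0 k0) (hjLf p Qs L ζ T0 (p.an T0 k0 v))‖ ≤ ‖hjLf p Qs L ζ T0 (p.an T0 k0 v)‖ :=
    gn_adj_norm_le (hy_tight 0 _ (hj_ok p h Qs L ζ T0)) T0 k0 0 (hjLf p Qs L ζ T0 (p.an T0 k0 v))
  refine h1.trans ?_
  rw [hj_lf_norm p h, hy_an_norm p h]

end Claimed.Agent.R256
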