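import Claimed.Agent.R256.Hyb.JitMeas

/-!
# Row 256, unit HYB, JIT 4: ROWS AND MASSES OF THE JITTERED BRANCHES      (chief helper82; prefix `hj_`)

 (ROW) `hj_rows`   the rows of a branch of the jittered experiment = the Weyl shift (at the time of the reading) of the rows of the old branch
 (EN)  `hj_en`     masses: `en' G = ∫_{θ ∈ cube} en (G ∘ U_θ) dθ`      (twin of `cy_cj_fub`)
-/

set_option autoImplicit false

namespace Claimed.Agent.R256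

open MeasureTheory
open scoped ENNReal

/-- the translated masks are masks -/
theorem hj_stg_mask (η : ℝ) (p : ChyPar) (h : p.Ok) (Qs : CyT) (L ζ T0 : ℝ) (st : List (Stg (p.sys η))) (hst : ∀ σ ∈ st, ∀ j, IsMask (σ.M j)) :
    ∀ σ ∈ st.map (hjStg η p Qs L ζ T0), ∀ j, IsMask (σ.M j) := by
  intro σ hσ j
  obtain ⟨τ, hτ, rfl⟩ := List.mem_map.1 hσ
  exact ⟨(hst τ hτ j).1.comp (hj_B_meas p h Qs L ζ T0 _), fun x => (hst τ hτ j).2 _⟩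

/-- the fibre stages of the jittered stack -/
theorem hj_stg_fib (η : ℝ) (p : ChyPar) (Qs : CyT) (L ζ T0 : ℝ) (st : List (Stg (p.sys η))) (y : p.Om × (ℝ × ℝ × ℝ × ℝ × ℝ)) :
    (st.map (hjStg η p Qs L ζ T0)).map ((hjP p Qs L ζ T0).fst η y) = (st.map (p.fst η y.1)).map (HyStg.sh (hjC p Qs L ζ T0 y) (hjDl p Qs L ζ T0 y)) := by
  rw [List.map_map, List.map_map]
  rfl

/-- **(ROW)**   `F = p.an T0 k0 v`;  `v = an† F` (`gn_adj_an (hy_tight η p h) T0 k0 0`, every state is in `Pl`: `hy_an_norm`).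
(a) `hy_run_rows (hjP ..) (hj_ok ..) η k' i _ (hj_stg_mask ..) T0 k0 (hjLf .. F)`:  new rows `=ᵐ fun x => ((hjP ..).fib x.1).br k' i (..) T0 k0 (fun ρ => hjLf F (x.1, ρ)) x.2`;
(b) for a.e. `y`: `(fun ρ => hjLf F (y, ρ)) =ᵐ[ν] (p.fib y.1).shF c δ T0 (fun ρ => F (y.1, ρ))` (`hy_i3_fib_ae` on `hj_lf_coe`; lift: `hy_i3_lift_ae`), `hy_i3_br_congr`;   `(hjP ..).fib y = p.fib y.1` by `rfl`;
(c) `hj_stg_fib`, `cy_hjf_br`:  `= hjRow .. (tmL k' i) R x`, `R x = (p.fib x.1).br k' i (st.map (p.fst η x.1)) T0 k0 (fun ρ => F (x.1, ρ)) x.2`;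
(d) `hy_run_rows p h η k' i st hst T0 k0 F` + `hj_row_congr`. -/
theorem hj_rows (η : ℝ) (p : ChyPar) (h : p.Ok) (Qs : CyT) (L ζ T0 : ℝ) (k0 k' i : ℕ) (st : List (Stg (p.sys η))) (hst : ∀ σ ∈ st, ∀ j, IsMask (σ.M j))
    (v : Lp p.Fb 2 (p.m.prod (volume : Measure ℝ))) :
    ((hjP p Qs L ζ T0).an (tmL k' i) k' (Xp.run (P := (hjP p Qs L ζ T0).sys η) k' i (st.map (hjStg η p Qs L ζ T0)) (hjV p Qs L ζ T0 k0 v)) :
        (p.Om × (ℝ × ℝ × ℝ × ℝ × ℝ)) × ℝ × ℝ → p.Fb)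
      =ᵐ[(hjP p Qs L ζ T0).rw] hjRow p Qs L ζ T0 (tmL k' i) (p.an (tmL k' i) k' (Xp.run (P := p.sys η) k' i st v) : p.Om × ℝ × ℝ → p.Fb) := by
  have hv : ContinuousLinearMap.adjoint (p.an T0 k0) (p.an T0 k0 v) = v :=
    gn_adj_an (P := p.sys η) (hy_tight η p h) T0 k0 0 (v := v) (fun T k => hy_an_norm p h T k v)
  have a := hy_run_rows (hjP p Qs L ζ T0) (hj_ok p h Qs L ζ T0) η k' i (st.map (hjStg η p Qs L ζ T0)) (hj_stg_mask η p h Qs L ζ T0 st hst)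
    T0 k0 (hjLf p Qs L ζ T0 (p.an T0 k0 v))
  have b := hy_i3_lift_ae (hjP p Qs L ζ T0) (hy_i3_fib_ae (hjP p Qs L ζ T0) (hj_ok p h Qs L ζ T0) (hj_lf_coe p h Qs L ζ T0 (p.an T0 k0 v)))
  have d := hy_run_rows p h η k' i st hst T0 k0 (p.an T0 k0 v)
  rw [hv] at d
  refine Filter.EventuallyEq.trans ?_ (hj_row_congr p h Qs L ζ T0 (tmL k' i) d).symm
  filter_upwards [a, b] with x ax bx
  refine ax.trans ?_
  rw [hy_i3_br_congr ((hjP p Qs L ζ T0).fib x.1) k' i _ T0 k0 bx, hj_stg_fib]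
  exact congrFun (cy_hjf_br (p.fib x.1.1) (hy_fib_ok p h x.1.1) (hjC p Qs L ζ T0 x.1) (hjDl p Qs L ζ T0 x.1) k' i (st.map (p.fst η x.1.1)) T0 k0
    (fun ρ => (p.an T0 k0 v : p.Om × ℝ × ℝ → p.Fb) (x.1.1, ρ))) x.2

/-- **(EN)**   `W = p.an (tmL k' i) k' (run st v)` (strongly measurable representative).
`ofReal LHS = ∫⁻ ofReal (G x) ‖W (hjB x)‖ₑ² d rw'` (`hy_en_lint` for `hjP` with `R = hjRow .. W`: `hj_rows`; `hj_row_enorm`) `= ∫⁻ θ in cube, ∫⁻ ofReal (G (U_θ x)) ‖W x‖ₑ² d rw` (`hj_dis`, `hj_BU`) `= ∫⁻ θ in cube, ofReal (en (G ∘ U_θ))` (`hy_en_lint` for `p`).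
RHS: `ofReal_integral_eq_lintegral_ofReal`: `θ ↦ en (G ∘ U_θ)` is nonnegative, `≤ ‖W‖²`, measurable (`= toReal` of a `lintegral` which is measurable in `θ`: `Measurable.lintegral_prod_right'`, `hj_U_meas`, `SFinite p.rw`: `hy_rw_sfin`), the cube has finite measure.
Both sides are nonnegative. -/
theorem hj_en (η : ℝ) (p : ChyPar) (h : p.Ok) (Qs : CyT) (L ζ T0 : ℝ) (k0 k' i b : ℕ) (st : List (Stg (p.sys η))) (hst : ∀ σ ∈ st, ∀ j, IsMask (σ.M j))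
    (v : Lp p.Fb 2 (p.m.prod (volume : Measure ℝ))) (G : (p.Om × (ℝ × ℝ × ℝ × ℝ × ℝ)) × ℝ × ℝ → ℝ) (hG : IsMask G) :
    ((hjP p Qs L ζ T0).sys η).en (tmL k' i) k' b G (Xp.run (P := (hjP p Qs L ζ T0).sys η) k' i (st.map (hjStg η p Qs L ζ T0)) (hjV p Qs L ζ T0 k0 v))
      = ∫ θ in cyCube, (p.sys η).en (tmL k' i) k' b (fun x => G (hjU p Qs L ζ T0 (tmL k' i) θ x)) (Xp.run (P := p.sys η) k' i st v) := by
  have := hy_rw_sfin p h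
  obtain ⟨W, hW⟩ : ∃ W : Lp p.Fb 2 p.rw, W = p.an (tmL k' i) k' (Xp.run (P := p.sys η) k' i st v) := ⟨_, rfl⟩
  have hWm : Measurable fun x : p.Om × ℝ × ℝ => ‖(W : p.Om × ℝ × ℝ → p.Fb) x‖ₑ := (Lp.stronglyMeasurable W).enorm
  have hUm := hj_U_meas p h Qs L ζ T0 (tmL k' i)
  have hGU : ∀ θ, IsMask fun x : p.Om × ℝ × ℝ => G (hjU p Qs L ζ T0 (tmL k' i) θ x) := fun θ =>
    ⟨hG.1.comp (hUm.comp measurable_prodMk_left), fun x => hG.2 _⟩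
  -- the left side
  have e1 := hy_en_lint (hjP p Qs L ζ T0) (hj_ok p h Qs L ζ T0) η (tmL k' i) k' b G hG.1 (fun x => (hG.2 x).1) (fun x => (hG.2 x).2)
    (Xp.run (P := (hjP p Qs L ζ T0).sys η) k' i (st.map (hjStg η p Qs L ζ T0)) (hjV p Qs L ζ T0 k0 v))
    (hjRow p Qs L ζ T0 (tmL k' i) (W : p.Om × ℝ × ℝ → p.Fb)) (by rw [hW]; exact hj_rows η p h Qs L ζ T0 k0 k' i st hst v)
  have hK : Measurable fun x : (p.Om × (ℝ × ℝ × ℝ × ℝ × ℝ)) × ℝ × ℝ =>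
      ENNReal.ofReal (G x) * ‖(W : p.Om × ℝ × ℝ → p.Fb) (hjB p Qs L ζ T0 (tmL k' i) x)‖ₑ ^ 2 :=
    hG.1.ennreal_ofReal.mul ((hWm.comp (hj_B_meas p h Qs L ζ T0 (tmL k' i))).pow_const 2)
  have e2 := hj_dis p h Qs L ζ T0 (tmL k' i) _ hK
  simp only [hj_row_enorm] at e1
  simp only [hj_BU] at e2
  -- the slices
  have e3 : ∀ θ, ENNReal.ofReal ((p.sys η).en (tmL k' i) k' b (fun x => G (hjU p Qs L ζ T0 (tmL k' i) θ x)) (Xp.run (P := p.sys η) k' i st v))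
      = ∫⁻ x, ENNReal.ofReal (G (hjU p Qs L ζ T0 (tmL k' i) θ x)) * ‖(W : p.Om × ℝ × ℝ → p.Fb) x‖ₑ ^ 2 ∂p.rw := fun θ =>
    hy_en_lint p h η (tmL k' i) k' b _ (hGU θ).1 (fun x => ((hGU θ).2 x).1) (fun x => ((hGU θ).2 x).2) _ _ (by rw [hW]; exact Filter.EventuallyEq.rfl)
  have hnn : ∀ θ, 0 ≤ (p.sys η).en (tmL k' i) k' b (fun x => G (hjU p Qs L ζ T0 (tmL k' i) θ x)) (Xp.run (P := p.sys η) k' i st v) := fun θ =>
    gn_en_nonneg (P := p.sys η) (tmL k' i) k' b (θ := fun x => G (hjU p Qs L ζ T0 (tmL k' i) θ x)) (fun x => ((hGU θ).2 x).1) _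
  have e4 : ENNReal.ofReal (((hjP p Qs L ζ T0).sys η).en (tmL k' i) k' b G
        (Xp.run (P := (hjP p Qs L ζ T0).sys η) k' i (st.map (hjStg η p Qs L ζ T0)) (hjV p Qs L ζ T0 k0 v)))
      = ∫⁻ θ in cyCube, ENNReal.ofReal ((p.sys η).en (tmL k' i) k' b (fun x => G (hjU p Qs L ζ T0 (tmL k' i) θ x)) (Xp.run (P := p.sys η) k' i st v)) := by
    rw [e1, e2]
    exact lintegral_congr fun θ => (e3 θ).symm
  -- measurability in `θ`
  have hJ : Measurable fun z : (ℝ × ℝ × ℝ × ℝ × ℝ) × (p.Om × ℝ × ℝ) =>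
      ENNReal.ofReal (G (hjU p Qs L ζ T0 (tmL k' i) z.1 z.2)) * ‖(W : p.Om × ℝ × ℝ → p.Fb) z.2‖ₑ ^ 2 :=
    (hG.1.comp hUm).ennreal_ofReal.mul ((hWm.comp measurable_snd).pow_const 2)
  have hm : Measurable fun θ => (p.sys η).en (tmL k' i) k' b (fun x => G (hjU p Qs L ζ T0 (tmL k' i) θ x)) (Xp.run (P := p.sys η) k' i st v) := by
    have h1 : Measurable fun θ => (∫⁻ x, ENNReal.ofReal (G (hjU p Qs L ζ T0 (tmL k' i) θ x)) * ‖(W : p.Om × ℝ × ℝ → p.Fb) x‖ₑ ^ 2 ∂p.rw).toReal :=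
      hJ.lintegral_prod_right'.ennreal_toReal
    have h2 : (fun θ => (p.sys η).en (tmL k' i) k' b (fun x => G (hjU p Qs L ζ T0 (tmL k' i) θ x)) (Xp.run (P := p.sys η) k' i st v))
        = fun θ => (∫⁻ x, ENNReal.ofReal (G (hjU p Qs L ζ T0 (tmL k' i) θ x)) * ‖(W : p.Om × ℝ × ℝ → p.Fb) x‖ₑ ^ 2 ∂p.rw).toReal := by
      funext θ
      rw [← e3 θ, ENNReal.toReal_ofReal (hnn θ)]
    rw [h2]
    exact h1
  have hint : Integrable (fun θ => (p.sys η).en (tmL k' i) k' b (fun x => G (hjU p Qs L ζ T0 (tmL k' i) θ x)) (Xp.run (P := p.sys η) k' i st v))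
      (volume.restrict cyCube) := by
    refine ⟨hm.aestronglyMeasurable, ?_⟩
    unfold HasFiniteIntegral
    have e5 : ∀ θ, ‖(p.sys η).en (tmL k' i) k' b (fun x => G (hjU p Qs L ζ T0 (tmL k' i) θ x)) (Xp.run (P := p.sys η) k' i st v)‖ₑ
        = ENNReal.ofReal ((p.sys η).en (tmL k' i) k' b (fun x => G (hjU p Qs L ζ T0 (tmL k' i) θ x)) (Xp.run (P := p.sys η) k' i st v)) := fun θ => by
      rw [← ofReal_norm, Real.norm_of_nonneg (hnn θ)]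
    simp only [e5]
    rw [← e4]
    exact ENNReal.ofReal_lt_top
  have e6 := ofReal_integral_eq_lintegral_ofReal hint (Filter.Eventually.of_forall hnn)
  rw [← e4] at e6
  have hl : 0 ≤ ((hjP p Qs L ζ T0).sys η).en (tmL k' i) k' b G
      (Xp.run (P := (hjP p Qs L ζ T0).sys η) k' i (st.map (hjStg η p Qs L ζ T0)) (hjV p Qs L ζ T0 k0 v)) :=
    gn_en_nonneg (P := (hjP p Qs L ζ T0).sys η) (tmL k' i) k' b (θ := G) (fun x => (hG.2 x).1) _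
  exact ((ENNReal.ofReal_eq_ofReal_iff (integral_nonneg hnn) hl).1 e6).symm

end Claimed.Agent.R256
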