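import Claimed.Agent.R256.Hyb.Defs

/-!
# Row 256, unit HYB, file 2: THE GAUSSIAN KERNEL      (chief helper82; prefix `hy_`)      Base-free, paper-free: real/complex Gaussian integrals only.

`kr T k T' k' ρ' ρ = ∫ pk' conj pk du` is ONE complex Gaussian integral.   With `q = q k`, `q' = q k'`, `t = T' - T`, `A = (q²+q'²)/2`, `b = tH/(2σ)`, `p0 = σN/H`, `p0' = σN'/H`:
  real part of the exponent   `-q'²(u-p0')²/2 - q²(u-p0)²/2 = -A (u-uc)² - q²q'²(p0-p0')²/(2(q²+q'²))`,   `uc = (q²p0+q'²p0')/(q²+q'²)`;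
  imaginary part              `u (D'-D) - b u² + const`;   with `u = uc + x`:   `x (D'-D-2 b uc) - b x² + const`,   `2 b uc = t nc`.
  `∫ exp(-(A+ib)x² + i x y) dx = sqrt(π/(A+ib)) exp(-y²/(4(A+ib)))`     (Mathlib `integral_cexp_quadratic`),    `Re 1/(A+ib) = A/(A²+b²)`.
-/

set_option autoImplicit false

namespace Claimed.Agent.R256

open MeasureTheory
open scoped ENNReal ComplexConjugate

/-! ### elementary facts -/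

/-- **(K0)** `q, d > 0`, `q d = H`, `q = ℓ d`, `q² = Hℓ`, `d² = H/ℓ`, monotonicity in the depth.  ~60 l. -/
theorem hy_qd (φ : HyF) (h : φ.Ok) (k : ℕ) :
    0 < φ.q k ∧ 0 < φ.d k ∧ φ.q k * φ.d k = φ.H ∧ φ.q k = (2 : ℝ)⁻¹ ^ k * φ.d k ∧ φ.q k ^ 2 = φ.H * (2 : ℝ)⁻¹ ^ k ∧
      φ.d k ^ 2 = φ.H * 2 ^ k := by
  have hH := h.H_pos
  have h2 : (0 : ℝ) < 2 ^ k := by positivity
  have hq : 0 < φ.q k := Real.sqrt_pos.2 (by positivity)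
  have hd : 0 < φ.d k := Real.sqrt_pos.2 (by positivity)
  have hq2 : φ.q k ^ 2 = φ.H * (2 : ℝ)⁻¹ ^ k := by
    unfold HyF.q
    rw [Real.sq_sqrt (by positivity), inv_pow, div_eq_mul_inv]
  have hd2 : φ.d k ^ 2 = φ.H * 2 ^ k := by
    unfold HyF.d
    rw [Real.sq_sqrt (by positivity)]
  refine ⟨hq, hd, ?_, ?_, hq2, hd2⟩
  · refine (pow_left_inj₀ (by positivity) hH.le (two_ne_zero)).1 ?_
    rw [mul_pow, hq2, hd2, inv_pow]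
    field_simp
  · refine (pow_left_inj₀ hq.le (by positivity) (two_ne_zero)).1 ?_
    rw [mul_pow, hq2, hd2, inv_pow]
    field_simp

theorem hy_qd_mono (φ : HyF) (h : φ.Ok) {k k' : ℕ} (hk : k ≤ k') : φ.q k' ≤ φ.q k ∧ φ.d k ≤ φ.d k' := by
  have hH := h.H_pos
  have h2 : (2 : ℝ) ^ k ≤ 2 ^ k' := pow_le_pow_right₀ (by norm_num) hk
  constructor
  · exact Real.sqrt_le_sqrt (div_le_div_of_nonneg_left hH.le (by positivity) h2)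
  · exact Real.sqrt_le_sqrt (mul_le_mul_of_nonneg_left h2 hH.le)

/-- `q (k+j) = 2^(-j/2) q k`: in squared form -/
theorem hy_q_add (φ : HyF) (h : φ.Ok) (k j : ℕ) : φ.q (k + 2 * j) = (2 : ℝ)⁻¹ ^ j * φ.q k ∧ φ.d (k + 2 * j) = 2 ^ j * φ.d k := by
  obtain ⟨hq, hd, -, -, hq2, hd2⟩ := hy_qd φ h k
  obtain ⟨hq', hd', -, -, hq2', hd2'⟩ := hy_qd φ h (k + 2 * j)
  constructor
  · refine (pow_left_inj₀ hq'.le (by positivity) (two_ne_zero)).1 ?_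
    rw [mul_pow, hq2, hq2', pow_add, pow_mul']
    ring
  · refine (pow_left_inj₀ hd'.le (by positivity) (two_ne_zero)).1 ?_
    rw [mul_pow, hd2, hd2', pow_add, pow_mul']
    ring

/-- **(K0')** modulus, continuity, integrability of a packet.  ~100 l. -/
theorem hy_pk_norm (φ : HyF) (T : ℝ) (k : ℕ) (ρ : ℝ × ℝ) (u : ℝ) :
    ‖φ.pk T k ρ u‖ = (φ.q k ^ 2 / Real.pi) ^ (1 / 4 : ℝ) * Real.exp (-(φ.q k ^ 2 * (u - φ.sg * ρ.2 / φ.H) ^ 2 / 2)) := by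
  unfold HyF.pk
  rw [norm_mul, Complex.norm_exp_I_mul_ofReal, mul_one, Complex.norm_real, Real.norm_of_nonneg]
  exact mul_nonneg (Real.rpow_nonneg (div_nonneg (sq_nonneg _) Real.pi_pos.le) _) (Real.exp_pos _).le

theorem hy_pk_cont (φ : HyF) (T : ℝ) (k : ℕ) : Continuous fun z : (ℝ × ℝ) × ℝ => φ.pk T k z.1 z.2 := by
  unfold HyF.pk
  have h1 : Continuous fun z : (ℝ × ℝ) × ℝ => z.2 - φ.sg * z.1.2 / φ.H :=
    continuous_snd.sub ((continuous_const.mul (continuous_snd.comp continuous_fst)).div_const _)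
  have h2 : Continuous fun z : (ℝ × ℝ) × ℝ =>
      (φ.q k ^ 2 / Real.pi) ^ (1 / 4 : ℝ) * Real.exp (-(φ.q k ^ 2 * (z.2 - φ.sg * z.1.2 / φ.H) ^ 2 / 2)) :=
    continuous_const.mul (Real.continuous_exp.comp (((continuous_const.mul (h1.pow 2)).div_const _).neg))
  have h3 : Continuous fun z : (ℝ × ℝ) × ℝ => (z.2 - φ.sg * z.1.2 / φ.H) * z.1.1 - T * φ.H * z.2 ^ 2 / (2 * φ.sg) :=
    (h1.mul (continuous_fst.comp continuous_fst)).sub ((continuous_const.mul (continuous_snd.pow 2)).div_const _)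
  exact (Complex.continuous_ofReal.comp h2).mul
    (Complex.continuous_exp.comp (continuous_const.mul (Complex.continuous_ofReal.comp h3)))

theorem hy_pk_memLp (φ : HyF) (h : φ.Ok) (T : ℝ) (k : ℕ) (ρ : ℝ × ℝ) :
    MemLp (φ.pk T k ρ) 2 volume ∧ MemLp (φ.pk T k ρ) 1 volume ∧ ∫ u, ‖φ.pk T k ρ u‖ ^ 2 = 1 := by
  have hq := (hy_qd φ h k).1
  have ha : 0 < φ.q k ^ 2 := by positivity
  have hpi := Real.pi_pos
  have hcont : Continuous (φ.pk T k ρ) := by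
    have h1 : Continuous fun u : ℝ => (ρ, u) := continuous_const.prodMk continuous_id
    have h2 : Continuous fun u : ℝ => φ.pk T k (ρ, u).1 (ρ, u).2 := (hy_pk_cont φ T k).comp h1
    exact h2
  have hm : AEStronglyMeasurable (φ.pk T k ρ) volume := hcont.aestronglyMeasurable
  have hsq : ∀ u, ‖φ.pk T k ρ u‖ ^ 2 = ((φ.q k ^ 2 / Real.pi) ^ (1 / 4 : ℝ)) ^ 2 * Real.exp (-(φ.q k ^ 2) * (u - φ.sg * ρ.2 / φ.H) ^ 2) := by
    intro u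
    rw [hy_pk_norm, mul_pow, ← Real.exp_nat_mul]
    congr 2
    push_cast
    ring
  have hn : ∀ u, ‖φ.pk T k ρ u‖ = (φ.q k ^ 2 / Real.pi) ^ (1 / 4 : ℝ) * Real.exp (-(φ.q k ^ 2 / 2) * (u - φ.sg * ρ.2 / φ.H) ^ 2) := by
    intro u
    rw [hy_pk_norm]
    congr 2
    ring
  refine ⟨?_, ?_, ?_⟩
  · rw [memLp_two_iff_integrable_sq_norm hm]
    simp_rw [hsq]
    exact ((integrable_exp_neg_mul_sq ha).comp_sub_right (φ.sg * ρ.2 / φ.H)).const_mul _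
  · rw [memLp_one_iff_integrable, ← integrable_norm_iff hm]
    simp_rw [hn]
    exact ((integrable_exp_neg_mul_sq (by positivity : 0 < φ.q k ^ 2 / 2)).comp_sub_right (φ.sg * ρ.2 / φ.H)).const_mul _
  · simp_rw [hsq]
    rw [integral_const_mul, integral_sub_right_eq_self (fun x => Real.exp (-(φ.q k ^ 2) * x ^ 2)), integral_gaussian,
      ← Real.rpow_natCast, ← Real.rpow_mul (by positivity), show (1 / 4 : ℝ) * ((2 : ℕ) : ℝ) = 1 / 2 by norm_num, ← Real.sqrt_eq_rpow,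
      ← Real.sqrt_mul (by positivity)]
    have e : φ.q k ^ 2 / Real.pi * (Real.pi / φ.q k ^ 2) = 1 := by field_simp
    rw [e, Real.sqrt_one]

/-! ### the exact modulus -/

theorem hy_k1_alg (c c' a a' p p' D D' s s' u w w' : ℝ) (hw : w = s * u ^ 2) (hw' : w' = s' * u ^ 2) :
    ((c' * Real.exp (-(a' * (u - p') ^ 2 / 2)) : ℝ) : ℂ) * Complex.exp (Complex.I * (((u - p') * D' - w' : ℝ) : ℂ)) *
      conj (((c * Real.exp (-(a * (u - p) ^ 2 / 2)) : ℝ) : ℂ) * Complex.exp (Complex.I * (((u - p) * D - w : ℝ) : ℂ))) =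
    ((c' * c : ℝ) : ℂ) * Complex.exp (-((((a + a') / 2 : ℝ) : ℂ) + Complex.I * ((s' - s : ℝ) : ℂ)) * (u : ℂ) ^ 2 +
      (((a' * p' + a * p : ℝ) : ℂ) + Complex.I * ((D' - D : ℝ) : ℂ)) * (u : ℂ) +
      (((-(a' * p' ^ 2 + a * p ^ 2) / 2 : ℝ) : ℂ) + Complex.I * ((p * D - p' * D' : ℝ) : ℂ))) := by
  rw [map_mul, Complex.conj_ofReal, ← Complex.exp_conj, map_mul, Complex.conj_I, Complex.conj_ofReal, hw, hw']
  push_cast
  have e : ∀ x y z t : ℂ, (c' : ℂ) * x * y * ((c : ℂ) * z * t) = (c' : ℂ) * c * (x * y * (z * t)) := fun x y z t => by ring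
  rw [e, ← Complex.exp_add, ← Complex.exp_add, ← Complex.exp_add]
  congr 2
  ring

theorem hy_k1_re (A b B y : ℝ) (hA : 0 < A) :
    ((((B : ℂ) + Complex.I * (y : ℂ)) ^ 2) / (4 * -((A : ℂ) + Complex.I * (b : ℂ)))).re
      = -((A * (B ^ 2 - y ^ 2) + 2 * b * B * y) / (4 * (A ^ 2 + b ^ 2))) := by
  have hS : 0 < A ^ 2 + b ^ 2 := by positivity
  have hz : (A : ℂ) + Complex.I * (b : ℂ) ≠ 0 := by
    intro h0
    have := congrArg Complex.re h0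
    simp at this
    linarith
  have e : (((B : ℂ) + Complex.I * (y : ℂ)) ^ 2) / (4 * -((A : ℂ) + Complex.I * (b : ℂ)))
      = ((-((A * (B ^ 2 - y ^ 2) + 2 * b * B * y) / (4 * (A ^ 2 + b ^ 2))) : ℝ) : ℂ)
        + Complex.I * ((-((2 * A * B * y - b * (B ^ 2 - y ^ 2)) / (4 * (A ^ 2 + b ^ 2))) : ℝ) : ℂ) := by
    have hS' : ((A : ℂ) ^ 2 + (b : ℂ) ^ 2) ≠ 0 := by
      have : ((A ^ 2 + b ^ 2 : ℝ) : ℂ) ≠ 0 := by exact_mod_cast hS.ne'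
      simpa using this
    rw [div_eq_iff (mul_ne_zero (by norm_num) (neg_ne_zero.2 hz))]
    push_cast
    field_simp
    ring_nf
    simp only [Complex.I_sq]
    ring
  rw [e, Complex.add_re, Complex.ofReal_re, Complex.mul_re, Complex.I_re, Complex.ofReal_im]
  ring

theorem hy_k1_norm (A b B y g gi : ℝ) (hA : 0 < A) :
    ‖∫ u : ℝ, Complex.exp (-((A : ℂ) + Complex.I * (b : ℂ)) * (u : ℂ) ^ 2 + ((B : ℂ) + Complex.I * (y : ℂ)) * (u : ℂ) +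
      ((g : ℂ) + Complex.I * (gi : ℂ)))‖
      = Real.sqrt Real.pi * (A ^ 2 + b ^ 2) ^ (-(1 / 4) : ℝ) *
        Real.exp (g + (A * (B ^ 2 - y ^ 2) + 2 * b * B * y) / (4 * (A ^ 2 + b ^ 2))) := by
  have hS : 0 < A ^ 2 + b ^ 2 := by positivity
  have hre : (-((A : ℂ) + Complex.I * (b : ℂ))).re < 0 := by
    simp
    exact hA
  rw [integral_cexp_quadratic hre, norm_mul, Complex.norm_exp, neg_neg, Complex.sub_re, hy_k1_re A b B y hA]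
  have h1 : ((g : ℂ) + Complex.I * (gi : ℂ)).re = g := by simp
  rw [h1, sub_neg_eq_add]
  congr 1
  have h2 : (1 / 2 : ℂ) = ((1 / 2 : ℝ) : ℂ) := by push_cast; rfl
  rw [h2, Complex.norm_cpow_real, norm_div, Complex.norm_real, Real.norm_of_nonneg Real.pi_pos.le]
  have h3 : ‖(A : ℂ) + Complex.I * (b : ℂ)‖ = Real.sqrt (A ^ 2 + b ^ 2) := by
    rw [mul_comm, Complex.norm_add_mul_I]
  rw [h3, Real.div_rpow Real.pi_pos.le (Real.sqrt_nonneg _), ← Real.sqrt_eq_rpow, div_eq_mul_inv]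
  congr 1
  rw [Real.sqrt_eq_rpow, ← Real.rpow_mul hS.le, ← Real.rpow_neg hS.le]
  norm_num

theorem hy_k1_exp1 (A b uc y : ℝ) (hA : 0 < A) :
    (A * ((2 * A * uc) ^ 2 - y ^ 2) + 2 * b * (2 * A * uc) * y) / (4 * (A ^ 2 + b ^ 2))
      = A * uc ^ 2 - A * (y - 2 * b * uc) ^ 2 / (4 * (A ^ 2 + b ^ 2)) := by
  have hS : 0 < A ^ 2 + b ^ 2 := by positivity
  field_simp
  ring

theorem hy_k1_exp (a a' σ H N N' y t : ℝ) (ha : 0 < a) (ha' : 0 < a') (hσ : 0 < σ) (hH : 0 < H) :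
    -(a' * (σ * N' / H) ^ 2 + a * (σ * N / H) ^ 2) / 2 +
      ((a + a') / 2 * ((a' * (σ * N' / H) + a * (σ * N / H)) ^ 2 - y ^ 2) + 2 * (t * H / (2 * σ)) * (a' * (σ * N' / H) + a * (σ * N / H)) * y) /
        (4 * (((a + a') / 2) ^ 2 + (t * H / (2 * σ)) ^ 2))
      = -(a * a' * σ ^ 2 * (N - N') ^ 2 / (2 * (a + a') * H ^ 2)) -
        (a + a') / 2 * (y - t * ((a * N + a' * N') / (a + a'))) ^ 2 / (4 * (((a + a') / 2) ^ 2 + (t * H / (2 * σ)) ^ 2)) := by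
  have hs : 0 < a + a' := by positivity
  have e1 : a' * (σ * N' / H) + a * (σ * N / H) = 2 * ((a + a') / 2) * (σ * ((a * N + a' * N') / (a + a')) / H) := by
    field_simp
    ring
  have e2 : t * ((a * N + a' * N') / (a + a')) = 2 * (t * H / (2 * σ)) * (σ * ((a * N + a' * N') / (a + a')) / H) := by
    field_simp
  rw [e1, hy_k1_exp1 _ _ _ _ (by positivity : 0 < (a + a') / 2), e2]
  have e3 : -(a' * (σ * N' / H) ^ 2 + a * (σ * N / H) ^ 2) / 2 + (a + a') / 2 * (σ * ((a * N + a' * N') / (a + a')) / H) ^ 2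
      = -(a * a' * σ ^ 2 * (N - N') ^ 2 / (2 * (a + a') * H ^ 2)) := by
    field_simp
    ring
  rw [← e3]
  ring

theorem hy_k1_pre (q q' : ℝ) (hq : 0 < q) (hq' : 0 < q') :
    (q' ^ 2 / Real.pi) ^ (1 / 4 : ℝ) * (q ^ 2 / Real.pi) ^ (1 / 4 : ℝ) * Real.sqrt Real.pi = Real.sqrt (q * q') := by
  have hpi := Real.pi_pos
  have e : q' ^ 2 / Real.pi * (q ^ 2 / Real.pi) = (q * q' / Real.pi) ^ 2 := by
    field_simp
  rw [← Real.mul_rpow (by positivity) (by positivity), e, ← Real.rpow_natCast, ← Real.rpow_mul (by positivity),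
    show ((2 : ℕ) : ℝ) * (1 / 4) = 1 / 2 by norm_num, ← Real.sqrt_eq_rpow, Real.sqrt_div (by positivity),
    div_mul_cancel₀ _ (Real.sqrt_pos.2 hpi).ne']

/-- **(K1) EXACT MODULUS OF THE KERNEL.**   Checked numerically.   PLAN: header.  ~300 l. -/
theorem hy_kr_abs (φ : HyF) (h : φ.Ok) (T : ℝ) (k : ℕ) (T' : ℝ) (k' : ℕ) (ρ' ρ : ℝ × ℝ) :
    ‖φ.kr T k T' k' ρ' ρ‖ = Real.sqrt (φ.q k * φ.q k') * (φ.aa k k' ^ 2 + φ.bb (T' - T) ^ 2) ^ (-(1 / 4) : ℝ) *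
      Real.exp (-(φ.q k ^ 2 * φ.q k' ^ 2 * φ.sg ^ 2 * (ρ.2 - ρ'.2) ^ 2 / (2 * (φ.q k ^ 2 + φ.q k' ^ 2) * φ.H ^ 2))
        - φ.aa k k' * (ρ'.1 - ρ.1 - (T' - T) * φ.nc k k' ρ.2 ρ'.2) ^ 2 / (4 * (φ.aa k k' ^ 2 + φ.bb (T' - T) ^ 2))) := by
  have hq := (hy_qd φ h k).1
  have hq' := (hy_qd φ h k').1
  have hH := h.H_pos
  have hσ : 0 < φ.sg := by linarith [h.sg_lo]
  have e : ∀ u : ℝ, φ.pk T' k' ρ' u * conj (φ.pk T k ρ u) = _ := fun u =>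
    hy_k1_alg ((φ.q k ^ 2 / Real.pi) ^ (1 / 4 : ℝ)) ((φ.q k' ^ 2 / Real.pi) ^ (1 / 4 : ℝ)) (φ.q k ^ 2) (φ.q k' ^ 2)
      (φ.sg * ρ.2 / φ.H) (φ.sg * ρ'.2 / φ.H) ρ.1 ρ'.1 (T * φ.H / (2 * φ.sg)) (T' * φ.H / (2 * φ.sg)) u
      (T * φ.H * u ^ 2 / (2 * φ.sg)) (T' * φ.H * u ^ 2 / (2 * φ.sg)) (by ring) (by ring)
  unfold HyF.kr
  simp_rw [e]
  rw [integral_const_mul, norm_mul, hy_k1_norm _ _ _ _ _ _ (by positivity), Complex.norm_real,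
    Real.norm_of_nonneg (by positivity)]
  have hb : T' * φ.H / (2 * φ.sg) - T * φ.H / (2 * φ.sg) = (T' - T) * φ.H / (2 * φ.sg) := by ring
  rw [hb, hy_k1_exp (φ.q k ^ 2) (φ.q k' ^ 2) φ.sg φ.H ρ.2 ρ'.2 (ρ'.1 - ρ.1) (T' - T) (by positivity) (by positivity) hσ hH,
    ← mul_assoc, ← mul_assoc, hy_k1_pre _ _ hq hq']
  rfl

/-- the majorant of the kernel between nested cuts -/
noncomputable def HyF.kb (φ : HyF) (k k' : ℕ) (t : ℝ) (ρ' ρ : ℝ × ℝ) : ℝ :=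
  Real.sqrt 2 * Real.sqrt (φ.q k' / φ.q k) *
    Real.exp (-((ρ.2 - ρ'.2) ^ 2 / (8 * φ.d k' ^ 2)) - (ρ'.1 - ρ.1 - t * ρ.2) ^ 2 / (20 * φ.q k ^ 2))

theorem hy_k2_comb {X Yc Yy u v L cV cP : ℝ} (hX : 0 ≤ X) (hYc : 0 ≤ Yc) (hu : 0 ≤ u) (hv : 0 ≤ v) (h1 : u / 4 ≤ cV) (h2 : v / 10 ≤ cP)
    (h3 : Yy ≤ 2 * Yc + 2 * L * X) (h4 : L * v ≤ u) : X * u / 8 + Yy * v / 20 ≤ cV * X + cP * Yc := by
  have p1 : u / 4 * X ≤ cV * X := mul_le_mul_of_nonneg_right h1 hX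
  have p2 : v / 10 * Yc ≤ cP * Yc := mul_le_mul_of_nonneg_right h2 hYc
  have p3 : v * Yy ≤ v * (2 * Yc + 2 * L * X) := mul_le_mul_of_nonneg_left h3 hv
  have p4 : L * v * X ≤ u * X := mul_le_mul_of_nonneg_right h4 hX
  have p5 : 0 ≤ u * X := mul_nonneg hu hX
  nlinarith

theorem hy_k2_exp {a a' d2 H σ l l' t N N' Y : ℝ} (ha' : 0 < a') (haa : a' ≤ a) (hd2 : 0 < d2) (hH : 0 < H) (hσ : 1 ≤ σ)
    (hal : a = H * l) (hal' : a' = H * l') (had : a' * d2 = H ^ 2) (hld : l' ^ 2 * d2 = a') (ht : |t| ≤ l) :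
    (N - N') ^ 2 / (8 * d2) + (Y - t * N) ^ 2 / (20 * a) ≤
      a * a' * σ ^ 2 * (N - N') ^ 2 / (2 * (a + a') * H ^ 2) +
        (a + a') / 2 * (Y - t * ((a * N + a' * N') / (a + a'))) ^ 2 / (4 * (((a + a') / 2) ^ 2 + (t * H / (2 * σ)) ^ 2)) := by
  have ha : 0 < a := lt_of_lt_of_le ha' haa
  have hσ0 : 0 < σ := by linarith
  have hs : 0 < a + a' := by positivity
  have ht2 : t ^ 2 ≤ l ^ 2 := sq_le_sq' (by linarith [(abs_le.1 ht).1]) (abs_le.1 ht).2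
  have hσ2 : 1 ≤ σ ^ 2 := one_le_pow₀ hσ
  obtain ⟨A, hA⟩ : ∃ A, A = (a + a') / 2 := ⟨_, rfl⟩
  obtain ⟨b, hb⟩ : ∃ b, b = t * H / (2 * σ) := ⟨_, rfl⟩
  have hA0 : 0 < A := by rw [hA]; positivity
  have hAa : A ≤ a := by rw [hA]; linarith
  have hAa2 : a / 2 ≤ A := by rw [hA]; linarith
  have hb2 : b ^ 2 ≤ a ^ 2 / 4 := by
    rw [hb, div_pow, div_le_iff₀ (by positivity)]
    have e1 : (t * H) ^ 2 ≤ a ^ 2 := by
      rw [hal, mul_pow, mul_pow, mul_comm]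
      exact mul_le_mul_of_nonneg_left ht2 (by positivity)
    have e2 : a ^ 2 ≤ a ^ 2 * σ ^ 2 := le_mul_of_one_le_right (by positivity) hσ2
    calc (t * H) ^ 2 ≤ a ^ 2 * σ ^ 2 := e1.trans e2
      _ = a ^ 2 / 4 * (2 * σ) ^ 2 := by ring
  have h1 : 1 / d2 / 4 ≤ a * a' * σ ^ 2 / (2 * (a + a') * H ^ 2) := by
    rw [div_div, div_le_div_iff₀ (by positivity) (by positivity)]
    have e : a * a' * σ ^ 2 * (d2 * 4) = 4 * a * σ ^ 2 * H ^ 2 := by rw [← had]; ring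
    rw [e, one_mul]
    have e3 : a + a' ≤ 2 * a * σ ^ 2 := by nlinarith
    have hH2 : 0 < H ^ 2 := by positivity
    nlinarith
  have h2 : 1 / a / 10 ≤ A / (4 * (A ^ 2 + b ^ 2)) := by
    rw [div_div, div_le_div_iff₀ (by positivity) (by positivity)]
    nlinarith
  have h3 : (Y - t * N) ^ 2 ≤ 2 * (Y - t * ((a * N + a' * N') / (a + a'))) ^ 2 + 2 * l' ^ 2 * (N - N') ^ 2 := by
    have e1 : Y - t * N = (Y - t * ((a * N + a' * N') / (a + a'))) + t * (a' * (N' - N) / (a + a')) := by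
      field_simp
      ring
    have e2 : (t * (a' * (N' - N) / (a + a'))) ^ 2 ≤ l' ^ 2 * (N - N') ^ 2 := by
      have e3 : (t * (a' * (N' - N) / (a + a'))) ^ 2 = t ^ 2 * a' ^ 2 / (a + a') ^ 2 * (N - N') ^ 2 := by
        field_simp
        ring
      rw [e3]
      refine mul_le_mul_of_nonneg_right ?_ (sq_nonneg _)
      rw [div_le_iff₀ (by positivity)]
      have e4 : l * a' = l' * a := by rw [hal, hal']; ring
      calc t ^ 2 * a' ^ 2 ≤ l ^ 2 * a' ^ 2 := mul_le_mul_of_nonneg_right ht2 (by positivity)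
        _ = l' ^ 2 * a ^ 2 := by rw [← mul_pow, e4, mul_pow]
        _ ≤ l' ^ 2 * (a + a') ^ 2 := mul_le_mul_of_nonneg_left (pow_le_pow_left₀ ha.le (by linarith) 2) (sq_nonneg _)
    rw [e1]
    nlinarith [sq_nonneg ((Y - t * ((a * N + a' * N') / (a + a'))) - t * (a' * (N' - N) / (a + a')))]
  have h4 : l' ^ 2 * (1 / a) ≤ 1 / d2 := by
    rw [mul_one_div, div_le_div_iff₀ ha hd2, hld, one_mul]
    exact haa
  have key := hy_k2_comb (sq_nonneg (N - N')) (sq_nonneg (Y - t * ((a * N + a' * N') / (a + a')))) (by positivity : 0 ≤ 1 / d2)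
    (by positivity : 0 ≤ 1 / a) h1 h2 h3 h4
  rw [← hA, ← hb]
  calc (N - N') ^ 2 / (8 * d2) + (Y - t * N) ^ 2 / (20 * a) = (N - N') ^ 2 * (1 / d2) / 8 + (Y - t * N) ^ 2 * (1 / a) / 20 := by
        field_simp
    _ ≤ _ := key
    _ = _ := by ring

theorem hy_k2_amp {q q' S : ℝ} (hq : 0 < q) (hq' : 0 < q') (hS : q ^ 4 / 4 ≤ S) :
    Real.sqrt (q * q') * S ^ (-(1 / 4) : ℝ) ≤ Real.sqrt 2 * Real.sqrt (q' / q) := by
  have h2 : 0 < Real.sqrt 2 := Real.sqrt_pos.2 (by norm_num)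
  have e0 : q ^ 4 / 4 = (q / Real.sqrt 2) ^ 4 := by
    rw [div_pow, show Real.sqrt 2 ^ 4 = (Real.sqrt 2 ^ 2) ^ 2 by ring, Real.sq_sqrt (by norm_num)]
    norm_num
  have e1 : (q ^ 4 / 4) ^ (-(1 / 4) : ℝ) = Real.sqrt 2 / q := by
    rw [e0, ← Real.rpow_natCast, ← Real.rpow_mul (by positivity), show ((4 : ℕ) : ℝ) * -(1 / 4) = -1 by norm_num, Real.rpow_neg_one,
      inv_div]
  have e2 : S ^ (-(1 / 4) : ℝ) ≤ Real.sqrt 2 / q := by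
    rw [← e1]
    exact Real.rpow_le_rpow_of_nonpos (by positivity) hS (by norm_num)
  have e3 : Real.sqrt (q' / q) = Real.sqrt (q * q') / q := by
    rw [show q' / q = q * q' / q ^ 2 by field_simp, Real.sqrt_div (by positivity), Real.sqrt_sq hq.le]
  calc Real.sqrt (q * q') * S ^ (-(1 / 4) : ℝ) ≤ Real.sqrt (q * q') * (Real.sqrt 2 / q) :=
        mul_le_mul_of_nonneg_left e2 (Real.sqrt_nonneg _)
    _ = _ := by rw [e3]; ring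

/-- **(K2) = KB: nested cuts** `k ≤ k'`, `|t| ≤ ℓ`.   From (K1): amplitude `≤ sqrt(qq') A^(-1/2) ≤ √2 sqrt(q'/q)` (`A ≥ q²/2`); velocity coefficient `≥ q'²σ²/(4H²) = σ²/(4d'²) ≥ 1/(4d'²)`;
position coefficient `A/(4(A²+b²)) ≥ 1/(10q²)` (`A ≤ q²`, `|b| ≤ q²/2`); `|t (nc - N)| ≤ ℓ' |N'-N|`, `y² ≤ 2 yc² + 2 ℓ'² ΔN²`, `ℓ'²/q² ≤ 1/d'²`: exponent `≥ (1/4 - 1/10) ΔN²/d'² + y²/(20q²)`.  ~200 l. -/
theorem hy_kr_le (φ : HyF) (h : φ.Ok) (T : ℝ) (k : ℕ) (T' : ℝ) (k' : ℕ) (hk : k ≤ k') (ht : |T' - T| ≤ (2 : ℝ)⁻¹ ^ k) (ρ' ρ : ℝ × ℝ) :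
    ‖φ.kr T k T' k' ρ' ρ‖ ≤ φ.kb k k' (T' - T) ρ' ρ := by
  obtain ⟨hq, hd, hqd, hql, hq2, hd2⟩ := hy_qd φ h k
  obtain ⟨hq', hd', hqd', hql', hq2', hd2'⟩ := hy_qd φ h k'
  have hH := h.H_pos
  rw [hy_kr_abs φ h]
  unfold HyF.kb HyF.aa HyF.bb HyF.nc
  have haa : φ.q k' ^ 2 ≤ φ.q k ^ 2 := by
    rw [hq2, hq2']
    exact mul_le_mul_of_nonneg_left (pow_le_pow_of_le_one (by norm_num) (by norm_num) hk) hH.le
  refine mul_le_mul (hy_k2_amp hq hq' ?_) (Real.exp_le_exp.2 ?_) (Real.exp_nonneg _) (by positivity)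
  · have e1 : φ.q k ^ 2 / 2 ≤ (φ.q k ^ 2 + φ.q k' ^ 2) / 2 := by
      have : 0 < φ.q k' ^ 2 := by positivity
      linarith
    have e2 : (φ.q k ^ 2 / 2) ^ 2 ≤ ((φ.q k ^ 2 + φ.q k' ^ 2) / 2) ^ 2 := pow_le_pow_left₀ (by positivity) e1 2
    have e3 : φ.q k ^ 4 / 4 = (φ.q k ^ 2 / 2) ^ 2 := by ring
    rw [e3]
    have := sq_nonneg ((T' - T) * φ.H / (2 * φ.sg))
    linarith
  · have key := hy_k2_exp (a := φ.q k ^ 2) (a' := φ.q k' ^ 2) (d2 := φ.d k' ^ 2) (H := φ.H) (σ := φ.sg) (l := (2 : ℝ)⁻¹ ^ k)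
      (l' := (2 : ℝ)⁻¹ ^ k') (t := T' - T) (N := ρ.2) (N' := ρ'.2) (Y := ρ'.1 - ρ.1) (by positivity) haa (by positivity) hH h.sg_lo hq2 hq2'
      (by rw [← mul_pow, hqd']) (by rw [← mul_pow, ← hql']) ht
    linarith

/-- **(K3) = KB2: the same length, ANY time**, `τ = t 2^k/(2σ)`.   (K1) with `q = q'`.  ~100 l. -/
theorem hy_kr_same (φ : HyF) (h : φ.Ok) (T : ℝ) (k : ℕ) (T' : ℝ) (ρ' ρ : ℝ × ℝ) :
    ‖φ.kr T k T' k ρ' ρ‖ = (1 + ((T' - T) * 2 ^ k / (2 * φ.sg)) ^ 2) ^ (-(1 / 4) : ℝ) *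
      Real.exp (-(φ.sg ^ 2 * (ρ.2 - ρ'.2) ^ 2 / (4 * φ.d k ^ 2))
        - (ρ'.1 - ρ.1 - (T' - T) * ((ρ.2 + ρ'.2) / 2)) ^ 2 / (4 * φ.q k ^ 2 * (1 + ((T' - T) * 2 ^ k / (2 * φ.sg)) ^ 2))) := by
  obtain ⟨hq, hd, hqd, hql, hq2, hd2⟩ := hy_qd φ h k
  have hH := h.H_pos
  have hσ : 0 < φ.sg := by linarith [h.sg_lo]
  rw [hy_kr_abs φ h]
  unfold HyF.aa HyF.bb HyF.nc
  generalize φ.q k = q at *
  generalize φ.d k = d at *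
  obtain ⟨τ, hτ⟩ : ∃ τ, τ = (T' - T) * 2 ^ k / (2 * φ.sg) := ⟨_, rfl⟩
  rw [← hτ]
  have hHq : φ.H = q ^ 2 * 2 ^ k := by
    rw [hq2, mul_assoc, ← mul_pow]
    norm_num
  have hb : (T' - T) * φ.H / (2 * φ.sg) = q ^ 2 * τ := by
    rw [hτ, hHq]
    ring
  have hS : ((q ^ 2 + q ^ 2) / 2) ^ 2 + (q ^ 2 * τ) ^ 2 = q ^ 4 * (1 + τ ^ 2) := by ring
  have h1τ : 0 < 1 + τ ^ 2 := by positivity
  have hpre : Real.sqrt (q * q) * (q ^ 4 * (1 + τ ^ 2)) ^ (-(1 / 4) : ℝ) = (1 + τ ^ 2) ^ (-(1 / 4) : ℝ) := by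
    rw [Real.sqrt_mul_self hq.le, Real.mul_rpow (by positivity) h1τ.le, ← Real.rpow_natCast, ← Real.rpow_mul hq.le,
      show ((4 : ℕ) : ℝ) * -(1 / 4) = -1 by norm_num, Real.rpow_neg_one, ← mul_assoc, mul_inv_cancel₀ hq.ne', one_mul]
  rw [hb, hS, hpre]
  congr 2
  rw [← hqd]
  have e1 : (q ^ 2 * ρ.2 + q ^ 2 * ρ'.2) / (q ^ 2 + q ^ 2) = (ρ.2 + ρ'.2) / 2 := by
    field_simp
    ring
  rw [e1]
  field_simp
  ring

/-- **(K4)** symmetry -/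
theorem hy_kr_conj (φ : HyF) (T : ℝ) (k : ℕ) (T' : ℝ) (k' : ℕ) (ρ' ρ : ℝ × ℝ) :
    φ.kr T' k' T k ρ ρ' = conj (φ.kr T k T' k' ρ' ρ) := by
  unfold HyF.kr
  rw [← integral_conj]
  refine integral_congr_ae (Filter.Eventually.of_forall fun u => ?_)
  simp only [map_mul, Complex.conj_conj]
  ring

theorem hy_k4_closed (φ : HyF) (h : φ.Ok) (T : ℝ) (k : ℕ) (T' : ℝ) (k' : ℕ) (ρ' ρ : ℝ × ℝ) :
    φ.kr T k T' k' ρ' ρ = (((φ.q k' ^ 2 / Real.pi) ^ (1 / 4 : ℝ) * (φ.q k ^ 2 / Real.pi) ^ (1 / 4 : ℝ) : ℝ) : ℂ) *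
      (((Real.pi : ℂ) / - -((((φ.q k ^ 2 + φ.q k' ^ 2) / 2 : ℝ) : ℂ) + Complex.I * ((T' * φ.H / (2 * φ.sg) - T * φ.H / (2 * φ.sg) : ℝ) : ℂ))) ^ (1 / 2 : ℂ) *
        Complex.exp ((((-(φ.q k' ^ 2 * (φ.sg * ρ'.2 / φ.H) ^ 2 + φ.q k ^ 2 * (φ.sg * ρ.2 / φ.H) ^ 2) / 2 : ℝ) : ℂ) +
            Complex.I * ((φ.sg * ρ.2 / φ.H * ρ.1 - φ.sg * ρ'.2 / φ.H * ρ'.1 : ℝ) : ℂ)) -
          (((φ.q k' ^ 2 * (φ.sg * ρ'.2 / φ.H) + φ.q k ^ 2 * (φ.sg * ρ.2 / φ.H) : ℝ) : ℂ) + Complex.I * ((ρ'.1 - ρ.1 : ℝ) : ℂ)) ^ 2 /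
            (4 * -((((φ.q k ^ 2 + φ.q k' ^ 2) / 2 : ℝ) : ℂ) + Complex.I * ((T' * φ.H / (2 * φ.sg) - T * φ.H / (2 * φ.sg) : ℝ) : ℂ))))) := by
  have hq := (hy_qd φ h k).1
  have hq' := (hy_qd φ h k').1
  have e : ∀ u : ℝ, φ.pk T' k' ρ' u * conj (φ.pk T k ρ u) = _ := fun u =>
    hy_k1_alg ((φ.q k ^ 2 / Real.pi) ^ (1 / 4 : ℝ)) ((φ.q k' ^ 2 / Real.pi) ^ (1 / 4 : ℝ)) (φ.q k ^ 2) (φ.q k' ^ 2)
      (φ.sg * ρ.2 / φ.H) (φ.sg * ρ'.2 / φ.H) ρ.1 ρ'.1 (T * φ.H / (2 * φ.sg)) (T' * φ.H / (2 * φ.sg)) u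
      (T * φ.H * u ^ 2 / (2 * φ.sg)) (T' * φ.H * u ^ 2 / (2 * φ.sg)) (by ring) (by ring)
  unfold HyF.kr
  simp_rw [e]
  rw [integral_const_mul, integral_cexp_quadratic]
  simp only [Complex.neg_re, Complex.add_re, Complex.ofReal_re, Complex.mul_re, Complex.I_re, Complex.ofReal_im, zero_mul, mul_zero,
    sub_zero, add_zero, neg_lt_zero]
  positivity

/-- **(K4')** joint continuity of the kernel (dominated convergence, or from the closed formula).  ~150 l. -/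
theorem hy_kr_cont (φ : HyF) (h : φ.Ok) (T : ℝ) (k : ℕ) (T' : ℝ) (k' : ℕ) :
    Continuous fun z : (ℝ × ℝ) × (ℝ × ℝ) => φ.kr T k T' k' z.1 z.2 := by
  simp_rw [hy_k4_closed φ h]
  fun_prop

theorem hy_k4_pd (α β γ : ℝ) (hα : 0 < α) (hβ : 0 < β) :
    ∃ e : ℝ, 0 < e ∧ ∀ n y : ℝ, e * y ^ 2 + α / 2 * n ^ 2 ≤ α * n ^ 2 + β * (y - γ * n) ^ 2 := by
  have hden : 0 < 2 * (α + β * γ ^ 2) := by positivity
  obtain ⟨μ, hμ⟩ : ∃ μ, μ = α * β / (2 * (α + β * γ ^ 2)) := ⟨_, rfl⟩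
  have hμ0 : 0 < μ := by rw [hμ]; positivity
  have hμβ : μ ≤ β := by
    rw [hμ, div_le_iff₀ hden]
    nlinarith [mul_pos hα hβ, mul_nonneg hβ.le (mul_nonneg hβ.le (sq_nonneg γ))]
  have hμγ : μ * γ ^ 2 ≤ α / 2 := by
    rw [hμ, div_mul_eq_mul_div, div_le_iff₀ hden]
    nlinarith [mul_pos hα hα]
  refine ⟨μ / 2, by positivity, fun n y => ?_⟩
  have h1 : μ * (y - γ * n) ^ 2 ≤ β * (y - γ * n) ^ 2 := mul_le_mul_of_nonneg_right hμβ (sq_nonneg _)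
  have h2 : y ^ 2 ≤ 2 * (y - γ * n) ^ 2 + 2 * (γ ^ 2 * n ^ 2) := by nlinarith [sq_nonneg (y - 2 * (γ * n))]
  have h3 : μ * y ^ 2 ≤ μ * (2 * (y - γ * n) ^ 2 + 2 * (γ ^ 2 * n ^ 2)) := mul_le_mul_of_nonneg_left h2 hμ0.le
  have h4 : μ * γ ^ 2 * n ^ 2 ≤ α / 2 * n ^ 2 := mul_le_mul_of_nonneg_right hμγ (sq_nonneg _)
  nlinarith

theorem hy_k4_int (c e₁ e₂ x₀ y₀ : ℝ) (h₁ : 0 < e₁) (h₂ : 0 < e₂) :
    Integrable (fun ρ : ℝ × ℝ => c * (Real.exp (-(e₁ * (ρ.1 - x₀) ^ 2)) * Real.exp (-(e₂ * (ρ.2 - y₀) ^ 2)))) volume := by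
  have g : ∀ (e x : ℝ), 0 < e → Integrable (fun t : ℝ => Real.exp (-(e * (t - x) ^ 2))) volume := by
    intro e x he
    have := (integrable_exp_neg_mul_sq he).comp_sub_right x
    simpa only [neg_mul] using this
  exact ((g e₁ x₀ h₁).mul_prod (g e₂ y₀ h₂)).const_mul c

theorem hy_k4_memLp (c e₁ e₂ x₀ y₀ : ℝ) (h₁ : 0 < e₁) (h₂ : 0 < e₂) :
    MemLp (fun ρ : ℝ × ℝ => c * (Real.exp (-(e₁ * (ρ.1 - x₀) ^ 2)) * Real.exp (-(e₂ * (ρ.2 - y₀) ^ 2)))) 2 volume ∧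
      MemLp (fun ρ : ℝ × ℝ => c * (Real.exp (-(e₁ * (ρ.1 - x₀) ^ 2)) * Real.exp (-(e₂ * (ρ.2 - y₀) ^ 2)))) 1 volume := by
  have hi := hy_k4_int c e₁ e₂ x₀ y₀ h₁ h₂
  refine ⟨(memLp_two_iff_integrable_sq hi.aestronglyMeasurable).2 ?_, memLp_one_iff_integrable.2 hi⟩
  have h2 := hy_k4_int (c ^ 2) (2 * e₁) (2 * e₂) x₀ y₀ (by positivity) (by positivity)
  refine h2.congr (Filter.Eventually.of_forall fun ρ => ?_)
  simp only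
  rw [mul_pow, mul_pow, ← Real.exp_nat_mul, ← Real.exp_nat_mul]
  push_cast
  congr 3 <;> ring

theorem hy_k4_bd (φ : HyF) (h : φ.Ok) (T : ℝ) (k : ℕ) (T' : ℝ) (k' : ℕ) (ρ' : ℝ × ℝ) :
    ∃ c e₁ e₂ : ℝ, 0 < e₁ ∧ 0 < e₂ ∧ ∀ ρ : ℝ × ℝ, ‖φ.kr T k T' k' ρ' ρ‖ ≤
      c * (Real.exp (-(e₁ * (ρ.1 - (ρ'.1 - (T' - T) * ρ'.2)) ^ 2)) * Real.exp (-(e₂ * (ρ.2 - ρ'.2) ^ 2))) := by
  have hq := (hy_qd φ h k).1
  have hq' := (hy_qd φ h k').1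
  have hH := h.H_pos
  have hσ : 0 < φ.sg := by linarith [h.sg_lo]
  have hA : 0 < φ.aa k k' := by unfold HyF.aa; positivity
  have habs := hy_kr_abs φ h T k T' k' ρ'
  have hnc : ∀ N N' : ℝ, φ.nc k k' N N' = (φ.q k ^ 2 * N + φ.q k' ^ 2 * N') / (φ.q k ^ 2 + φ.q k' ^ 2) := fun _ _ => rfl
  generalize φ.aa k k' = A at *
  generalize φ.bb (T' - T) = b at *
  generalize φ.q k = q at *
  generalize φ.q k' = q' at *
  generalize T' - T = t at *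
  obtain ⟨α, hα⟩ : ∃ α, α = q ^ 2 * q' ^ 2 * φ.sg ^ 2 / (2 * (q ^ 2 + q' ^ 2) * φ.H ^ 2) := ⟨_, rfl⟩
  obtain ⟨β, hβ⟩ : ∃ β, β = A / (4 * (A ^ 2 + b ^ 2)) := ⟨_, rfl⟩
  have hα0 : 0 < α := by rw [hα]; positivity
  have hβ0 : 0 < β := by rw [hβ]; positivity
  obtain ⟨e, he, hpd⟩ := hy_k4_pd α β (-(t * q ^ 2 / (q ^ 2 + q' ^ 2))) hα0 hβ0
  refine ⟨Real.sqrt (q * q') * (A ^ 2 + b ^ 2) ^ (-(1 / 4) : ℝ), e, α / 2, he, by positivity, fun ρ => ?_⟩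
  rw [habs, ← Real.exp_add]
  refine mul_le_mul_of_nonneg_left (Real.exp_le_exp.2 ?_) (by positivity)
  have h1 := hpd (ρ.2 - ρ'.2) (ρ.1 - (ρ'.1 - t * ρ'.2))
  have e1 : q ^ 2 * q' ^ 2 * φ.sg ^ 2 * (ρ.2 - ρ'.2) ^ 2 / (2 * (q ^ 2 + q' ^ 2) * φ.H ^ 2) = α * (ρ.2 - ρ'.2) ^ 2 := by
    rw [hα]
    ring
  have e3 : ρ'.1 - ρ.1 - t * φ.nc k k' ρ.2 ρ'.2
      = -(ρ.1 - (ρ'.1 - t * ρ'.2) - -(t * q ^ 2 / (q ^ 2 + q' ^ 2)) * (ρ.2 - ρ'.2)) := by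
    rw [hnc]
    field_simp
    ring
  have e2 : A * (ρ'.1 - ρ.1 - t * φ.nc k k' ρ.2 ρ'.2) ^ 2 / (4 * (A ^ 2 + b ^ 2))
      = β * (ρ.1 - (ρ'.1 - t * ρ'.2) - -(t * q ^ 2 / (q ^ 2 + q' ^ 2)) * (ρ.2 - ρ'.2)) ^ 2 := by
    rw [e3, hβ, neg_sq]
    ring
  rw [e1, e2]
  linarith

/-- **(K4'')** the kernel is square integrable and integrable in each variable (from (K1): a Gaussian in `(D, N)`; the quadratic form is positive definite).  ~200 l. -/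
theorem hy_kr_memLp (φ : HyF) (h : φ.Ok) (T : ℝ) (k : ℕ) (T' : ℝ) (k' : ℕ) (ρ' : ℝ × ℝ) :
    MemLp (φ.kr T k T' k' ρ') 2 φ.nu ∧ MemLp (φ.kr T k T' k' ρ') 1 φ.nu := by
  have hcont : Continuous fun ρ : ℝ × ℝ => φ.kr T k T' k' ρ' ρ := by
    simp_rw [hy_k4_closed φ h]
    fun_prop
  obtain ⟨c, e₁, e₂, h₁, h₂, hbd⟩ := hy_k4_bd φ h T k T' k' ρ'
  obtain ⟨m2, m1⟩ := hy_k4_memLp c e₁ e₂ (ρ'.1 - (T' - T) * ρ'.2) ρ'.2 h₁ h₂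
  have hc : ENNReal.ofReal (φ.sg / (2 * Real.pi * φ.H)) ≠ ∞ := ENNReal.ofReal_ne_top
  unfold HyF.nu
  exact ⟨(m2.mono' hcont.aestronglyMeasurable (Filter.Eventually.of_forall hbd)).smul_measure hc,
    (m1.mono' hcont.aestronglyMeasurable (Filter.Eventually.of_forall hbd)).smul_measure hc⟩

theorem hy_ker_eqns_cite : True := by
  have := @HyF.kb.eq_1
  trivial

end Claimed.Agent.R256
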