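import Claimed.Agent.R256.Hyb.TailFib

/-!
# Row 256, unit HYB, post BP-256-HYB-TAIL (helper218; prefix `hy_tl_`), file 3: PROPAGATION OF THE NORMAL TAILS ALONG A STACK

"Lemma cyl:localization propagates normal tails" (02 l.220).
* `HyKer η`        the statement of `hy_loc_ker` (`Hyb/Contract.lean`), with `hyCn` unfolded
* `hy_tl_step_abs` one free gap, abstract: `√ms S' (An^* G) ≤ ‖1_{Sᶜ} G‖ + ε ‖G‖` if the transfer from `S` to `S'` has norm `≤ ε`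
* `hy_tl_step`     one free gap for the normal boxes of a transported frame
* `hy_tl_chain`    a stack of masks
-/

set_option autoImplicit false

namespace Claimed.Agent.R256

open MeasureTheory
open scoped ENNReal InnerProductSpace

/-- the statement of `hy_loc_ker` -/
def HyKer (η : ℝ) : Prop :=
  ∀ (p : ChyPar), p.Ok → ∀ (Λ : ℝ), 1 ≤ Λ → ∀ (T : ℝ) (k : ℕ) (T' : ℝ) (k' : ℕ), CutLe T k T' k' →
    ∀ (S S' : Set (p.Om × ℝ × ℝ)), MeasurableSet S → MeasurableSet S' →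
    (∀ x ∈ S, ∀ x' ∈ S', ¬ (x.1 = x'.1 ∧ |x'.2.2 - x.2.2| ≤ Λ * p.dl k' ∧ |x'.2.1 - x.2.1 - (T' - T) * x.2.2| ≤ Λ * p.ql k)) →
    ∀ (F : Lp p.Fb 2 p.rw) (b b' : ℕ),
    (p.sys η).ms T' k' b' S' (ContinuousLinearMap.adjoint ((p.sys η).An T k b) ((p.sys η).mulR k (S.indicator fun _ => 1) F))
      ≤ (52 * Real.exp (-(Λ ^ 2 / 40))) ^ 2 * 2 ^ (((k' : ℝ) - k) / 2) * ‖F‖ ^ 2

theorem hy_tl_chain_eqns_cite : True := by
  have := @HyKer.eq_1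
  trivial

/-- a mask does not increase the norm of a restriction -/
theorem hy_tl_mulR_le {P : PkSys} (k : ℕ) {S : Set P.X} (hS : MeasurableSet S) {M : P.X → ℝ} (hM : IsMask M) (F : Lp P.Fb 2 (P.rho k)) :
    ‖P.mulR k (S.indicator fun _ => 1) (P.mulR k M F)‖ ≤ ‖P.mulR k (S.indicator fun _ => 1) F‖ := by
  have hI : IsMask (S.indicator fun _ => (1 : ℝ)) := gn_mask_ind hS
  rw [gn_mulR_mulR k hI hM]
  have e : (fun x => S.indicator (fun _ => (1 : ℝ)) x * M x) = fun x => M x * S.indicator (fun _ => (1 : ℝ)) x := by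
    funext x; ring
  rw [e, ← gn_mulR_mulR k hM hI]
  exact gn_mulR_norm_le k hM _

theorem hy_tl_sqrt_ms {P : PkSys} (T : ℝ) (k b : ℕ) {S : Set P.X} (hS : MeasurableSet S) (v : P.Kc) :
    Real.sqrt (P.ms T k b S v) = ‖P.mulR k (S.indicator fun _ => 1) (P.An T k b v)‖ := by
  rw [hy_tl_ms_norm T k b hS v, Real.sqrt_sq (norm_nonneg _)]

/-- one free gap, abstract -/
theorem hy_tl_step_abs {P : PkSys} (hT : P.Tight) (T : ℝ) (k c : ℕ) (T' : ℝ) (k' b' : ℕ) {S S' : Set P.X} (hS : MeasurableSet S) (hS' : MeasurableSet S')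
    (ε : ℝ) (hε : 0 ≤ ε)
    (hker : ∀ F, P.ms T' k' b' S' (ContinuousLinearMap.adjoint (P.An T k c) (P.mulR k (S.indicator fun _ => 1) F)) ≤ ε ^ 2 * ‖F‖ ^ 2)
    (G : Lp P.Fb 2 (P.rho k)) :
    Real.sqrt (P.ms T' k' b' S' (ContinuousLinearMap.adjoint (P.An T k c) G)) ≤ ‖P.mulR k (Sᶜ.indicator fun _ => 1) G‖ + ε * ‖G‖ := by
  have hI' : IsMask (S'.indicator fun _ => (1 : ℝ)) := gn_mask_ind hS'
  have e : ContinuousLinearMap.adjoint (P.An T k c) G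
      = ContinuousLinearMap.adjoint (P.An T k c) (P.mulR k (S.indicator fun _ => 1) G) + ContinuousLinearMap.adjoint (P.An T k c) (P.mulR k (Sᶜ.indicator fun _ => 1) G) := by
    rw [← map_add, hy_tl_split k hS G]
  have t := gn_en_tri T' k' b' hI' (ContinuousLinearMap.adjoint (P.An T k c) (P.mulR k (S.indicator fun _ => 1) G))
    (ContinuousLinearMap.adjoint (P.An T k c) (P.mulR k (Sᶜ.indicator fun _ => 1) G))
  rw [← e] at t
  have t1 : Real.sqrt (P.en T' k' b' (S'.indicator fun _ => 1) (ContinuousLinearMap.adjoint (P.An T k c) (P.mulR k (S.indicator fun _ => 1) G))) ≤ ε * ‖G‖ := by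
    refine Real.sqrt_le_iff.2 ⟨by positivity, ?_⟩
    rw [mul_pow]
    exact hker G
  have t2 : Real.sqrt (P.en T' k' b' (S'.indicator fun _ => 1) (ContinuousLinearMap.adjoint (P.An T k c) (P.mulR k (Sᶜ.indicator fun _ => 1) G)))
      ≤ ‖P.mulR k (Sᶜ.indicator fun _ => 1) G‖ :=
    Real.sqrt_le_iff.2 ⟨norm_nonneg _, gn_en_adj_le hT T k c T' k' b' hI' _⟩
  have t' : Real.sqrt (P.ms T' k' b' S' (ContinuousLinearMap.adjoint (P.An T k c) G)) ≤ _ := t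
  linarith

theorem hy_tl_dl_nonneg (p : ChyPar) (k : ℕ) : 0 ≤ p.dl k := Real.sqrt_nonneg _

theorem hy_tl_ql_nonneg (p : ChyPar) (k : ℕ) : 0 ≤ p.ql k := Real.sqrt_nonneg _

theorem hy_tl_dl_mono (p : ChyPar) (h : p.Ok) {k k' : ℕ} (hk : k ≤ k') : p.dl k ≤ p.dl k' := by
  unfold ChyPar.dl
  refine Real.sqrt_le_sqrt (mul_le_mul_of_nonneg_left ?_ h.H_pos.le)
  exact pow_le_pow_right₀ (by norm_num) hk

theorem hy_tl_ql_anti (p : ChyPar) (h : p.Ok) {k k' : ℕ} (hk : k ≤ k') : p.ql k' ≤ p.ql k := by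
  unfold ChyPar.ql
  refine Real.sqrt_le_sqrt (div_le_div_of_nonneg_left h.H_pos.le (by positivity) ?_)
  exact pow_le_pow_right₀ (by norm_num) hk

/-- one free gap for the normal boxes -/
theorem hy_tl_step (η : ℝ) (hK : HyKer η) (p : ChyPar) (h : p.Ok) (hT : (p.sys η).Tight) (Q : CyT) (Λ : ℝ) (hΛ : 1 ≤ Λ) (T : ℝ) (k : ℕ) (T' : ℝ) (k' : ℕ)
    (hc : CutLe T k T' k') (a b : ℝ) (c b' : ℕ) (G : Lp p.Fb 2 p.rw) :
    Real.sqrt ((p.sys η).ms T' k' b' (hyBx p (cyMv Q (T' - T)) T' (a + Λ * p.dl k') (b + (T' - T) * a + Λ * p.ql k))ᶜ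
        (ContinuousLinearMap.adjoint ((p.sys η).An T k c) G))
      ≤ ‖(p.sys η).mulR k ((hyBx p Q T a b)ᶜ.indicator fun _ => 1) G‖ + 52 * Real.exp (-(Λ ^ 2 / 40)) * 2 ^ (((k' : ℝ) - k) / 4) * ‖G‖ := by
  refine hy_tl_step_abs (P := p.sys η) hT T k c T' k' b' (hy_tl_mBx p h Q T a b) (hy_tl_mBx p h _ T' _ _).compl _ (by positivity) (fun F => ?_) G
  have e : (52 * Real.exp (-(Λ ^ 2 / 40)) * 2 ^ (((k' : ℝ) - k) / 4)) ^ 2 = (52 * Real.exp (-(Λ ^ 2 / 40))) ^ 2 * 2 ^ (((k' : ℝ) - k) / 2) := by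
    rw [mul_pow, ← Real.rpow_natCast ((2 : ℝ) ^ (((k' : ℝ) - k) / 4)) 2, ← Real.rpow_mul (by norm_num)]
    congr 2
    push_cast
    ring
  rw [e]
  refine hK p h Λ hΛ T k T' k' hc _ _ (hy_tl_mBx p h Q T a b) (hy_tl_mBx p h _ T' _ _).compl (fun x hx x' hx' hcn => hx' ?_) F c b'
  exact hy_tl_succ p Q T T' a b _ _ (by linarith [hc.2.1]) x x' hx hcn.1 hcn.2.1 hcn.2.2

/-- the left end points of the ancestors increase with the depth -/
theorem hy_tl_cut (k k₁ k' i : ℕ) (h1 : k ≤ k₁) (h2 : k₁ ≤ k') : CutLe (tmL k (ancI k' k i)) k (tmL k₁ (ancI k' k₁ i)) k₁ := by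
  have := gn_cutle_anc h1 (ancI k' k₁ i)
  rwa [gn_anc_anc h1 h2] at this

theorem hy_tl_eps_mono (Λ : ℝ) {x y : ℝ} (hxy : x ≤ y) :
    52 * Real.exp (-(Λ ^ 2 / 40)) * (2 : ℝ) ^ (x / 4) ≤ 52 * Real.exp (-(Λ ^ 2 / 40)) * 2 ^ (y / 4) := by
  have : (2 : ℝ) ^ (x / 4) ≤ 2 ^ (y / 4) := Real.rpow_le_rpow_of_exponent_le (by norm_num) (by linarith)
  gcongr

/-- **propagation of the normal tails along a stack** -/
theorem hy_tl_chain (η : ℝ) (hK : HyKer η) (p : ChyPar) (h : p.Ok) (hT : (p.sys η).Tight) (Λ : ℝ) (hΛ : 1 ≤ Λ) (k' i b' : ℕ) :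
    ∀ (st : List (Stg (p.sys η))) (k c : ℕ) (Q : CyT) (a b a' b₂ : ℝ) (G : Lp p.Fb 2 p.rw), StM st → (∀ σ ∈ st, k ≤ σ.k ∧ σ.k ≤ k') → k ≤ k' →
      st.Pairwise (fun σ σ' => σ.k ≤ σ'.k) → 0 ≤ a →
      a + ((st.length : ℝ) + 1) * (Λ * p.dl k') ≤ a' → b + (tmL k' i - tmL k (ancI k' k i)) * a' + ((st.length : ℝ) + 1) * (Λ * p.ql k) ≤ b₂ →
      Real.sqrt ((p.sys η).ms (tmL k' i) k' b' (hyBx p (cyMv Q (tmL k' i - tmL k (ancI k' k i))) (tmL k' i) a' b₂)ᶜ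
          (Xp.run k' i st (ContinuousLinearMap.adjoint ((p.sys η).An (tmL k (ancI k' k i)) k c) G)))
        ≤ ‖(p.sys η).mulR k ((hyBx p Q (tmL k (ancI k' k i)) a b)ᶜ.indicator fun _ => 1) G‖
          + ((st.length : ℝ) + 1) * (52 * Real.exp (-(Λ ^ 2 / 40)) * 2 ^ (((k' : ℝ) - k) / 4)) * ‖G‖ := by
  intro st
  induction st with
  | nil =>
    intro k c Q a b a' b₂ G _ _ hk _ ha ha' hb₂
    have hc : CutLe (tmL k (ancI k' k i)) k (tmL k' i) k' := gn_cutle_anc hk i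
    have hstep := hy_tl_step η hK p h hT Q Λ hΛ _ k _ k' hc a b c b' G
    simp only [List.length_nil, Nat.cast_zero, zero_add, one_mul] at ha' hb₂ ⊢
    have hΛd : 0 ≤ Λ * p.dl k' := mul_nonneg (by linarith) (hy_tl_dl_nonneg p k')
    have ht : 0 ≤ tmL k' i - tmL k (ancI k' k i) := by linarith [hc.2.1]
    have hsub : (hyBx p (cyMv Q (tmL k' i - tmL k (ancI k' k i))) (tmL k' i) a' b₂)ᶜ
        ⊆ (hyBx p (cyMv Q (tmL k' i - tmL k (ancI k' k i))) (tmL k' i) (a + Λ * p.dl k') (b + (tmL k' i - tmL k (ancI k' k i)) * a + Λ * p.ql k))ᶜ := by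
      refine Set.compl_subset_compl.2 (hy_tl_bx_mono p _ _ ha' ?_)
      have : (tmL k' i - tmL k (ancI k' k i)) * a ≤ (tmL k' i - tmL k (ancI k' k i)) * a' := mul_le_mul_of_nonneg_left (by linarith) ht
      linarith
    refine (Real.sqrt_le_sqrt ?_).trans hstep
    exact gn_ms_mono (P := p.sys η) _ _ _ (hy_tl_mBx p h _ _ _ _).compl (hy_tl_mBx p h _ _ _ _).compl hsub _
  | cons σ l ih =>
    intro k c Q a b a' b₂ G hst hdep hk hpw ha ha' hb₂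
    obtain ⟨hσ1, hσ2⟩ := hdep σ List.mem_cons_self
    rw [List.pairwise_cons] at hpw
    have hl : StM l := fun τ hτ => hst τ (List.mem_cons_of_mem _ hτ)
    have hM : IsMask (σ.M (ancI k' σ.k i)) := hst σ List.mem_cons_self _
    have hc : CutLe (tmL k (ancI k' k i)) k (tmL σ.k (ancI k' σ.k i)) σ.k := hy_tl_cut k σ.k k' i hσ1 hσ2
    have hc' : CutLe (tmL σ.k (ancI k' σ.k i)) σ.k (tmL k' i) k' := gn_cutle_anc hσ2 i
    set τk := tmL k (ancI k' k i) with hτk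
    set τσ := tmL σ.k (ancI k' σ.k i) with hτσ
    set T' := tmL k' i with hT'
    have ht1 : 0 ≤ τσ - τk := by linarith [hc.2.1]
    have ht2 : 0 ≤ T' - τσ := by linarith [hc'.2.1]
    have hΛ0 : 0 ≤ Λ := by linarith
    have hd1 := hy_tl_dl_mono p h hσ2
    have hq1 := hy_tl_ql_anti p h hσ1
    have hd0 := hy_tl_dl_nonneg p σ.k
    have hq0 := hy_tl_ql_nonneg p σ.k
    have hlen : (((σ :: l).length : ℕ) : ℝ) = (l.length : ℝ) + 1 := by simp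
    rw [hlen] at ha' hb₂ ⊢
    have hn0 : (0 : ℝ) ≤ (l.length : ℝ) := Nat.cast_nonneg _
    have haa' : a ≤ a' := by
      have : 0 ≤ ((l.length : ℝ) + 1 + 1) * (Λ * p.dl k') := by have := hy_tl_dl_nonneg p k'; positivity
      linarith
    set v₀ := ContinuousLinearMap.adjoint ((p.sys η).An τk k c) G with hv₀
    set G₁ : Lp p.Fb 2 p.rw := (p.sys η).mulR σ.k (σ.M (ancI k' σ.k i)) ((p.sys η).An τσ σ.k σ.b v₀) with hG₁
    have IH := ih σ.k σ.b (cyMv Q (τσ - τk)) (a + Λ * p.dl σ.k) (b + (τσ - τk) * a + Λ * p.ql k) a' b₂ G₁ hl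
      (fun σ' hσ' => ⟨hpw.1 σ' hσ', (hdep σ' (List.mem_cons_of_mem _ hσ')).2⟩) hσ2 hpw.2 (by positivity)
      (by
        have : Λ * p.dl σ.k ≤ Λ * p.dl k' := mul_le_mul_of_nonneg_left hd1 hΛ0
        linarith)
      (by
        have e1 : (τσ - τk) * a ≤ (τσ - τk) * a' := mul_le_mul_of_nonneg_left haa' ht1
        have e2 : ((l.length : ℝ) + 1) * (Λ * p.ql σ.k) ≤ ((l.length : ℝ) + 1) * (Λ * p.ql k) := by gcongr
        have e3 : b + (T' - τk) * a' + ((l.length : ℝ) + 1 + 1) * (Λ * p.ql k) ≤ b₂ := hb₂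
        have e4 : (T' - τk) * a' = (τσ - τk) * a' + (T' - τσ) * a' := by ring
        have e5 : ((l.length : ℝ) + 1 + 1) * (Λ * p.ql k) = ((l.length : ℝ) + 1) * (Λ * p.ql k) + Λ * p.ql k := by ring
        linarith)
    rw [hy_tl_mv_mv, show τσ - τk + (T' - τσ) = T' - τk by ring] at IH
    have hrun : Xp.run k' i (σ :: l) v₀ = Xp.run k' i l (ContinuousLinearMap.adjoint ((p.sys η).An τσ σ.k σ.b) G₁) := rfl
    rw [hrun]
    refine IH.trans ?_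
    -- the restriction of `G₁`
    have g1 : ‖(p.sys η).mulR σ.k ((hyBx p (cyMv Q (τσ - τk)) τσ (a + Λ * p.dl σ.k) (b + (τσ - τk) * a + Λ * p.ql k))ᶜ.indicator fun _ => 1) G₁‖
        ≤ ‖(p.sys η).mulR k ((hyBx p Q τk a b)ᶜ.indicator fun _ => 1) G‖ + 52 * Real.exp (-(Λ ^ 2 / 40)) * 2 ^ (((σ.k : ℝ) - k) / 4) * ‖G‖ := by
      refine (hy_tl_mulR_le (P := p.sys η) σ.k (hy_tl_mBx p h _ _ _ _).compl hM _).trans ?_
      refine le_trans (le_of_eq ?_) (hy_tl_step η hK p h hT Q Λ hΛ τk k τσ σ.k hc a b c σ.b G)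
      exact (hy_tl_sqrt_ms (P := p.sys η) τσ σ.k σ.b (hy_tl_mBx p h _ _ _ _).compl v₀).symm
    have g2 : ‖G₁‖ ≤ ‖G‖ :=
      ((gn_mulR_norm_le (P := p.sys η) σ.k hM _).trans (hT.contr τσ σ.k σ.b v₀)).trans (gn_adj_norm_le (P := p.sys η) hT τk k c G)
    have kk1 : ((σ.k : ℝ) - k) ≤ (k' : ℝ) - k := by
      have : (σ.k : ℝ) ≤ k' := by exact_mod_cast hσ2
      linarith
    have kk2 : ((k' : ℝ) - σ.k) ≤ (k' : ℝ) - k := by
      have : (k : ℝ) ≤ σ.k := by exact_mod_cast hσ1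
      linarith
    have e1 := hy_tl_eps_mono Λ kk1
    have e2 := hy_tl_eps_mono Λ kk2
    have hG0 := norm_nonneg G
    have hε0 : 0 ≤ 52 * Real.exp (-(Λ ^ 2 / 40)) * (2 : ℝ) ^ (((k' : ℝ) - σ.k) / 4) := by positivity
    have f1 : 52 * Real.exp (-(Λ ^ 2 / 40)) * 2 ^ (((σ.k : ℝ) - k) / 4) * ‖G‖ ≤ 52 * Real.exp (-(Λ ^ 2 / 40)) * 2 ^ (((k' : ℝ) - k) / 4) * ‖G‖ :=
      mul_le_mul_of_nonneg_right e1 hG0
    have f2 : ((l.length : ℝ) + 1) * (52 * Real.exp (-(Λ ^ 2 / 40)) * 2 ^ (((k' : ℝ) - σ.k) / 4)) * ‖G₁‖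
        ≤ ((l.length : ℝ) + 1) * (52 * Real.exp (-(Λ ^ 2 / 40)) * 2 ^ (((k' : ℝ) - k) / 4)) * ‖G‖ := by
      gcongr
    have f3 : ((l.length : ℝ) + 1 + 1) * (52 * Real.exp (-(Λ ^ 2 / 40)) * 2 ^ (((k' : ℝ) - k) / 4)) * ‖G‖
        = ((l.length : ℝ) + 1) * (52 * Real.exp (-(Λ ^ 2 / 40)) * 2 ^ (((k' : ℝ) - k) / 4)) * ‖G‖ + 52 * Real.exp (-(Λ ^ 2 / 40)) * 2 ^ (((k' : ℝ) - k) / 4) * ‖G‖ := by
      ring
    linarith

end Claimed.Agent.R256
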