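import Claimed.Agent.R256.Hyb.TailGeo
import Claimed.Agent.R256.Hyb.Inst
import Claimed.Agent.R256.Gen.BasC

/-!
# Row 256, unit HYB, post BP-256-HYB-TAIL (helper218; prefix `hy_tl_`), file 2: THE ENERGY OVER A SET OF EXACT INDICES

"Base indices move exactly and masks are contractions on each fiber" (02 l.217).
* `hySt p W G`      the energy of the state `G` over the exact indices `ω ∈ W`
* `hy_tl_ms_st`     `ms T k b (hyW p W) v = hySt p W v` at every cut   (from `hy_an_ind`)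
* `hy_tl_tz`, `hy_tl_run`    it does not increase under `An^* M An`, hence along a stack
-/

set_option autoImplicit false

namespace Claimed.Agent.R256

open MeasureTheory
open scoped ENNReal InnerProductSpace

/-- the energy of a state over a set of exact indices -/
noncomputable def hySt (p : ChyPar) (W : Set p.Om) (G : Lp p.Fb 2 (p.m.prod (volume : Measure ℝ))) : ℝ≥0∞ :=
  ∫⁻ y in {y : p.Om × ℝ | y.1 ∈ W}, ‖(G : p.Om × ℝ → p.Fb) y‖ₑ ^ 2 ∂(p.m.prod (volume : Measure ℝ))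

theorem hy_tl_fib_eqns_cite : True := by
  have := @hySt.eq_1
  trivial

/-- the square of the `L²` norm as a `lintegral` -/
theorem hy_tl_enorm_sq {X F : Type} [MeasurableSpace X] [NormedAddCommGroup F] {μ : Measure X} (G : Lp F 2 μ) :
    ENNReal.ofReal (‖G‖ ^ 2) = ∫⁻ x, ‖(G : X → F) x‖ₑ ^ 2 ∂μ := by
  have h1 : eLpNorm (G : X → F) 2 μ ≠ ⊤ := (Lp.memLp G).eLpNorm_ne_top
  rw [Lp.norm_def, ← ENNReal.toReal_pow, ENNReal.ofReal_toReal (ENNReal.pow_ne_top h1),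
    eLpNorm_eq_lintegral_rpow_enorm_toReal (by norm_num) (by norm_num)]
  simp only [ENNReal.toReal_ofNat, ENNReal.rpow_two, one_div]
  rw [← ENNReal.rpow_natCast, ← ENNReal.rpow_mul]
  norm_num

/-- masses as `lintegral`s -/
theorem hy_tl_ms_lint (p : ChyPar) (h : p.Ok) (η : ℝ) (T : ℝ) (k b : ℕ) {S : Set (p.Om × ℝ × ℝ)} (hS : MeasurableSet S) (v : (p.sys η).Kc) :
    ENNReal.ofReal ((p.sys η).ms T k b S v) = ∫⁻ x in S, ‖(p.an T k v : p.Om × ℝ × ℝ → p.Fb) x‖ₑ ^ 2 ∂p.rw := by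
  have h1 := hy_en_lint p h η T k b (S.indicator fun _ => 1) (measurable_const.indicator hS) (fun x => Set.indicator_nonneg (fun _ _ => zero_le_one) x)
    (fun x => Set.indicator_le_self' (fun _ _ => zero_le_one) x) v _ (Filter.EventuallyEq.refl _ _)
  refine h1.trans ?_
  rw [← lintegral_indicator hS]
  refine lintegral_congr fun x => ?_
  by_cases hx : x ∈ S
  · simp only [Set.indicator_of_mem hx, ENNReal.ofReal_one, one_mul]
    rfl
  · simp only [Set.indicator_of_notMem hx, ENNReal.ofReal_zero, zero_mul]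

/-- the energy over a set of exact indices at any cut -/
theorem hy_tl_ms_st (p : ChyPar) (h : p.Ok) (η : ℝ) (T : ℝ) (k b : ℕ) {W : Set p.Om} (hW : MeasurableSet W) (v : (p.sys η).Kc) :
    ENNReal.ofReal ((p.sys η).ms T k b (hyW p W) v) = hySt p W v := by
  rw [hy_tl_ms_lint p h η T k b (hy_tl_mW p hW) v]
  exact hy_an_ind p h T k W hW v

/-- conservation -/
theorem hy_tl_cons (p : ChyPar) (h : p.Ok) (η : ℝ) {W : Set p.Om} (hW : MeasurableSet W) (T : ℝ) (k b : ℕ) (T' : ℝ) (k' b' : ℕ) (v : (p.sys η).Kc) :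
    (p.sys η).ms T k b (hyW p W) v = (p.sys η).ms T' k' b' (hyW p W) v := by
  have h1 := hy_tl_ms_st p h η T k b hW v
  have h2 := hy_tl_ms_st p h η T' k' b' hW v
  rw [← h2] at h1
  exact (ENNReal.ofReal_eq_ofReal_iff (gn_ms_nonneg _ _ _ _ _) (gn_ms_nonneg _ _ _ _ _)).1 h1

/-! ## restriction of an `L²` function -/

section gen

variable {X F : Type} [MeasurableSpace X] [NormedAddCommGroup F] [InnerProductSpace ℂ F] {μ : Measure X}

/-- restriction of an `L²` function to a measurable set -/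
noncomputable def hyRes {S : Set X} (hS : MeasurableSet S) (G : Lp F 2 μ) : Lp F 2 μ := ((Lp.memLp G).indicator hS).toLp _

theorem hy_tl_res_eqns_cite : True := by
  have := @hyRes.eq_1
  trivial

theorem hy_tl_res_coe {S : Set X} (hS : MeasurableSet S) (G : Lp F 2 μ) : (hyRes hS G : X → F) =ᵐ[μ] S.indicator (G : X → F) :=
  MemLp.coeFn_toLp _

theorem hy_tl_res_inner {S : Set X} (hS : MeasurableSet S) (G : Lp F 2 μ) : ⟪G, hyRes hS G⟫_ℂ = ⟪hyRes hS G, hyRes hS G⟫_ℂ := by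
  rw [L2.inner_def, L2.inner_def]
  refine integral_congr_ae ?_
  filter_upwards [hy_tl_res_coe hS G] with x hx
  rw [hx]
  by_cases hxS : x ∈ S
  · rw [Set.indicator_of_mem hxS]
  · rw [Set.indicator_of_notMem hxS, inner_zero_right, inner_zero_right]

theorem hy_tl_res_lint {S : Set X} (hS : MeasurableSet S) (G : Lp F 2 μ) (S' : Set X) :
    ∫⁻ x in S', ‖(hyRes hS G : X → F) x‖ₑ ^ 2 ∂μ = ∫⁻ x in S' ∩ S, ‖(G : X → F) x‖ₑ ^ 2 ∂μ := by
  have h1 : ∫⁻ x in S', ‖(hyRes hS G : X → F) x‖ₑ ^ 2 ∂μ = ∫⁻ x in S', S.indicator (fun x => ‖(G : X → F) x‖ₑ ^ 2) x ∂μ := by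
    refine lintegral_congr_ae (ae_restrict_of_ae ?_)
    filter_upwards [hy_tl_res_coe hS G] with x hx
    rw [hx]
    by_cases hxS : x ∈ S
    · rw [Set.indicator_of_mem hxS, Set.indicator_of_mem hxS]
    · rw [Set.indicator_of_notMem hxS, Set.indicator_of_notMem hxS]
      simp
  rw [h1, lintegral_indicator hS, Measure.restrict_restrict hS, Set.inter_comm]

end gen

/-- a Hilbert space lemma -/
theorem hy_tl_abs {K R : Type} [NormedAddCommGroup K] [InnerProductSpace ℂ K] [CompleteSpace K] [NormedAddCommGroup R] [InnerProductSpace ℂ R] [CompleteSpace R]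
    (A : K →L[ℂ] R) (hA : ∀ x, ‖A x‖ ≤ ‖x‖) (Y Y' : R) (u : K) (h1 : ⟪ContinuousLinearMap.adjoint A Y, u⟫_ℂ = ⟪u, u⟫_ℂ) (h2 : ⟪Y, A u⟫_ℂ = ⟪Y', A u⟫_ℂ) :
    ‖u‖ ≤ ‖Y'‖ := by
  have e : ‖u‖ * ‖u‖ ≤ ‖Y'‖ * ‖u‖ := by
    calc ‖u‖ * ‖u‖ = ‖⟪u, u⟫_ℂ‖ := by rw [inner_self_eq_norm_sq_to_K]; simp [sq]
      _ = ‖⟪Y', A u⟫_ℂ‖ := by rw [← h1, ContinuousLinearMap.adjoint_inner_left, h2]
      _ ≤ ‖Y'‖ * ‖A u‖ := norm_inner_le_norm _ _
      _ ≤ ‖Y'‖ * ‖u‖ := by gcongr; exact hA u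
  by_cases hu : ‖u‖ = 0
  · rw [hu]; exact norm_nonneg _
  · exact le_of_mul_le_mul_right e (lt_of_le_of_ne (norm_nonneg _) (Ne.symm hu))

/-- scalar masks are self-adjoint -/
theorem hy_tl_mulR_inner {P : PkSys} (k : ℕ) {M : P.X → ℝ} (hM : IsMask M) (F G : Lp P.Fb 2 (P.rho k)) :
    ⟪P.mulR k M F, G⟫_ℂ = ⟪F, P.mulR k M G⟫_ℂ := by
  rw [L2.inner_def, L2.inner_def]
  refine integral_congr_ae ?_
  filter_upwards [gn_mulR_coe k hM F, gn_mulR_coe k hM G] with x h1 h2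
  rw [h1, h2, inner_smul_left, inner_smul_right, Complex.conj_ofReal]

/-- `ms` is the square of a Hilbert norm -/
theorem hy_tl_ms_norm {P : PkSys} (T : ℝ) (k b : ℕ) {S : Set P.X} (hS : MeasurableSet S) (v : P.Kc) :
    P.ms T k b S v = ‖P.mulR k (S.indicator fun _ => 1) (P.An T k b v)‖ ^ 2 := by
  rw [gn_ms_eq T k b hS v, gn_mulR_ind_normsq k hS]

/-- a row function is the sum of its restrictions to a set and to the complement -/
theorem hy_tl_split {P : PkSys} (k : ℕ) {S : Set P.X} (hS : MeasurableSet S) (F : Lp P.Fb 2 (P.rho k)) :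
    P.mulR k (S.indicator fun _ => 1) F + P.mulR k (Sᶜ.indicator fun _ => 1) F = F := by
  have h := gn_mulR_sum k (Finset.univ : Finset Bool) (fun j => if j then S.indicator fun _ => 1 else Sᶜ.indicator fun _ => 1)
    (fun j _ => by cases j <;> simp [gn_mask_ind hS, gn_mask_ind hS.compl]) (M := fun _ => 1) ⟨measurable_const, fun _ => ⟨zero_le_one, le_rfl⟩⟩
    (fun x => by
      by_cases hx : x ∈ S <;> simp [hx]) F
  rw [gn_mulR_one, Fintype.sum_bool] at h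
  exact h

/-! ## masks do not increase the energy over a set of exact indices -/

/-- the abstract step: `u` = the part of `w = An^* M An v` over `S`-rows -/
theorem hy_tl_tz_abs {P : PkSys} (hT : P.Tight) {S : Set P.X} (hS : MeasurableSet S) (T₁ : ℝ) (k₁ b₁ : ℕ) {M : P.X → ℝ} (hM : IsMask M) (v u : P.Kc)
    (h1 : ⟪P.tz T₁ k₁ b₁ M v, u⟫_ℂ = ⟪u, u⟫_ℂ) (h2 : P.ms T₁ k₁ b₁ Sᶜ u = 0) : ‖u‖ ^ 2 ≤ P.ms T₁ k₁ b₁ S v := by
  have s4 : P.mulR k₁ (Sᶜ.indicator fun _ => 1) (P.An T₁ k₁ b₁ u) = 0 := by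
    have e := hy_tl_ms_norm T₁ k₁ b₁ hS.compl u
    rw [h2] at e
    exact norm_eq_zero.1 ((pow_eq_zero_iff (two_ne_zero)).1 e.symm)
  have s5 : P.mulR k₁ (S.indicator fun _ => 1) (P.An T₁ k₁ b₁ u) = P.An T₁ k₁ b₁ u := by
    have e := hy_tl_split k₁ hS (P.An T₁ k₁ b₁ u)
    rwa [s4, add_zero] at e
  have hI : IsMask (S.indicator fun _ => (1 : ℝ)) := gn_mask_ind hS
  have s6 : ‖u‖ ≤ ‖P.mulR k₁ (S.indicator fun _ => 1) (P.mulR k₁ M (P.An T₁ k₁ b₁ v))‖ := by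
    refine hy_tl_abs (P.An T₁ k₁ b₁) (hT.contr T₁ k₁ b₁) (P.mulR k₁ M (P.An T₁ k₁ b₁ v)) _ u h1 ?_
    rw [hy_tl_mulR_inner k₁ hI, s5]
  have s7 : ‖P.mulR k₁ (S.indicator fun _ => 1) (P.mulR k₁ M (P.An T₁ k₁ b₁ v))‖ ≤ ‖P.mulR k₁ (S.indicator fun _ => 1) (P.An T₁ k₁ b₁ v)‖ := by
    rw [gn_mulR_mulR k₁ hI hM]
    have e : (fun x => S.indicator (fun _ => (1 : ℝ)) x * M x) = fun x => M x * S.indicator (fun _ => (1 : ℝ)) x := by
      funext x; ring
    rw [e, ← gn_mulR_mulR k₁ hM hI]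
    exact gn_mulR_norm_le k₁ hM _
  rw [hy_tl_ms_norm T₁ k₁ b₁ hS v]
  exact pow_le_pow_left₀ (norm_nonneg _) (s6.trans s7) 2

theorem hy_tl_tz (p : ChyPar) (h : p.Ok) (η : ℝ) (hT : (p.sys η).Tight) {W : Set p.Om} (hW : MeasurableSet W) (T : ℝ) (k b : ℕ) (T₁ : ℝ) (k₁ b₁ : ℕ)
    {M : (p.sys η).X → ℝ} (hM : IsMask M) (v : (p.sys η).Kc) :
    (p.sys η).ms T k b (hyW p W) ((p.sys η).tz T₁ k₁ b₁ M v) ≤ (p.sys η).ms T k b (hyW p W) v := by
  have hWs : MeasurableSet {y : p.Om × ℝ | y.1 ∈ W} := measurable_fst hW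
  have hS : MeasurableSet (hyW p W) := hy_tl_mW p hW
  set w : (p.sys η).Kc := (p.sys η).tz T₁ k₁ b₁ M v with hw
  let u : (p.sys η).Kc := hyRes hWs (w : Lp p.Fb 2 (p.m.prod (volume : Measure ℝ)))
  -- the norm of `u`
  have s1 : ENNReal.ofReal (‖u‖ ^ 2) = hySt p W w := by
    have e1 := hy_tl_enorm_sq (hyRes hWs (w : Lp p.Fb 2 (p.m.prod (volume : Measure ℝ))))
    have e2 := hy_tl_res_lint hWs (w : Lp p.Fb 2 (p.m.prod (volume : Measure ℝ))) Set.univ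
    rw [Measure.restrict_univ, Set.univ_inter] at e2
    exact e1.trans e2
  -- `u` has no energy over the complement
  have s2 : hySt p Wᶜ u = 0 := by
    have e2 := hy_tl_res_lint hWs (w : Lp p.Fb 2 (p.m.prod (volume : Measure ℝ))) {y : p.Om × ℝ | y.1 ∈ Wᶜ}
    have e3 : {y : p.Om × ℝ | y.1 ∈ Wᶜ} ∩ {y : p.Om × ℝ | y.1 ∈ W} = ∅ := by
      ext y
      simp
    rw [e3, Measure.restrict_empty, lintegral_zero_measure] at e2
    exact e2
  have s3 : (p.sys η).ms T₁ k₁ b₁ (hyW p Wᶜ) u = 0 := by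
    have e := hy_tl_ms_st p h η T₁ k₁ b₁ hW.compl u
    rw [s2, ENNReal.ofReal_eq_zero] at e
    exact le_antisymm e (gn_ms_nonneg _ _ _ _ _)
  have s8 : (p.sys η).ms T k b (hyW p W) w = ‖u‖ ^ 2 := by
    have e := hy_tl_ms_st p h η T k b hW w
    rw [← s1] at e
    exact (ENNReal.ofReal_eq_ofReal_iff (gn_ms_nonneg _ _ _ _ _) (by positivity)).1 e
  rw [s8, hy_tl_cons p h η hW T k b T₁ k₁ b₁ v]
  exact hy_tl_tz_abs (P := p.sys η) hT hS T₁ k₁ b₁ hM v u (hy_tl_res_inner hWs (w : Lp p.Fb 2 (p.m.prod (volume : Measure ℝ)))) s3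

theorem hy_tl_run (p : ChyPar) (h : p.Ok) (η : ℝ) (hT : (p.sys η).Tight) {W : Set p.Om} (hW : MeasurableSet W) (T : ℝ) (k b : ℕ) (k' i : ℕ) :
    ∀ (st : List (Stg (p.sys η))), StM st → ∀ v : (p.sys η).Kc,
      (p.sys η).ms T k b (hyW p W) (Xp.run k' i st v) ≤ (p.sys η).ms T k b (hyW p W) v
  | [], _, _ => le_rfl
  | σ :: l, hst, v => by
      have h1 : StM l := fun τ hτ => hst τ (List.mem_cons_of_mem _ hτ)
      have h2 := hy_tl_run p h η hT hW T k b k' i l h1 ((p.sys η).tz (tmL σ.k (ancI k' σ.k i)) σ.k σ.b (σ.M (ancI k' σ.k i)) v)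
      exact h2.trans (hy_tl_tz p h η hT hW T k b _ _ _ (hst σ List.mem_cons_self _) v)

end Claimed.Agent.R256
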