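import Claimed.Agent.R256.Base.Cyl

/-!
# Row 256, unit HYB, post BP-256-HYB-TAIL (helper218; prefix `hy_tl_`), file 1: GEOMETRY OF A TRANSPORTED FRAME

* `cyMv Q t`      the frame `Q` transported by the free flow for the time `t`: `b + t x`, `y + t x²`, `d + t c`, `β + t K`; widths unchanged
* `hy_tl_vel`, `hy_tl_pos`    the shear-subtracted normal coordinates of two rows over the same exact index at two times
* `hyPsi`, `hy_tl_base`       the normalised base coordinates at the later cut are the image of those at the root under a shear + dilation `hyPsi`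
* `hy_tl_vol`                 `hyPsi` does not increase the volume of preimages
* `hyBx`, `hy_tl_succ`        normal boxes and their successors under the correspondence (cyl:correspondence)
* measurability
-/

set_option autoImplicit false

namespace Claimed.Agent.R256

open MeasureTheory
open scoped ENNReal

/-- the frame transported by the free flow for the time `t` -/
def cyMv (Q : CyT) (t : ℝ) : CyT :=
  ⟨Q.x, Q.b + t * Q.x, Q.y + t * Q.x ^ 2, Q.r, Q.f, Q.c, Q.d + t * Q.c, Q.al, Q.be + t * Q.K, Q.K⟩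

/-- the change of normalised base coordinates -/
def hyPsi (lam c : ℝ) (u : ℝ × ℝ × ℝ) : ℝ × ℝ × ℝ := (u.1, lam * u.2.1 + c * u.1, lam * u.2.2 + c * u.1 ^ 2)

/-- rows over a set of exact indices -/
def hyW (p : ChyPar) (W : Set p.Om) : Set (p.Om × ℝ × ℝ) := {x | x.1 ∈ W}

/-- the normal box of a frame -/
def hyBx (p : ChyPar) (Q : CyT) (T a b : ℝ) : Set (p.Om × ℝ × ℝ) := {x | |cyVel Q (p.co T x)| ≤ a ∧ |cyPos Q (p.co T x)| ≤ b}

theorem hy_tl_geo_eqns_cite : True := by
  have := @cyMv.eq_1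
  have := @hyPsi.eq_1
  have := @hyW.eq_1
  have := @hyBx.eq_1
  trivial

theorem hy_tl_mv_zero (Q : CyT) : cyMv Q 0 = Q := by
  cases Q
  simp [cyMv]

theorem hy_tl_mv_mv (Q : CyT) (t t' : ℝ) : cyMv (cyMv Q t) t' = cyMv Q (t + t') := by
  simp only [cyMv, CyT.mk.injEq, true_and, and_true]
  refine ⟨by ring, by ring, by ring, by ring⟩

theorem hy_tl_wt (η : ℝ) (Q : CyT) (t : ℝ) : cyWt η (cyMv Q t) = cyWt η Q := rfl

/-- velocities -/
theorem hy_tl_vel (p : ChyPar) (Q : CyT) (T T' : ℝ) (ω : p.Om) (D N D' N' : ℝ) :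
    cyVel (cyMv Q (T' - T)) (p.co T' (ω, D', N')) = cyVel Q (p.co T (ω, D, N)) + (N' - N) := by
  simp only [cyVel, cyMv, ChyPar.co]
  ring

/-- positions -/
theorem hy_tl_pos (p : ChyPar) (Q : CyT) (T T' : ℝ) (ω : p.Om) (D N D' N' : ℝ) :
    cyPos (cyMv Q (T' - T)) (p.co T' (ω, D', N'))
      = cyPos Q (p.co T (ω, D, N)) + (D' - D - (T' - T) * N) + (T' - T) * cyVel Q (p.co T (ω, D, N)) := by
  simp only [cyPos, cyVel, cyMv, ChyPar.co]
  ring

/-- base coordinates -/
theorem hy_tl_base (p : ChyPar) (Q : CyT) (hr : 0 < Q.r) (T T' l l' : ℝ) (hl : 0 < l) (hl' : 0 < l') (x : p.Om × ℝ × ℝ) :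
    cyBase (cyMv Q (T' - T)) l' (p.co T' x) = hyPsi (l / l') ((T' - T) / l') (cyBase Q l (p.co T x)) := by
  simp only [cyBase, cyTilt, cyMv, ChyPar.co, hyPsi, Prod.mk.injEq, true_and]
  constructor
  · field_simp
    ring
  · field_simp
    ring

/-- the base coordinates see only the exact index -/
theorem hy_tl_base_ind (p : ChyPar) (Q : CyT) (T l : ℝ) (x : p.Om × ℝ × ℝ) : cyBase Q l (p.co T x) = cyBase Q l (p.co T (x.1, 0, 0)) := rfl

/-- successors of a box under the correspondence -/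
theorem hy_tl_succ (p : ChyPar) (Q : CyT) (T T' a b δN δD : ℝ) (ht : 0 ≤ T' - T) (x x' : p.Om × ℝ × ℝ) (hx : x ∈ hyBx p Q T a b)
    (h1 : x.1 = x'.1) (h2 : |x'.2.2 - x.2.2| ≤ δN) (h3 : |x'.2.1 - x.2.1 - (T' - T) * x.2.2| ≤ δD) :
    x' ∈ hyBx p (cyMv Q (T' - T)) T' (a + δN) (b + (T' - T) * a + δD) := by
  obtain ⟨ω, D, N⟩ := x
  obtain ⟨ω', D', N'⟩ := x'
  obtain rfl : ω = ω' := h1
  obtain ⟨hv, hp⟩ := hx
  refine ⟨?_, ?_⟩
  · rw [hy_tl_vel p Q T T' ω D N D' N']
    exact (abs_add_le _ _).trans (add_le_add hv h2)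
  · rw [hy_tl_pos p Q T T' ω D N D' N']
    have e : |(T' - T) * cyVel Q (p.co T (ω, D, N))| ≤ (T' - T) * a := by
      rw [abs_mul, abs_of_nonneg ht]
      exact mul_le_mul_of_nonneg_left hv ht
    have := abs_add_le (cyPos Q (p.co T (ω, D, N)) + (D' - D - (T' - T) * N)) ((T' - T) * cyVel Q (p.co T (ω, D, N)))
    have := abs_add_le (cyPos Q (p.co T (ω, D, N))) (D' - D - (T' - T) * N)
    have h3' : |D' - D - (T' - T) * N| ≤ δD := h3
    linarith

theorem hy_tl_bx_mono (p : ChyPar) (Q : CyT) (T : ℝ) {a b a' b' : ℝ} (ha : a ≤ a') (hb : b ≤ b') : hyBx p Q T a b ⊆ hyBx p Q T a' b' :=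
  fun _ hx => ⟨hx.1.trans ha, hx.2.trans hb⟩

/-! ## measurability -/

section meas

variable (p : ChyPar) (h : p.Ok) (Q : CyT) (T l : ℝ)
include h

theorem hy_tl_mX : Measurable fun x : p.Om × ℝ × ℝ => (p.co T x).X := h.mX.comp measurable_fst

theorem hy_tl_mB : Measurable fun x : p.Om × ℝ × ℝ => (p.co T x).B :=
  (h.mB.comp measurable_fst).add ((h.mX.comp measurable_fst).const_mul T)

theorem hy_tl_mY : Measurable fun x : p.Om × ℝ × ℝ => (p.co T x).Y :=
  (h.mY.comp measurable_fst).add (((h.mX.comp measurable_fst).pow_const 2).const_mul T)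

theorem hy_tl_mN : Measurable fun x : p.Om × ℝ × ℝ => (p.co T x).N := measurable_snd.comp measurable_snd

theorem hy_tl_mD : Measurable fun x : p.Om × ℝ × ℝ => (p.co T x).D := measurable_fst.comp measurable_snd

theorem hy_tl_mVel : Measurable fun x : p.Om × ℝ × ℝ => cyVel Q (p.co T x) := by
  have h1 := hy_tl_mX p h T
  have h2 := hy_tl_mB p h T
  have h3 := hy_tl_mY p h T
  have h4 := hy_tl_mN p h T
  unfold cyVel
  fun_prop

theorem hy_tl_mPos : Measurable fun x : p.Om × ℝ × ℝ => cyPos Q (p.co T x) := by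
  have h2 := hy_tl_mB p h T
  have h3 := hy_tl_mY p h T
  have h5 := hy_tl_mD p h T
  unfold cyPos
  fun_prop

theorem hy_tl_mBase : Measurable fun x : p.Om × ℝ × ℝ => cyBase Q l (p.co T x) := by
  have h1 := hy_tl_mX p h T
  have h2 := hy_tl_mB p h T
  have h3 := hy_tl_mY p h T
  unfold cyBase cyTilt
  fun_prop

theorem hy_tl_mBase' : Measurable fun ω : p.Om => cyBase Q l (p.co T (ω, 0, 0)) :=
  (hy_tl_mBase p h Q T l).comp (measurable_id.prodMk measurable_const)

theorem hy_tl_mBx (a b : ℝ) : MeasurableSet (hyBx p Q T a b) :=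
  (measurableSet_le (hy_tl_mVel p h Q T).abs measurable_const).inter (measurableSet_le (hy_tl_mPos p h Q T).abs measurable_const)

end meas

theorem hy_tl_mW (p : ChyPar) {W : Set p.Om} (hW : MeasurableSet W) : MeasurableSet (hyW p W) := measurable_fst hW

theorem hy_tl_mPsi (lam c : ℝ) : Measurable (hyPsi lam c) := by
  unfold hyPsi
  fun_prop

/-! ## volume -/

/-- an affine dilation of the plane -/
theorem hy_tl_vol2 (lam : ℝ) (hlam : 1 ≤ lam) (w : ℝ × ℝ) (B : Set (ℝ × ℝ)) :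
    volume ((fun z : ℝ × ℝ => (lam * z.1 + w.1, lam * z.2 + w.2)) ⁻¹' B) ≤ volume B := by
  have hl0 : lam ≠ 0 := by linarith
  have e : (fun z : ℝ × ℝ => (lam * z.1 + w.1, lam * z.2 + w.2)) ⁻¹' B = (fun z : ℝ × ℝ => lam • z) ⁻¹' ((fun z : ℝ × ℝ => z + w) ⁻¹' B) := by
    ext z
    rfl
  rw [e, Measure.addHaar_preimage_smul volume hl0, measure_preimage_add_right]
  have : ENNReal.ofReal |(lam ^ Module.finrank ℝ (ℝ × ℝ))⁻¹| ≤ 1 := by
    rw [ENNReal.ofReal_le_one, abs_inv, abs_pow]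
    refine inv_le_one_of_one_le₀ (one_le_pow₀ ?_)
    rw [abs_of_pos (by linarith)]
    exact hlam
  calc _ ≤ 1 * volume B := by gcongr
    _ = volume B := one_mul _

theorem hy_tl_vol (lam c : ℝ) (hlam : 1 ≤ lam) (S : Set (ℝ × ℝ × ℝ)) (hS : MeasurableSet S) : volume (hyPsi lam c ⁻¹' S) ≤ volume S := by
  have hS' : MeasurableSet (hyPsi lam c ⁻¹' S) := hy_tl_mPsi lam c hS
  rw [Measure.volume_eq_prod, Measure.prod_apply hS', Measure.prod_apply hS]
  refine lintegral_mono fun u => ?_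
  exact hy_tl_vol2 lam hlam (c * u, c * u ^ 2) (Prod.mk u ⁻¹' S)

end Claimed.Agent.R256
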