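import Claimed.Agent.R256.Hyb.TailChain

/-!
# Row 256, unit HYB, post BP-256-HYB-TAIL (helper218; prefix `hy_tl_`), file 4: THE THREE CLAUSES OF THE SETUP AT A LATER CUT

For a state `v` at the cut `(T,k)`, a stack `st`, the later cut `(T',k')`, the frame `Q` and the transported frame `cyMv Q (T' - T)`:
* `hy_tl_supp`    base support (exact)
* `hy_tl_dens`    marginal base density
* `hy_tl_tail`    normal tails
-/

set_option autoImplicit false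

namespace Claimed.Agent.R256

open MeasureTheory
open scoped ENNReal

/-- the energy over a set of exact indices: later cut, after a stack, against the root -/
theorem hy_tl_ind_le (p : ChyPar) (h : p.Ok) (η : ℝ) (hT : (p.sys η).Tight) {W : Set p.Om} (hW : MeasurableSet W) (T : ℝ) (k b : ℕ) (T' : ℝ) (k' b' k'' i : ℕ)
    (st : List (Stg (p.sys η))) (hst : StM st) (v : (p.sys η).Kc) :
    (p.sys η).ms T' k' b' (hyW p W) (Xp.run k'' i st v) ≤ (p.sys η).ms T k b (hyW p W) v :=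
  (hy_tl_run p h η hT hW T' k' b' k'' i st hst v).trans (le_of_eq (hy_tl_cons p h η hW T' k' b' T k b v))

/-- the size of the image under `hyPsi` -/
theorem hy_tl_psi_bd (lam c R : ℝ) (h1 : 1 ≤ lam) (hc0 : 0 ≤ c) (hc : c ≤ lam) (hR : 1 ≤ R) (u : ℝ × ℝ × ℝ) (hu : max |u.1| (max |u.2.1| |u.2.2|) ≤ R) :
    max |(hyPsi lam c u).1| (max |(hyPsi lam c u).2.1| |(hyPsi lam c u).2.2|) ≤ 2 * lam * R ^ 2 := by
  have u1 : |u.1| ≤ R := (le_max_left _ _).trans hu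
  have u2 : |u.2.1| ≤ R := ((le_max_left _ _).trans (le_max_right _ _)).trans hu
  have u3 : |u.2.2| ≤ R := ((le_max_right _ _).trans (le_max_right _ _)).trans hu
  have hRR : R ≤ R ^ 2 := by nlinarith
  have hl0 : 0 ≤ lam := by linarith
  have hR0 : 0 ≤ R := by linarith
  have hlR : lam * R ≤ lam * R ^ 2 := mul_le_mul_of_nonneg_left hRR hl0
  have hlR0 : 0 ≤ lam * R := by positivity
  refine max_le ?_ (max_le ?_ ?_)
  · show |u.1| ≤ _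
    nlinarith
  · show |lam * u.2.1 + c * u.1| ≤ _
    have e1 : |lam * u.2.1| ≤ lam * R := by rw [abs_mul, abs_of_nonneg hl0]; gcongr
    have e2 : |c * u.1| ≤ lam * R := by rw [abs_mul, abs_of_nonneg hc0]; gcongr
    have := abs_add_le (lam * u.2.1) (c * u.1)
    linarith
  · show |lam * u.2.2 + c * u.1 ^ 2| ≤ _
    have e1 : |lam * u.2.2| ≤ lam * R := by rw [abs_mul, abs_of_nonneg hl0]; gcongr
    have e2 : |c * u.1 ^ 2| ≤ lam * R ^ 2 := by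
      rw [abs_mul, abs_of_nonneg hc0, abs_pow]
      gcongr
    have := abs_add_le (lam * u.2.2) (c * u.1 ^ 2)
    linarith

/-- the ratio of the lengths of two cuts -/
theorem hy_tl_ratio {k k' : ℕ} (hk : k ≤ k') : ((2 : ℝ)⁻¹ ^ k) / ((2 : ℝ)⁻¹ ^ k') = 2 ^ (k' - k) := by
  obtain ⟨d, rfl⟩ := Nat.exists_eq_add_of_le hk
  rw [Nat.add_sub_cancel_left, pow_add, inv_pow, inv_pow]
  field_simp

theorem hy_tl_shift {T T' : ℝ} {k k' : ℕ} (hc : CutLe T k T' k') : 0 ≤ (T' - T) / ((2 : ℝ)⁻¹ ^ k') ∧ (T' - T) / ((2 : ℝ)⁻¹ ^ k') ≤ 2 ^ (k' - k) := by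
  have hl' : (0 : ℝ) < (2 : ℝ)⁻¹ ^ k' := by positivity
  refine ⟨div_nonneg (by linarith [hc.2.1]) hl'.le, ?_⟩
  rw [← hy_tl_ratio hc.1]
  exact div_le_div_of_nonneg_right (by linarith [hc.2.2]) hl'.le

/-- **base support** -/
theorem hy_tl_supp (p : ChyPar) (h : p.Ok) (η : ℝ) (hT : (p.sys η).Tight) (Q : CyT) (hr : 0 < Q.r) (T : ℝ) (k b : ℕ) (T' : ℝ) (k' b' k'' i : ℕ)
    (hc : CutLe T k T' k') (st : List (Stg (p.sys η))) (hst : StM st) (v : (p.sys η).Kc) (R R' : ℝ) (hR : 1 ≤ R) (hR' : 2 * 2 ^ (k' - k) * R ^ 2 ≤ R')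
    (h0 : (p.sys η).ms T k b {x | R < cyBaseSz Q ((2 : ℝ)⁻¹ ^ k) (p.co T x)} v = 0) :
    (p.sys η).ms T' k' b' {x | R' < cyBaseSz (cyMv Q (T' - T)) ((2 : ℝ)⁻¹ ^ k') (p.co T' x)} (Xp.run k'' i st v) = 0 := by
  have hl : (0 : ℝ) < (2 : ℝ)⁻¹ ^ k := by positivity
  have hl' : (0 : ℝ) < (2 : ℝ)⁻¹ ^ k' := by positivity
  have mSz : ∀ (Q : CyT) (T l : ℝ), Measurable fun ω : p.Om => cyBaseSz Q l (p.co T (ω, 0, 0)) := fun Q T l => by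
    have := hy_tl_mBase' p h Q T l
    unfold cyBaseSz
    exact (measurable_fst.comp this).abs.max (((measurable_fst.comp (measurable_snd.comp this)).abs).max ((measurable_snd.comp (measurable_snd.comp this)).abs))
  have hW : MeasurableSet {ω : p.Om | R < cyBaseSz Q ((2 : ℝ)⁻¹ ^ k) (p.co T (ω, 0, 0))} := measurableSet_lt measurable_const (mSz _ _ _)
  have hW' : MeasurableSet {ω : p.Om | R' < cyBaseSz (cyMv Q (T' - T)) ((2 : ℝ)⁻¹ ^ k') (p.co T' (ω, 0, 0))} := measurableSet_lt measurable_const (mSz _ _ _)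
  have hsub : hyW p {ω : p.Om | R' < cyBaseSz (cyMv Q (T' - T)) ((2 : ℝ)⁻¹ ^ k') (p.co T' (ω, 0, 0))}
      ⊆ hyW p {ω : p.Om | R < cyBaseSz Q ((2 : ℝ)⁻¹ ^ k) (p.co T (ω, 0, 0))} := by
    intro x hx
    by_contra hcon
    have hcon' : cyBaseSz Q ((2 : ℝ)⁻¹ ^ k) (p.co T (x.1, 0, 0)) ≤ R := not_lt.1 hcon
    have hx' : R' < cyBaseSz (cyMv Q (T' - T)) ((2 : ℝ)⁻¹ ^ k') (p.co T' (x.1, 0, 0)) := hx
    have e := hy_tl_base p Q hr T T' _ _ hl hl' (x.1, 0, 0)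
    have hb := hy_tl_psi_bd (((2 : ℝ)⁻¹ ^ k) / ((2 : ℝ)⁻¹ ^ k')) ((T' - T) / ((2 : ℝ)⁻¹ ^ k')) R
      (by rw [hy_tl_ratio hc.1]; exact one_le_pow₀ (by norm_num)) (hy_tl_shift hc).1 (by rw [hy_tl_ratio hc.1]; exact (hy_tl_shift hc).2) hR _ hcon'
    rw [← e, hy_tl_ratio hc.1] at hb
    have hb' : cyBaseSz (cyMv Q (T' - T)) ((2 : ℝ)⁻¹ ^ k') (p.co T' (x.1, 0, 0)) ≤ 2 * 2 ^ (k' - k) * R ^ 2 := hb
    linarith
  have c1 : (p.sys η).ms T' k' b' (hyW p {ω : p.Om | R' < cyBaseSz (cyMv Q (T' - T)) ((2 : ℝ)⁻¹ ^ k') (p.co T' (ω, 0, 0))}) (Xp.run k'' i st v)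
      ≤ (p.sys η).ms T' k' b' (hyW p {ω : p.Om | R < cyBaseSz Q ((2 : ℝ)⁻¹ ^ k) (p.co T (ω, 0, 0))}) (Xp.run k'' i st v) :=
    gn_ms_mono (P := p.sys η) _ _ _ (hy_tl_mW p hW') (hy_tl_mW p hW) hsub _
  have c2 := hy_tl_ind_le p h η hT hW T k b T' k' b' k'' i st hst v
  have c3 : (p.sys η).ms T k b (hyW p {ω : p.Om | R < cyBaseSz Q ((2 : ℝ)⁻¹ ^ k) (p.co T (ω, 0, 0))}) v = 0 := h0
  refine le_antisymm ?_ (gn_ms_nonneg _ _ _ _ _)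
  rw [c3] at c2
  exact c1.trans c2

/-- **marginal base density** -/
theorem hy_tl_dens (p : ChyPar) (h : p.Ok) (η : ℝ) (hT : (p.sys η).Tight) (Q : CyT) (hr : 0 < Q.r) (T : ℝ) (k b : ℕ) (T' : ℝ) (k' b' k'' i : ℕ)
    (hc : CutLe T k T' k') (st : List (Stg (p.sys η))) (hst : StM st) (v : (p.sys η).Kc) (c : ℝ≥0∞)
    (hd : ∀ S : Set (ℝ × ℝ × ℝ), MeasurableSet S → ENNReal.ofReal ((p.sys η).ms T k b {x | cyBase Q ((2 : ℝ)⁻¹ ^ k) (p.co T x) ∈ S} v) ≤ c * volume S)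
    (S : Set (ℝ × ℝ × ℝ)) (hS : MeasurableSet S) :
    ENNReal.ofReal ((p.sys η).ms T' k' b' {x | cyBase (cyMv Q (T' - T)) ((2 : ℝ)⁻¹ ^ k') (p.co T' x) ∈ S} (Xp.run k'' i st v)) ≤ c * volume S := by
  have hl : (0 : ℝ) < (2 : ℝ)⁻¹ ^ k := by positivity
  have hl' : (0 : ℝ) < (2 : ℝ)⁻¹ ^ k' := by positivity
  set lam := ((2 : ℝ)⁻¹ ^ k) / ((2 : ℝ)⁻¹ ^ k') with hlam
  set cc := (T' - T) / ((2 : ℝ)⁻¹ ^ k') with hcc
  have hS' : MeasurableSet (hyPsi lam cc ⁻¹' S) := hy_tl_mPsi lam cc hS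
  have hW : MeasurableSet {ω : p.Om | cyBase Q ((2 : ℝ)⁻¹ ^ k) (p.co T (ω, 0, 0)) ∈ hyPsi lam cc ⁻¹' S} := hy_tl_mBase' p h Q T _ hS'
  have e : {x : p.Om × ℝ × ℝ | cyBase (cyMv Q (T' - T)) ((2 : ℝ)⁻¹ ^ k') (p.co T' x) ∈ S}
      = hyW p {ω : p.Om | cyBase Q ((2 : ℝ)⁻¹ ^ k) (p.co T (ω, 0, 0)) ∈ hyPsi lam cc ⁻¹' S} := by
    ext x
    have := hy_tl_base p Q hr T T' _ _ hl hl' x
    show cyBase (cyMv Q (T' - T)) ((2 : ℝ)⁻¹ ^ k') (p.co T' x) ∈ S ↔ hyPsi lam cc (cyBase Q ((2 : ℝ)⁻¹ ^ k) (p.co T x)) ∈ S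
    rw [this]
  have c2 := hy_tl_ind_le p h η hT hW T k b T' k' b' k'' i st hst v
  have c3 := hd _ hS'
  have c4 : volume (hyPsi lam cc ⁻¹' S) ≤ volume S := hy_tl_vol lam cc (by rw [hlam, hy_tl_ratio hc.1]; exact one_le_pow₀ (by norm_num)) S hS
  calc ENNReal.ofReal ((p.sys η).ms T' k' b' {x | cyBase (cyMv Q (T' - T)) ((2 : ℝ)⁻¹ ^ k') (p.co T' x) ∈ S} (Xp.run k'' i st v))
      = ENNReal.ofReal ((p.sys η).ms T' k' b' (hyW p {ω : p.Om | cyBase Q ((2 : ℝ)⁻¹ ^ k) (p.co T (ω, 0, 0)) ∈ hyPsi lam cc ⁻¹' S}) (Xp.run k'' i st v)) := by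
        exact congrArg (fun Z : Set (p.Om × ℝ × ℝ) => ENNReal.ofReal ((p.sys η).ms T' k' b' Z (Xp.run k'' i st v))) e
    _ ≤ ENNReal.ofReal ((p.sys η).ms T k b (hyW p {ω : p.Om | cyBase Q ((2 : ℝ)⁻¹ ^ k) (p.co T (ω, 0, 0)) ∈ hyPsi lam cc ⁻¹' S}) v) := ENNReal.ofReal_le_ofReal c2
    _ ≤ c * volume (hyPsi lam cc ⁻¹' S) := c3
    _ ≤ c * volume S := by gcongr

/-- the exterior of a normalised normal box -/
theorem hy_tl_nor_box (p : ChyPar) (Q : CyT) (hf : 0 < Q.f) (T l R : ℝ) (hl : 0 < l) :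
    {x : p.Om × ℝ × ℝ | R < cyNorSz Q l (p.co T x)} = (hyBx p Q T (R * Q.f) (R * (l * Q.f)))ᶜ := by
  ext x
  have hlf : 0 < l * Q.f := mul_pos hl hf
  show R < max |cyVel Q (p.co T x) / Q.f| |cyPos Q (p.co T x) / (l * Q.f)| ↔ ¬ (|cyVel Q (p.co T x)| ≤ R * Q.f ∧ |cyPos Q (p.co T x)| ≤ R * (l * Q.f))
  rw [abs_div, abs_div, abs_of_pos hf, abs_of_pos hlf, lt_max_iff, lt_div_iff₀ hf, lt_div_iff₀ hlf, not_and_or, not_le, not_le]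

/-- **normal tails** -/
theorem hy_tl_tail (η : ℝ) (hK : HyKer η) (p : ChyPar) (h : p.Ok) (hT : (p.sys η).Tight) (Q : CyT) (hf : 0 < Q.f) (k k' i b b' : ℕ) (hk : k ≤ k')
    (st : List (Stg (p.sys η))) (hst : StM st) (hdep : ∀ σ ∈ st, k ≤ σ.k ∧ σ.k ≤ k') (hpw : st.Pairwise (fun σ σ' => σ.k ≤ σ'.k))
    (v : (p.sys η).Kc) (hv : v ∈ (p.sys η).Pl b) (Λ : ℝ) (hΛ : 1 ≤ Λ) (R a' b₂ R' : ℝ) (hR : 0 ≤ R)
    (ha' : R * Q.f + ((st.length : ℝ) + 1) * (Λ * p.dl k') ≤ a')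
    (hb₂ : R * ((2 : ℝ)⁻¹ ^ k * Q.f) + (tmL k' i - tmL k (ancI k' k i)) * a' + ((st.length : ℝ) + 1) * (Λ * p.ql k) ≤ b₂)
    (h1 : a' ≤ R' * Q.f) (h2 : b₂ ≤ R' * ((2 : ℝ)⁻¹ ^ k' * Q.f)) :
    Real.sqrt ((p.sys η).ms (tmL k' i) k' b' {x | R' < cyNorSz (cyMv Q (tmL k' i - tmL k (ancI k' k i))) ((2 : ℝ)⁻¹ ^ k') (p.co (tmL k' i) x)} (Xp.run k' i st v))
      ≤ Real.sqrt ((p.sys η).ms (tmL k (ancI k' k i)) k b {x | R < cyNorSz Q ((2 : ℝ)⁻¹ ^ k) (p.co (tmL k (ancI k' k i)) x)} v)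
        + ((st.length : ℝ) + 1) * (52 * Real.exp (-(Λ ^ 2 / 40)) * 2 ^ (((k' : ℝ) - k) / 4)) * ‖v‖ := by
  have hl : (0 : ℝ) < (2 : ℝ)⁻¹ ^ k := by positivity
  have hl' : (0 : ℝ) < (2 : ℝ)⁻¹ ^ k' := by positivity
  set T := tmL k (ancI k' k i) with hTdef
  set T' := tmL k' i with hT'def
  have hch := hy_tl_chain η hK p h hT Λ hΛ k' i b' st k b Q (R * Q.f) (R * ((2 : ℝ)⁻¹ ^ k * Q.f)) a' b₂ ((p.sys η).An T k b v) hst hdep hk hpw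
    (by positivity) ha' hb₂
  have hadj : ContinuousLinearMap.adjoint ((p.sys η).An T k b) ((p.sys η).An T k b v) = v := gn_adj_an (P := p.sys η) hT T k b hv
  rw [hadj] at hch
  have e1 : {x : p.Om × ℝ × ℝ | R' < cyNorSz (cyMv Q (T' - T)) ((2 : ℝ)⁻¹ ^ k') (p.co T' x)} ⊆ (hyBx p (cyMv Q (T' - T)) T' a' b₂)ᶜ := by
    rw [hy_tl_nor_box p (cyMv Q (T' - T)) hf T' _ R' hl']
    exact Set.compl_subset_compl.2 (hy_tl_bx_mono p _ _ h1 h2)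
  have m1 : MeasurableSet {x : p.Om × ℝ × ℝ | R' < cyNorSz (cyMv Q (T' - T)) ((2 : ℝ)⁻¹ ^ k') (p.co T' x)} := by
    rw [hy_tl_nor_box p (cyMv Q (T' - T)) hf T' _ R' hl']
    exact (hy_tl_mBx p h _ _ _ _).compl
  have c1 : (p.sys η).ms T' k' b' {x | R' < cyNorSz (cyMv Q (T' - T)) ((2 : ℝ)⁻¹ ^ k') (p.co T' x)} (Xp.run k' i st v)
      ≤ (p.sys η).ms T' k' b' (hyBx p (cyMv Q (T' - T)) T' a' b₂)ᶜ (Xp.run k' i st v) :=
    gn_ms_mono (P := p.sys η) _ _ _ m1 (hy_tl_mBx p h _ _ _ _).compl e1 _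
  have c2 : ‖(p.sys η).mulR k ((hyBx p Q T (R * Q.f) (R * ((2 : ℝ)⁻¹ ^ k * Q.f)))ᶜ.indicator fun _ => 1) ((p.sys η).An T k b v)‖
      = Real.sqrt ((p.sys η).ms T k b {x | R < cyNorSz Q ((2 : ℝ)⁻¹ ^ k) (p.co T x)} v) := by
    have e2 := hy_tl_nor_box p Q hf T _ R hl
    have e3 := (hy_tl_sqrt_ms (P := p.sys η) T k b (hy_tl_mBx p h Q T (R * Q.f) (R * ((2 : ℝ)⁻¹ ^ k * Q.f))).compl v).symm
    refine e3.trans ?_
    exact congrArg (fun Z : Set (p.Om × ℝ × ℝ) => Real.sqrt ((p.sys η).ms T k b Z v)) e2.symm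
  have c3 : ‖(p.sys η).An T k b v‖ ≤ ‖v‖ := hT.contr T k b v
  have hε0 : 0 ≤ ((st.length : ℝ) + 1) * (52 * Real.exp (-(Λ ^ 2 / 40)) * (2 : ℝ) ^ (((k' : ℝ) - k) / 4)) := by positivity
  calc Real.sqrt ((p.sys η).ms T' k' b' {x | R' < cyNorSz (cyMv Q (T' - T)) ((2 : ℝ)⁻¹ ^ k') (p.co T' x)} (Xp.run k' i st v))
      ≤ Real.sqrt ((p.sys η).ms T' k' b' (hyBx p (cyMv Q (T' - T)) T' a' b₂)ᶜ (Xp.run k' i st v)) := Real.sqrt_le_sqrt c1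
    _ ≤ _ := hch
    _ ≤ _ := by
      rw [c2]
      exact add_le_add le_rfl (mul_le_mul_of_nonneg_left c3 hε0)

end Claimed.Agent.R256
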